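import Claimed.Agent.R252.Norm.Ops

/-!
# ROW 252 (S0492), unit NORM (post BP-252-S2aC, sub-architect helper22), file 12: L2.13 AT THE SEQUENCE LEVEL, part 2: EXISTENCE OF A HOMOGENEOUS REMAINING PROBLEM  (02 l.666-690, 742-746).
CONTRACT file: every `sorry` is a leaf `L-252-NORM-X*`.  Prefix `k2n_`.   EXIT: `k2n_hub_norm` = `kb_norm` of `Base/Hub2.lean`, verbatim (`k2n_hub_norm'` has one more clause: the joint inequality).

PLAN of `k2n_hub_norm'`.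
 A. `k2n_exist_charts` : drop the extremely light charts and homogenise `J_c / ν_c` : `keep₁`, `e`, `M`;  `Y₁ = restr Y keep₁ univ`.
 B. `E₁ = E.norm Y₁ r` is `Ok` (`k2n_norm_ok`);  `k2a_hub_homog E₁` gives a dense selection `S` of `E₁` and `f'` with `(E₁.sel S).Hom f'`.
 C. pull `S` back to the old coordinates (`k2nPull`), keep the charts which retain the fraction `θ = M₁/2` of their selected mass (`k2nRet`; Markov: `k2n_retain`) : `Y₂ = restr Y keep₂ S''`.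
    True floors survive (`k2n_exist_true`), `Y₂` is an atlas, `J_c / ν_c` and the lower bound of `ν_c` are inherited.
 D. `E.norm Y₂ r` has a sub-collection of the worlds of `E₁.sel S`, with the SAME measures, coordinates and labels, and weights multiplied by `Z₁ / Z₂ ≤ N^τ` : `k2n_cmp_mass`, hence `Hom f'` (`k2n_cmp_hom`).
 E. `k2n_profile`, `k2n_cap` for the fixed atlas `Y₂`.
-/

set_option autoImplicit false
set_option linter.unusedVariables false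

namespace Claimed.Agent.R252

open MeasureTheory Filter Topology
open Claimed.Agent.R255 (uf ulim)
open scoped ENNReal BigOperators

noncomputable section

variable {v : KbVer}

namespace KbSys

variable {P : KbPb v} (Y : KbSys P)

/-- a selection of the normalised problem of `restr keep₁ univ`, in the old coordinates -/
def k2nPull (keep₁ : Set Y.C) (S : keep₁ → Set (P.Lam × ℝ)) : Y.C → Set (P.Lam × ℝ) :=
  fun c => {x | ∃ h : c ∈ keep₁, Y.k2nBack c x ∈ S ⟨c, h⟩}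

/-- the charts of `keep₁` which retain the fraction `θ` of their selected mass -/
def k2nRet (keep₁ : Set Y.C) (S'' : Y.C → Set (P.Lam × ℝ)) (θ : ℝ≥0∞) : Set Y.C :=
  {c | c ∈ keep₁ ∧ θ * Y.mC c ≤ P.mu (Y.wd c) (Y.S c ∩ S'' c)}

/-! ## L-252-NORM-X1 : one scale: pull back, retention -/

theorem k2n_pull_meas (keep₁ : Set Y.C) (S : keep₁ → Set (P.Lam × ℝ)) (hS : ∀ c, MeasurableSet (S c)) (c : Y.C) : MeasurableSet (Y.k2nPull keep₁ S c) := by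
  by_cases h : c ∈ keep₁
  · have e : Y.k2nPull keep₁ S c = Y.k2nBack c ⁻¹' S ⟨c, h⟩ := by
      ext x
      constructor
      · rintro ⟨_, hx⟩
        exact hx
      · intro hx
        exact ⟨h, hx⟩
    rw [e]
    exact Y.k2n_back_meas c (hS _)
  · have e : Y.k2nPull keep₁ S c = ∅ := by
      ext x
      constructor
      · rintro ⟨h', _⟩
        exact absurd h' h
      · intro hx
        exact hx.elim
    rw [e]
    exact MeasurableSet.empty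

/-- the selected mass of the pulled back system (`k2n_norm_mass`, `k2s_restr_mass`) -/
theorem k2n_pull_mass (hP : P.WF) (hY : Y.WF) (a : ℝ) (keep₁ : Set Y.C) (S : keep₁ → Set (P.Lam × ℝ)) (hS : ∀ c, MeasurableSet (S c))
    (hZ : (Y.restr keep₁ fun _ => Set.univ).Z ≠ 0) :
    (Y.restr keep₁ (Y.k2nPull keep₁ S)).mass = (Y.restr keep₁ fun _ => Set.univ).Z * ((Y.restr keep₁ fun _ => Set.univ).norm a).mass S := by
  have hY₁ : (Y.restr keep₁ fun _ => Set.univ).WF := k2s_restr_wf Y keep₁ _ hY fun _ => MeasurableSet.univ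
  have hZ1 : (Y.restr keep₁ fun _ => Set.univ).Z ≠ ∞ :=
    ne_top_of_le_ne_top ENNReal.one_ne_top ((Y.restr keep₁ fun _ => Set.univ).k2n_Z_le_one hP hY₁)
  rw [(Y.restr keep₁ fun _ => Set.univ).k2n_norm_mass hP hY₁ a S hS, ENNReal.mul_div_cancel hZ hZ1]
  refine Finset.sum_congr rfl fun c _ => ?_
  have e : (Y.restr keep₁ (Y.k2nPull keep₁ S)).S c
      = (Y.restr keep₁ fun _ => Set.univ).k2nBack c ⁻¹' S c ∩ (Y.restr keep₁ fun _ => Set.univ).S c := by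
    ext x
    constructor
    · rintro ⟨h1, _, h2⟩
      exact ⟨h2, h1, trivial⟩
    · rintro ⟨h2, h1, _⟩
      exact ⟨h1, c.2, h2⟩
  show P.om (Y.wd c.1) * P.mu (Y.wd c.1) ((Y.restr keep₁ (Y.k2nPull keep₁ S)).S c) = _
  rw [e]
  rfl

/-- Markov: the charts with small retention carry at most `θ` -/
theorem k2n_retain (hP : P.WF) (hY : Y.WF) (keep₁ : Set Y.C) (S'' : Y.C → Set (P.Lam × ℝ)) (θ : ℝ≥0∞) :
    (Y.restr keep₁ S'').mass ≤ (Y.restr (Y.k2nRet keep₁ S'' θ) S'').mass + θ := by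
  classical
  rw [k2s_restr_mass, k2s_restr_mass]
  have h1 : θ * Y.mass ≤ θ := by
    calc θ * Y.mass ≤ θ * 1 := mul_le_mul' le_rfl (k2s_mass_le_one Y hP hY)
      _ = θ := mul_one _
  refine le_trans ?_ (add_le_add le_rfl h1)
  unfold KbSys.mass
  rw [Finset.mul_sum, ← Finset.sum_add_distrib]
  refine Finset.sum_le_sum fun c _ => ?_
  by_cases hc : c ∈ keep₁
  · rw [if_pos hc]
    by_cases hr : c ∈ Y.k2nRet keep₁ S'' θ
    · rw [if_pos hr]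
      exact le_self_add
    · rw [if_neg hr, zero_add]
      have h2 : P.mu (Y.wd c) (Y.S c ∩ S'' c) ≤ θ * Y.mC c := by
        by_contra hcon
        exact hr ⟨hc, (not_le.1 hcon).le⟩
      calc P.om (Y.wd c) * P.mu (Y.wd c) (Y.S c ∩ S'' c) ≤ P.om (Y.wd c) * (θ * Y.mC c) := mul_le_mul' le_rfl h2
        _ = θ * (P.om (Y.wd c) * Y.mC c) := by ring
  · rw [if_neg hc]
    exact zero_le

/-! ## L-252-NORM-X2 : one scale: comparison of the two normalised problems -/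

/-- the events of a common world coincide -/
theorem k2n_cmp_Ev (a : ℝ) (keep₁ keep₂ : Set Y.C) (hsub : keep₂ ⊆ keep₁) (S : keep₁ → Set (P.Lam × ℝ)) (c : keep₂) :
    ((Y.restr keep₂ (Y.k2nPull keep₁ S)).norm a).Ev c = (((Y.restr keep₁ fun _ => Set.univ).norm a).sel S).Ev ⟨c.1, hsub c.2⟩ := by
  ext x
  constructor
  · rintro ⟨h1, h', h2⟩
    refine ⟨⟨h1, trivial⟩, ?_⟩
    have e : Y.k2nBack c.1 (x.1, (Y.restr keep₂ (Y.k2nPull keep₁ S)).tOf c x.2) = x := Y.k2n_back_inc c.1 x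
    rw [e] at h2
    exact h2
  · rintro ⟨⟨h1, _⟩, h2⟩
    refine ⟨h1, hsub c.2, ?_⟩
    have e : Y.k2nBack c.1 (x.1, (Y.restr keep₂ (Y.k2nPull keep₁ S)).tOf c x.2) = x := Y.k2n_back_inc c.1 x
    rw [e]
    exact h2

theorem k2n_cmp_mu (a : ℝ) (keep₁ keep₂ : Set Y.C) (hsub : keep₂ ⊆ keep₁) (S : keep₁ → Set (P.Lam × ℝ)) (c : keep₂) :
    ((Y.restr keep₂ (Y.k2nPull keep₁ S)).norm a).mu c = (((Y.restr keep₁ fun _ => Set.univ).norm a).sel S).mu ⟨c.1, hsub c.2⟩ := by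
  unfold KbPb.mu
  rw [k2n_cmp_Ev Y a keep₁ keep₂ hsub S c]
  rfl

theorem k2n_cmp_dn {D : Type} (a : ℝ) (keep₁ keep₂ : Set Y.C) (hsub : keep₂ ⊆ keep₁) (S : keep₁ → Set (P.Lam × ℝ))
    (ℓ₁ : ((Y.restr keep₁ fun _ => Set.univ).norm a).Lab D) (c : keep₂) (x : P.Lam × ℝ) :
    ((Y.restr keep₂ (Y.k2nPull keep₁ S)).norm a).dn (fun c : keep₂ => ℓ₁ ⟨c.1, hsub c.2⟩) c x
      = (((Y.restr keep₁ fun _ => Set.univ).norm a).sel S).dn ℓ₁ ⟨c.1, hsub c.2⟩ x := by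
  unfold KbPb.dn KbPb.den KbPb.part
  rw [k2n_cmp_mu Y a keep₁ keep₂ hsub S c]
  rfl

/-- **comparison.**  `P₂ = (restr keep₂ (pull S)).norm a`, `P₁ = ((restr keep₁ univ).norm a).sel S`, `keep₂ ⊆ keep₁`.  In a common world: same `nu`, `co`, `B`, `Pst` (rfl), same `Ev` (`k2n_back_inc`), hence same `mu`, `bs`, `dn`;
weights `ω q ν_c / Z₂` against `ω q ν_c / Z₁`, `Z₁ ≤ 1`. -/
theorem k2n_cmp_mass {D : Type} (hP : P.WF) (hY : Y.WF) (a : ℝ) (keep₁ keep₂ : Set Y.C) (hsub : keep₂ ⊆ keep₁) (S : keep₁ → Set (P.Lam × ℝ))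
    (hS : ∀ c, MeasurableSet (S c)) (ℓ₁ : ((Y.restr keep₁ fun _ => Set.univ).norm a).Lab D) (B : Set ℝ≥0∞) :
    ((Y.restr keep₂ (Y.k2nPull keep₁ S)).norm a).mass
        (fun c => {x | ((Y.restr keep₂ (Y.k2nPull keep₁ S)).norm a).dn (fun c : keep₂ => ℓ₁ ⟨c.1, hsub c.2⟩) c x ∈ B})
      ≤ (((Y.restr keep₁ fun _ => Set.univ).norm a).sel S).mass
          (fun c => {x | (((Y.restr keep₁ fun _ => Set.univ).norm a).sel S).dn ℓ₁ c x ∈ B}) / (Y.restr keep₂ (Y.k2nPull keep₁ S)).Z := by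
  classical
  have hY₁ : (Y.restr keep₁ fun _ => Set.univ).WF := k2s_restr_wf Y keep₁ _ hY fun _ => MeasurableSet.univ
  have hZ1 : (Y.restr keep₁ fun _ => Set.univ).Z ≤ 1 := (Y.restr keep₁ fun _ => Set.univ).k2n_Z_le_one hP hY₁
  obtain ⟨F, hF⟩ : ∃ F : Y.C → ℝ≥0∞, ∀ c, F c = if h : c ∈ keep₁ then
      P.om (Y.wd c) * ENNReal.ofReal Y.q * Y.nuC c * (((Y.restr keep₁ fun _ => Set.univ).norm a).sel S).mu ⟨c, h⟩
        {x | (((Y.restr keep₁ fun _ => Set.univ).norm a).sel S).dn ℓ₁ ⟨c, h⟩ x ∈ B} else 0 := ⟨_, fun _ => rfl⟩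
  have e2 : ((Y.restr keep₂ (Y.k2nPull keep₁ S)).norm a).mass
        (fun c => {x | ((Y.restr keep₂ (Y.k2nPull keep₁ S)).norm a).dn (fun c : keep₂ => ℓ₁ ⟨c.1, hsub c.2⟩) c x ∈ B})
      = (∑ c : (Y.restr keep₂ (Y.k2nPull keep₁ S)).C, F (c : keep₂).1) / (Y.restr keep₂ (Y.k2nPull keep₁ S)).Z := by
    rw [div_eq_mul_inv, Finset.sum_mul]
    refine Finset.sum_congr rfl fun c _ => ?_
    rw [hF, dif_pos (hsub c.2)]
    have es : {x | ((Y.restr keep₂ (Y.k2nPull keep₁ S)).norm a).dn (fun c : keep₂ => ℓ₁ ⟨c.1, hsub c.2⟩) c x ∈ B}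
        = {x | (((Y.restr keep₁ fun _ => Set.univ).norm a).sel S).dn ℓ₁ ⟨c.1, hsub c.2⟩ x ∈ B} := by
      ext x
      show _ ∈ B ↔ _ ∈ B
      rw [k2n_cmp_dn Y a keep₁ keep₂ hsub S ℓ₁ c x]
    simp only [es, k2n_cmp_mu Y a keep₁ keep₂ hsub S c]
    show (P.om (Y.wd c.1) * ENNReal.ofReal Y.q * Y.nuC c.1 / (Y.restr keep₂ (Y.k2nPull keep₁ S)).Z) * _ = _
    rw [div_eq_mul_inv]
    exact mul_right_comm _ _ _
  have e1 : ∑ c : (Y.restr keep₁ fun _ => Set.univ).C, F (c : keep₁).1 ≤ (((Y.restr keep₁ fun _ => Set.univ).norm a).sel S).mass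
          (fun c => {x | (((Y.restr keep₁ fun _ => Set.univ).norm a).sel S).dn ℓ₁ c x ∈ B}) := by
    refine Finset.sum_le_sum fun c _ => ?_
    rw [hF, dif_pos c.2]
    refine mul_le_mul' ?_ le_rfl
    show P.om (Y.wd c.1) * ENNReal.ofReal Y.q * Y.nuC c.1 ≤ P.om (Y.wd c.1) * ENNReal.ofReal Y.q * Y.nuC c.1 / (Y.restr keep₁ fun _ => Set.univ).Z
    calc P.om (Y.wd c.1) * ENNReal.ofReal Y.q * Y.nuC c.1 = P.om (Y.wd c.1) * ENNReal.ofReal Y.q * Y.nuC c.1 / 1 := (div_one _).symm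
      _ ≤ _ := ENNReal.div_le_div_left hZ1 _
  rw [e2]
  refine ENNReal.div_le_div_right (le_trans ?_ e1) _
  rw [k2s_restr_sum Y keep₂ _ F, k2s_restr_sum Y keep₁ _ F]
  refine Finset.sum_le_sum fun c _ => ?_
  by_cases h2 : c ∈ keep₂
  · rw [if_pos h2, if_pos (hsub h2)]
  · rw [if_neg h2]
    exact zero_le

/-- the standard labels correspond -/
theorem k2n_cmp_hid (a a' : ℝ) (keep₁ keep₂ : Set Y.C) (hsub : keep₂ ⊆ keep₁) (S'' : Y.C → Set (P.Lam × ℝ)) :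
    ((Y.restr keep₂ S'').norm a).hid a' = fun c : keep₂ => ((Y.restr keep₁ fun _ => Set.univ).norm a).hid a' ⟨c.1, hsub c.2⟩ := rfl

theorem k2n_cmp_hv (a a' b : ℝ) (keep₁ keep₂ : Set Y.C) (hsub : keep₂ ⊆ keep₁) (S'' : Y.C → Set (P.Lam × ℝ)) :
    ((Y.restr keep₂ S'').norm a).hv a' b = fun c : keep₂ => ((Y.restr keep₁ fun _ => Set.univ).norm a).hv a' b ⟨c.1, hsub c.2⟩ := rfl

end KbSys

namespace KbEx

variable (E : KbEx v)

/-! ## L-252-NORM-X3 : step A -/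

/-- polynomial bounds of a system -/
theorem k2n_x3_basic (hE : E.Ok) (Y : E.Sys) (r h : ℝ) (hY : E.IsSys Y r h) :
    ∃ A : ℝ, 0 ≤ A ∧ ∀ᶠ k in uf, (E.P k).WF ∧ (Y k).WF ∧ (Fintype.card (Y k).C : ℝ) ≤ E.R.N k ^ A ∧
      ∀ c, E.R.N k ^ (-A) ≤ ((Y k).ch c).J ∧ ((Y k).ch c).J ≤ E.R.N k ^ (2 : ℝ) := by
  obtain ⟨M, hM⟩ := hY.1
  refine ⟨|M|, abs_nonneg M, ?_⟩
  filter_upwards [hM, hY.2.1 1 one_pos, k2a_ok_wf hE] with k hk hG hW
  have hN1 : 1 ≤ E.R.N k := kb_res_one_le E.R k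
  have hN0 : 0 < E.R.N k := kb_res_pos E.R k
  have hq0 : 0 < (Y k).q := (Y k).k2n_q_pos
  have hq1 : (Y k).q ≤ 1 := k2n_kbQ_le_one _
  have hNM : E.R.N k ^ M ≤ E.R.N k ^ |M| := Real.rpow_le_rpow_of_exponent_le hN1 (le_abs_self M)
  have hNMpos : 0 < E.R.N k ^ |M| := Real.rpow_pos_of_pos hN0 _
  refine ⟨hW, hk.1, hk.2.card.trans hNM, fun c => ?_⟩
  have hJ0 : 0 < ((Y k).ch c).J := k2s_J_pos (Y k) hk.1 c
  have hJlow : 1 ≤ E.R.N k ^ |M| * ((Y k).ch c).J := le_trans (hk.2.J_low c) (mul_le_mul_of_nonneg_right hNM hJ0.le)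
  constructor
  · rw [Real.rpow_neg hN0.le, inv_le_iff_one_le_mul₀ hNMpos]
    linarith [mul_comm (E.R.N k ^ |M|) ((Y k).ch c).J]
  · have h1 : ((Y k).ch c).J ≤ kbMn ((Y k).ch c).D ^ v.j := k2n_det_le _
    have h2 : kbMn ((Y k).ch c).D ≤ E.R.N k := by
      have := hG.1.size c
      rw [Real.rpow_one] at this
      calc kbMn ((Y k).ch c).D ≤ (Y k).q * E.R.N k := this
        _ ≤ 1 * E.R.N k := mul_le_mul_of_nonneg_right hq1 hN0.le
        _ = E.R.N k := one_mul _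
    have h3 : kbMn ((Y k).ch c).D ^ v.j ≤ E.R.N k ^ v.j := pow_le_pow_left₀ (k2n_Mn_nonneg _) h2 _
    have h4 : E.R.N k ^ v.j ≤ E.R.N k ^ 2 := pow_le_pow_right₀ hN1 (by cases v <;> simp [KbVer.j])
    rw [Real.rpow_two]
    exact h1.trans (h3.trans h4)

/-- the selected mass of a sub-collection of charts with small priors is small -/
theorem k2n_x3_mass {P : KbPb v} (Y : KbSys P) (hP : P.WF) (hY : Y.WF) (keep : Set Y.C) (b : ℝ) (hb : 0 ≤ b)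
    (hν : ∀ c ∈ keep, (Y.nuC c).toReal ≤ b) : (Y.restr keep fun _ => Set.univ).mass ≤ ENNReal.ofReal (Fintype.card Y.C * b) := by
  classical
  rw [k2s_restr_mass]
  have h1 : ∀ c, (if c ∈ keep then P.om (Y.wd c) * P.mu (Y.wd c) (Y.S c ∩ Set.univ) else 0) ≤ ENNReal.ofReal b := by
    intro c
    by_cases hc : c ∈ keep
    · rw [if_pos hc, Set.inter_univ]
      have hom : P.om (Y.wd c) ≤ 1 := by
        rw [← hP.om_sum]
        exact Finset.single_le_sum (f := P.om) (fun _ _ => zero_le) (Finset.mem_univ _)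
      have hm : P.mu (Y.wd c) (Y.S c) ≤ ENNReal.ofReal Y.q * Y.nuC c := k2s_mC_le Y hP hY c
      have hq : ENNReal.ofReal Y.q ≤ 1 := by
        rw [← ENNReal.ofReal_one]
        exact ENNReal.ofReal_le_ofReal (k2n_kbQ_le_one _)
      have hn : Y.nuC c ≤ ENNReal.ofReal b := by
        rw [← ENNReal.ofReal_toReal (Y.k2n_nuC_ne_top hP c)]
        exact ENNReal.ofReal_le_ofReal (hν c hc)
      calc P.om (Y.wd c) * P.mu (Y.wd c) (Y.S c) ≤ 1 * (1 * ENNReal.ofReal b) :=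
            mul_le_mul' hom (hm.trans (mul_le_mul' hq hn))
        _ = ENNReal.ofReal b := by rw [one_mul, one_mul]
    · rw [if_neg hc]
      exact zero_le
  calc ∑ c, (if c ∈ keep then P.om (Y.wd c) * P.mu (Y.wd c) (Y.S c ∩ Set.univ) else 0) ≤ ∑ _c : Y.C, ENNReal.ofReal b :=
        Finset.sum_le_sum fun c _ => h1 c
    _ = ENNReal.ofReal (Fintype.card Y.C * b) := by
        rw [Finset.sum_const, Finset.card_univ, nsmul_eq_mul, ENNReal.ofReal_mul (Nat.cast_nonneg _), ENNReal.ofReal_natCast]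

/-- **light charts are discarded, `J_c / ν_c` is homogenised.**   PLAN: `k2n_hub_homog_ch` for the clamped quantity `x c = min (J_c / ν_c) (N^{M₁})` (`= N^{M₁}` if `ν_c = 0`), `N^{-M} ≤ J_c ≤ x c` by `Tmp.J_low`, `ν_c ≤ 1`.
If the common exponent were the clamp value, all kept charts had `ν_c ≤ J_c N^{-M₁+τ}`, so the kept mass `≤ ∑ ω q ν_c ≤ card · N^{-M₁+2τ}` contradicts `Big` for `M₁ > M + 1`.  So eventually `x c = J_c / ν_c` on the kept charts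
and `ν_c ≥ J_c N^{e-τ} ≥ N^{-M+e-τ}`. -/
theorem k2n_exist_charts (hE : E.Ok) (Y : E.Sys) (r h : ℝ) (hY : E.IsSys Y r h) :
    ∃ (keep₁ : ∀ k, Set (Y k).C) (e M : ℝ), E.IsSys (E.restr Y keep₁ fun _ _ => Set.univ) r h ∧
      E.ChExp (E.restr Y keep₁ fun _ _ => Set.univ) (E.k2nXJ (E.restr Y keep₁ fun _ _ => Set.univ)) e ∧
      ∀ᶠ k in uf, ∀ c, 1 ≤ ENNReal.ofReal (E.R.N k ^ M) * (E.restr Y keep₁ (fun _ _ => Set.univ) k).nuC c := by
  classical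
  have hne := Claimed.Agent.R255.uf_neBot
  obtain ⟨A, hA0, hbas⟩ := E.k2n_x3_basic hE Y r h hY
  obtain ⟨M₁, hM₁⟩ : ∃ M₁ : ℝ, M₁ = A + 4 := ⟨_, rfl⟩
  obtain ⟨x, hxdef⟩ : ∃ x : ∀ k, (Y k).C → ℝ, ∀ k c, x k c = if (Y k).nuC c = 0 then E.R.N k ^ M₁
      else min (((Y k).ch c).J / ((Y k).nuC c).toReal) (E.R.N k ^ M₁) := ⟨_, fun _ _ => rfl⟩
  have hx : ∀ᶠ k in uf, ∀ c, E.R.N k ^ (-M₁) ≤ x k c ∧ x k c ≤ E.R.N k ^ M₁ := by
    filter_upwards [hbas] with k hk c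
    obtain ⟨hP, hYk, hcard, hJ⟩ := hk
    obtain ⟨hJ1, hJ2⟩ := hJ c
    have hN1 := kb_res_one_le E.R k
    have hle : E.R.N k ^ (-M₁) ≤ E.R.N k ^ (-A) := Real.rpow_le_rpow_of_exponent_le hN1 (by linarith)
    have hle2 : E.R.N k ^ (-M₁) ≤ E.R.N k ^ M₁ := Real.rpow_le_rpow_of_exponent_le hN1 (by linarith)
    have hpos : 0 < E.R.N k ^ (-M₁) := kb_L3_rpow_pos E.R k _
    rw [hxdef]
    by_cases h0 : (Y k).nuC c = 0
    · rw [if_pos h0]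
      exact ⟨hle2, le_rfl⟩
    · rw [if_neg h0]
      refine ⟨le_min ?_ hle2, min_le_right _ _⟩
      have hνpos : 0 < ((Y k).nuC c).toReal := ENNReal.toReal_pos h0 ((Y k).k2n_nuC_ne_top hP c)
      have hν1 : ((Y k).nuC c).toReal ≤ 1 :=
        ENNReal.toReal_le_of_le_ofReal zero_le_one (by rw [ENNReal.ofReal_one]; exact (Y k).k2n_nuC_le_one hP c)
      rw [le_div_iff₀ hνpos]
      calc E.R.N k ^ (-M₁) * ((Y k).nuC c).toReal ≤ E.R.N k ^ (-M₁) * 1 := mul_le_mul_of_nonneg_left hν1 hpos.le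
        _ = E.R.N k ^ (-M₁) := mul_one _
        _ ≤ ((Y k).ch c).J := hle.trans hJ1
  obtain ⟨keep, e, hSys, hCh⟩ := k2n_hub_homog_ch E hE Y r h hY x M₁ hx
  have hνx : ∀ᶠ k in uf, ∀ c, ((Y k).nuC c).toReal * x k c ≤ ((Y k).ch c).J := by
    filter_upwards [hbas] with k hk c
    obtain ⟨hP, hYk, hcard, hJ⟩ := hk
    have hJ0 : 0 ≤ ((Y k).ch c).J := le_trans (kb_L3_rpow_pos E.R k _).le (hJ c).1
    rw [hxdef]
    by_cases h0 : (Y k).nuC c = 0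
    · rw [h0]
      simpa using hJ0
    · rw [if_neg h0]
      have hνpos : 0 < ((Y k).nuC c).toReal := ENNReal.toReal_pos h0 ((Y k).k2n_nuC_ne_top hP c)
      calc ((Y k).nuC c).toReal * min (((Y k).ch c).J / ((Y k).nuC c).toReal) (E.R.N k ^ M₁)
          ≤ ((Y k).nuC c).toReal * (((Y k).ch c).J / ((Y k).nuC c).toReal) := mul_le_mul_of_nonneg_left (min_le_left _ _) hνpos.le
        _ = ((Y k).ch c).J := mul_div_cancel₀ _ hνpos.ne'
  have he : -e ≤ A + 2 := by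
    by_contra hcon
    obtain ⟨τ, hτ⟩ : ∃ τ : ℝ, τ = (-e - A - 2) / 4 := ⟨_, rfl⟩
    have hτ0 : 0 < τ := by
      rw [hτ]
      linarith [not_le.1 hcon]
    obtain ⟨k, hk1, hk2, hk3, hk4⟩ := ((hCh τ hτ0).and ((hSys.2.1 τ hτ0).and (hbas.and hνx))).exists
    obtain ⟨hP, hYk, hcard, hJ⟩ := hk3
    have hN0 := kb_res_pos E.R k
    have hb : ∀ c ∈ keep k, ((Y k).nuC c).toReal ≤ E.R.N k ^ (2 + e + τ) := by
      intro c hc
      have h1 : E.R.N k ^ (-e - τ) ≤ x k c := (hk1 ⟨c, hc⟩).1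
      have hp : 0 < E.R.N k ^ (-e - τ) := kb_L3_rpow_pos E.R k _
      have h2 : ((Y k).nuC c).toReal * E.R.N k ^ (-e - τ) ≤ E.R.N k ^ (2 : ℝ) :=
        (mul_le_mul_of_nonneg_left h1 ENNReal.toReal_nonneg).trans ((hk4 c).trans (hJ c).2)
      have e1 : E.R.N k ^ (2 + e + τ) = E.R.N k ^ (2 : ℝ) / E.R.N k ^ (-e - τ) := by
        rw [← Real.rpow_sub hN0]
        congr 1
        ring
      rw [e1, le_div_iff₀ hp]
      exact h2
    have hmass := k2n_x3_mass (Y k) hP hYk (keep k) _ (kb_L3_rpow_pos E.R k _).le hb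
    have hBig : 1 ≤ ENNReal.ofReal (E.R.N k ^ τ) * ((Y k).restr (keep k) fun _ => Set.univ).mass := hk2.2
    have h3 : (1 : ℝ≥0∞) ≤ ENNReal.ofReal (E.R.N k ^ τ * (E.R.N k ^ A * E.R.N k ^ (2 + e + τ))) := by
      rw [ENNReal.ofReal_mul (kb_L3_rpow_pos E.R k _).le]
      refine hBig.trans (mul_le_mul' le_rfl (hmass.trans (ENNReal.ofReal_le_ofReal ?_)))
      exact mul_le_mul_of_nonneg_right hcard (kb_L3_rpow_pos E.R k _).le
    rw [← Real.rpow_add hN0, ← Real.rpow_add hN0, ← ENNReal.ofReal_one, ENNReal.ofReal_le_ofReal_iff (kb_L3_rpow_pos E.R k _).le] at h3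
    have h4 : E.R.N k ^ (τ + (A + (2 + e + τ))) < 1 := Real.rpow_lt_one_of_one_lt_of_neg (kb_L3_one_lt E.R k) (by rw [hτ]; linarith [not_le.1 hcon])
    linarith
  -- on the kept charts the quantity is not clamped
  have hun : ∀ τ : ℝ, 0 < τ → τ ≤ 1 → ∀ᶠ k in uf, ∀ c : keep k, (Y k).nuC c.1 ≠ 0 ∧
      E.R.N k ^ (-e - τ) ≤ ((Y k).ch c.1).J / ((Y k).nuC c.1).toReal ∧ ((Y k).ch c.1).J / ((Y k).nuC c.1).toReal ≤ E.R.N k ^ (-e + τ) := by
    intro τ hτ0 hτ1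
    filter_upwards [hCh τ hτ0] with k hk c
    obtain ⟨h1, h2⟩ : E.R.N k ^ (-e - τ) ≤ x k c.1 ∧ x k c.1 ≤ E.R.N k ^ (-e + τ) := hk c
    have hlt : E.R.N k ^ (-e + τ) < E.R.N k ^ M₁ := Real.rpow_lt_rpow_of_exponent_lt (kb_L3_one_lt E.R k) (by linarith)
    rw [hxdef] at h1 h2
    by_cases h0 : (Y k).nuC c.1 = 0
    · rw [if_pos h0] at h2
      linarith
    · rw [if_neg h0] at h1 h2
      have hmin : min (((Y k).ch c.1).J / ((Y k).nuC c.1).toReal) (E.R.N k ^ M₁) = ((Y k).ch c.1).J / ((Y k).nuC c.1).toReal := by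
        refine min_eq_left ?_
        by_contra hcon
        rw [min_eq_right (not_le.1 hcon).le] at h2
        linarith
      rw [hmin] at h1 h2
      exact ⟨h0, h1, h2⟩
  refine ⟨keep, e, A - e + 1, hSys, fun τ hτ => ?_, ?_⟩
  · filter_upwards [hun (min τ 1) (lt_min hτ one_pos) (min_le_right _ _)] with k hk c
    obtain ⟨-, h1, h2⟩ := hk c
    have hN1 := kb_res_one_le E.R k
    exact ⟨(Real.rpow_le_rpow_of_exponent_le hN1 (by linarith [min_le_left τ 1])).trans h1,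
      h2.trans (Real.rpow_le_rpow_of_exponent_le hN1 (by linarith [min_le_left τ 1]))⟩
  · filter_upwards [hun 1 one_pos le_rfl, hbas] with k hk hb c
    obtain ⟨h0, -, h2⟩ := hk c
    obtain ⟨hP, hYk, hcard, hJ⟩ := hb
    have hN0 := kb_res_pos E.R k
    have hνpos : 0 < ((Y k).nuC c.1).toReal := ENNReal.toReal_pos h0 ((Y k).k2n_nuC_ne_top hP c.1)
    show 1 ≤ ENNReal.ofReal (E.R.N k ^ (A - e + 1)) * (Y k).nuC c.1
    rw [← ENNReal.ofReal_toReal ((Y k).k2n_nuC_ne_top hP c.1), ← ENNReal.ofReal_mul (kb_L3_rpow_pos E.R k _).le, ← ENNReal.ofReal_one]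
    refine ENNReal.ofReal_le_ofReal ?_
    rw [div_le_iff₀ hνpos] at h2
    have h3 : E.R.N k ^ (-A) ≤ E.R.N k ^ (-e + 1) * ((Y k).nuC c.1).toReal := (hJ c.1).1.trans h2
    have e1 : E.R.N k ^ (A - e + 1) = E.R.N k ^ A * E.R.N k ^ (-e + 1) := by
      rw [← Real.rpow_add hN0]
      congr 1
      ring
    have e2 : E.R.N k ^ A * E.R.N k ^ (-A) = 1 := by
      rw [← Real.rpow_add hN0, add_neg_cancel, Real.rpow_zero]
    calc (1 : ℝ) = E.R.N k ^ A * E.R.N k ^ (-A) := e2.symm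
      _ ≤ E.R.N k ^ A * (E.R.N k ^ (-e + 1) * ((Y k).nuC c.1).toReal) := mul_le_mul_of_nonneg_left h3 (kb_L3_rpow_pos E.R k _).le
      _ = E.R.N k ^ (A - e + 1) * ((Y k).nuC c.1).toReal := by rw [e1, mul_assoc]

/-! ## L-252-NORM-X4 : steps C, D -/

/-- the pulled back selection -/
def k2nS2 (Y : E.Sys) (r : ℝ) (keep₁ : ∀ k, Set (Y k).C) (S : (E.norm (E.restr Y keep₁ fun _ _ => Set.univ) r).Sel) :
    ∀ k, (Y k).C → Set ((E.P k).Lam × ℝ) := fun k => (Y k).k2nPull (keep₁ k) (S k)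

/-- the retained charts, `θ = ` half of the pulled back selected mass -/
def k2nK2 (Y : E.Sys) (r : ℝ) (keep₁ : ∀ k, Set (Y k).C) (S : (E.norm (E.restr Y keep₁ fun _ _ => Set.univ) r).Sel) : ∀ k, Set (Y k).C :=
  fun k => (Y k).k2nRet (keep₁ k) (E.k2nS2 Y r keep₁ S k) (((Y k).restr (keep₁ k) (E.k2nS2 Y r keep₁ S k)).mass / 2)

/-- step C: the final system is a system, and every retained chart keeps an inverse subpower fraction of its selected mass -/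
theorem k2n_exist_retain (hE : E.Ok) (Y : E.Sys) (r h : ℝ) (keep₁ : ∀ k, Set (Y k).C) (hY₁ : E.IsSys (E.restr Y keep₁ fun _ _ => Set.univ) r h)
    (hY : E.IsSys Y r h) (S : (E.norm (E.restr Y keep₁ fun _ _ => Set.univ) r).Sel) (hS : (E.norm (E.restr Y keep₁ fun _ _ => Set.univ) r).Dense S) :
    E.IsSys (E.restr Y (E.k2nK2 Y r keep₁ S) (E.k2nS2 Y r keep₁ S)) r h ∧
      ∀ τ : ℝ, 0 < τ → ∀ᶠ k in uf, ∀ c : (E.restr Y (E.k2nK2 Y r keep₁ S) (E.k2nS2 Y r keep₁ S) k).C,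
        (Y k).mC c.1 ≤ ENNReal.ofReal (E.R.N k ^ τ) * (E.restr Y (E.k2nK2 Y r keep₁ S) (E.k2nS2 Y r keep₁ S) k).mC c := by
  have hW := k2a_ok_wf hE
  obtain ⟨M, hM⟩ := hY.1
  have hmeas : ∀ᶠ k in uf, ∀ c, MeasurableSet (E.k2nS2 Y r keep₁ S k c) := by
    filter_upwards [hS.1] with k h2 c
    exact (Y k).k2n_pull_meas (keep₁ k) (S k) h2 c
  -- the pulled back selected mass is inverse subpower
  have hm : ∀ τ : ℝ, 0 < τ → ∀ᶠ k in uf,
      1 ≤ ENNReal.ofReal (E.R.N k ^ τ) * ((Y k).restr (keep₁ k) (E.k2nS2 Y r keep₁ S k)).mass := by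
    intro τ hτ
    filter_upwards [hW, hM, hS.1, hS.2 (τ / 2) (by positivity), E.k2n_Z_bounds hE _ r h hY₁ (τ / 2) (by positivity)]
      with k h0 h1 h2 h3 h4
    have e := (Y k).k2n_pull_mass h0 h1.1 (E.a r k) (keep₁ k) (S k) h2 h4.1
    have e' : ((Y k).restr (keep₁ k) (E.k2nS2 Y r keep₁ S k)).mass
        = ((Y k).restr (keep₁ k) fun _ => Set.univ).Z * (((Y k).restr (keep₁ k) fun _ => Set.univ).norm (E.a r k)).mass (S k) := e
    rw [e', ← kb_rpow_half, ENNReal.ofReal_mul (Real.rpow_nonneg (kb_res_pos E.R k).le _)]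
    calc (1 : ℝ≥0∞) = 1 * 1 := (one_mul 1).symm
      _ ≤ (ENNReal.ofReal (E.R.N k ^ (τ / 2)) * ((Y k).restr (keep₁ k) fun _ => Set.univ).Z)
          * (ENNReal.ofReal (E.R.N k ^ (τ / 2)) * (((Y k).restr (keep₁ k) fun _ => Set.univ).norm (E.a r k)).mass (S k)) :=
          mul_le_mul' h4.2.2 h3
      _ = _ := by ring
  have hθ : ∀ τ : ℝ, 0 < τ → ∀ᶠ k in uf,
      1 ≤ ENNReal.ofReal (E.R.N k ^ τ) * (((Y k).restr (keep₁ k) (E.k2nS2 Y r keep₁ S k)).mass / 2) := by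
    intro τ hτ
    filter_upwards [hm (τ / 2) (by positivity), (kb_rpow_tendsto E.R (half_pos hτ)).eventually_ge_atTop 2] with k h1 h2
    have h3 : (2 : ℝ≥0∞) ≤ ENNReal.ofReal (E.R.N k ^ (τ / 2)) := by
      rw [← ENNReal.ofReal_ofNat]
      exact ENNReal.ofReal_le_ofReal h2
    rw [← kb_rpow_half, ENNReal.ofReal_mul (Real.rpow_nonneg (kb_res_pos E.R k).le _)]
    calc (1 : ℝ≥0∞) ≤ ENNReal.ofReal (E.R.N k ^ (τ / 2)) * ((Y k).restr (keep₁ k) (E.k2nS2 Y r keep₁ S k)).mass := h1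
      _ = ENNReal.ofReal (E.R.N k ^ (τ / 2)) * (2 * (((Y k).restr (keep₁ k) (E.k2nS2 Y r keep₁ S k)).mass / 2)) := by
          rw [ENNReal.mul_div_cancel (by norm_num) (by norm_num)]
      _ ≤ ENNReal.ofReal (E.R.N k ^ (τ / 2)) * (ENNReal.ofReal (E.R.N k ^ (τ / 2)) * (((Y k).restr (keep₁ k) (E.k2nS2 Y r keep₁ S k)).mass / 2)) := by
          gcongr
      _ = _ := by ring
  refine ⟨k2n_restr_sys E Y r h hY _ _ hmeas fun τ hτ => ?_, fun τ hτ => ?_⟩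
  · filter_upwards [hW, hM, hmeas, hθ τ hτ] with k h0 h1 h2 h3
    have h4 := (Y k).k2n_retain h0 h1.1 (keep₁ k) (E.k2nS2 Y r keep₁ S k)
      (((Y k).restr (keep₁ k) (E.k2nS2 Y r keep₁ S k)).mass / 2)
    have h5 : ((Y k).restr (keep₁ k) (E.k2nS2 Y r keep₁ S k)).mass ≠ ⊤ :=
      ((k2s_mass_le_one _ h0 (k2s_restr_wf (Y k) _ _ h1.1 h2)).trans_lt ENNReal.one_lt_top).ne
    have h6 : ((Y k).restr (keep₁ k) (E.k2nS2 Y r keep₁ S k)).mass / 2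
        ≤ ((Y k).restr (E.k2nK2 Y r keep₁ S k) (E.k2nS2 Y r keep₁ S k)).mass := by
      have h7 : ((Y k).restr (keep₁ k) (E.k2nS2 Y r keep₁ S k)).mass / 2 ≠ ⊤ :=
        (ENNReal.div_lt_top h5 (by norm_num)).ne
      refine (ENNReal.add_le_add_iff_right h7).1 ?_
      rw [ENNReal.add_halves]
      exact h4
    exact h3.trans (mul_le_mul_right h6 _)
  · filter_upwards [hθ τ hτ] with k h3 c
    have h4 : ((Y k).restr (keep₁ k) (E.k2nS2 Y r keep₁ S k)).mass / 2 * (Y k).mC c.1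
        ≤ (E.restr Y (E.k2nK2 Y r keep₁ S) (E.k2nS2 Y r keep₁ S) k).mC c := c.2.2
    calc (Y k).mC c.1 = 1 * (Y k).mC c.1 := (one_mul _).symm
      _ ≤ (ENNReal.ofReal (E.R.N k ^ τ) * (((Y k).restr (keep₁ k) (E.k2nS2 Y r keep₁ S k)).mass / 2)) * (Y k).mC c.1 :=
          mul_le_mul_left h3 _
      _ = ENNReal.ofReal (E.R.N k ^ τ) * ((((Y k).restr (keep₁ k) (E.k2nS2 Y r keep₁ S k)).mass / 2) * (Y k).mC c.1) := by
          ring
      _ ≤ _ := mul_le_mul_right h4 _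

theorem k2n_K2_sub (Y : E.Sys) (r : ℝ) (keep₁ : ∀ k, Set (Y k).C) (S : (E.norm (E.restr Y keep₁ fun _ _ => Set.univ) r).Sel) (k : ℕ) :
    E.k2nK2 Y r keep₁ S k ⊆ keep₁ k := fun _ hc => hc.1

/-- power small masses pass from the selected first normalisation to the final one -/
theorem k2n_cmp_pow {D : Type} (hE : E.Ok) (Y : E.Sys) (r h : ℝ) (keep₁ : ∀ k, Set (Y k).C) (hY : E.IsSys Y r h)
    (S : (E.norm (E.restr Y keep₁ fun _ _ => Set.univ) r).Sel) (hS : (E.norm (E.restr Y keep₁ fun _ _ => Set.univ) r).Dense S)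
    (hY₂ : E.IsSys (E.restr Y (E.k2nK2 Y r keep₁ S) (E.k2nS2 Y r keep₁ S)) r h)
    (ℓ₁ : ((E.norm (E.restr Y keep₁ fun _ _ => Set.univ) r).sel S).Lab D) (B : ℕ → Set ℝ≥0∞)
    (hp : K2aPow E.R fun k => (((E.norm (E.restr Y keep₁ fun _ _ => Set.univ) r).sel S).P k).mass
      fun c => {x | (((E.norm (E.restr Y keep₁ fun _ _ => Set.univ) r).sel S).P k).dn (ℓ₁ k) c x ∈ B k}) :
    K2aPow E.R fun k => ((E.norm (E.restr Y (E.k2nK2 Y r keep₁ S) (E.k2nS2 Y r keep₁ S)) r).P k).mass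
      fun c => {x | ((E.norm (E.restr Y (E.k2nK2 Y r keep₁ S) (E.k2nS2 Y r keep₁ S)) r).P k).dn
        (fun c : E.k2nK2 Y r keep₁ S k => ℓ₁ k ⟨c.1, E.k2n_K2_sub Y r keep₁ S k c.2⟩) c x ∈ B k} := by
  obtain ⟨c, hc, hk⟩ := hp
  obtain ⟨M, hM⟩ := hY.1
  refine ⟨c / 2, half_pos hc, ?_⟩
  filter_upwards [k2a_ok_wf hE, hM, hS.1, hk, E.k2n_Z_bounds hE _ r h hY₂ (c / 2) (half_pos hc)] with k h0 h1 h2 h3 h4
  have h5 := (Y k).k2n_cmp_mass h0 h1.1 (E.a r k) (keep₁ k) (E.k2nK2 Y r keep₁ S k) (E.k2n_K2_sub Y r keep₁ S k) (S k) h2 (ℓ₁ k) (B k)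
  refine le_trans h5 ?_
  refine ENNReal.div_le_of_le_mul ?_
  refine h3.trans ?_
  calc ENNReal.ofReal (E.R.N k ^ (-c)) = ENNReal.ofReal (E.R.N k ^ (-c)) * 1 := (mul_one _).symm
    _ ≤ ENNReal.ofReal (E.R.N k ^ (-c)) * (ENNReal.ofReal (E.R.N k ^ (c / 2))
          * (E.restr Y (E.k2nK2 Y r keep₁ S) (E.k2nS2 Y r keep₁ S) k).Z) := mul_le_mul_right h4.2.2 _
    _ = ENNReal.ofReal (E.R.N k ^ (-(c / 2))) * (E.restr Y (E.k2nK2 Y r keep₁ S) (E.k2nS2 Y r keep₁ S) k).Z := by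
        rw [← mul_assoc, k2a_sq_ofReal_mul]
        congr 3
        ring

/-- typical densities pass from the selected first normalisation to the final one -/
theorem k2n_cmp_typ {D : Type} (hE : E.Ok) (Y : E.Sys) (r h : ℝ) (keep₁ : ∀ k, Set (Y k).C) (hY : E.IsSys Y r h)
    (S : (E.norm (E.restr Y keep₁ fun _ _ => Set.univ) r).Sel) (hS : (E.norm (E.restr Y keep₁ fun _ _ => Set.univ) r).Dense S)
    (hOk₁ : ((E.norm (E.restr Y keep₁ fun _ _ => Set.univ) r).sel S).Ok)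
    (hY₂ : E.IsSys (E.restr Y (E.k2nK2 Y r keep₁ S) (E.k2nS2 Y r keep₁ S)) r h)
    (hOk₂ : (E.norm (E.restr Y (E.k2nK2 Y r keep₁ S) (E.k2nS2 Y r keep₁ S)) r).Ok)
    (ℓ₁ : ((E.norm (E.restr Y keep₁ fun _ _ => Set.univ) r).sel S).Lab D) (g : ℝ)
    (hT : ((E.norm (E.restr Y keep₁ fun _ _ => Set.univ) r).sel S).Typ ℓ₁ g) :
    (E.norm (E.restr Y (E.k2nK2 Y r keep₁ S) (E.k2nS2 Y r keep₁ S)) r).Typ
      (fun k => fun c : E.k2nK2 Y r keep₁ S k => ℓ₁ k ⟨c.1, E.k2n_K2_sub Y r keep₁ S k c.2⟩) g := by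
  constructor
  · refine (k2a_up_iff hOk₂ _ _).2 ?_
    intro τ hτ
    exact E.k2n_cmp_pow hE Y r h keep₁ hY S hS hY₂ ℓ₁ (fun k => Set.Ioi (ENNReal.ofReal (E.R.N k ^ (-g + τ))))
      ((k2a_up_iff hOk₁ ℓ₁ g).1 hT.1 τ hτ)
  · refine (k2a_lo_iff hOk₂ _ _).2 ?_
    intro τ hτ
    exact E.k2n_cmp_pow hE Y r h keep₁ hY S hS hY₂ ℓ₁ (fun k => Set.Iio (ENNReal.ofReal (E.R.N k ^ (-g - τ))))
      ((k2a_lo_iff hOk₁ ℓ₁ g).1 hT.2 τ hτ)

/-- step D: homogeneity passes to the final normalised problem (`k2n_cmp_mass` with `B = Ioi / Iio`, `k2n_cmp_hid`, `k2n_cmp_hv`, `k2n_Z_bounds`, `k2a_up_iff`, `k2a_lo_iff`) -/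
theorem k2n_cmp_hom (hE : E.Ok) (Y : E.Sys) (r h : ℝ) (keep₁ : ∀ k, Set (Y k).C) (hY : E.IsSys Y r h)
    (S : (E.norm (E.restr Y keep₁ fun _ _ => Set.univ) r).Sel) (hS : (E.norm (E.restr Y keep₁ fun _ _ => Set.univ) r).Dense S)
    (hOk₁ : ((E.norm (E.restr Y keep₁ fun _ _ => Set.univ) r).sel S).Ok)
    (hY₂ : E.IsSys (E.restr Y (E.k2nK2 Y r keep₁ S) (E.k2nS2 Y r keep₁ S)) r h)
    (hOk₂ : (E.norm (E.restr Y (E.k2nK2 Y r keep₁ S) (E.k2nS2 Y r keep₁ S)) r).Ok)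
    (f' : ℝ → ℝ → ℝ) (hf' : ((E.norm (E.restr Y keep₁ fun _ _ => Set.univ) r).sel S).Hom f') :
    (E.norm (E.restr Y (E.k2nK2 Y r keep₁ S) (E.k2nS2 Y r keep₁ S)) r).Hom f' := by
  refine ⟨fun s hs => ?_, fun s hs u hu => ?_⟩
  · have e : (E.norm (E.restr Y (E.k2nK2 Y r keep₁ S) (E.k2nS2 Y r keep₁ S)) r).hid s
        = fun k => fun c : E.k2nK2 Y r keep₁ S k =>
          ((E.norm (E.restr Y keep₁ fun _ _ => Set.univ) r).sel S).hid s k ⟨c.1, E.k2n_K2_sub Y r keep₁ S k c.2⟩ := rfl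
    rw [e]
    exact E.k2n_cmp_typ hE Y r h keep₁ hY S hS hOk₁ hY₂ hOk₂ _ _ (hf'.pure s hs)
  · have e : (E.norm (E.restr Y (E.k2nK2 Y r keep₁ S) (E.k2nS2 Y r keep₁ S)) r).hv s u
        = fun k => fun c : E.k2nK2 Y r keep₁ S k =>
          ((E.norm (E.restr Y keep₁ fun _ _ => Set.univ) r).sel S).hv s u k ⟨c.1, E.k2n_K2_sub Y r keep₁ S k c.2⟩ := rfl
    rw [e]
    exact E.k2n_cmp_typ hE Y r h keep₁ hY S hS hOk₁ hY₂ hOk₂ _ _ (hf'.joint s hs u hu)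

end KbEx

/-! ## L-252-NORM-X5 : the hub (glue) -/

/-- `kb_norm` with one more clause (joint inequality: it gives the angular cap from the angular cap ALONE) -/
theorem k2n_hub_norm' (E : KbEx v) (hE : E.Ok) (f : ℝ → ℝ → ℝ) (hf : E.Hom f) (Y : E.Sys) (r h : ℝ) (hr : 0 ≤ r) (hrL : r < E.L)
    (hY : E.IsAtlas Y r h) :
    ∃ (keep : ∀ k, Set (Y k).C) (S' : ∀ k, (Y k).C → Set ((E.P k).Lam × ℝ)) (e : ℝ) (f' : ℝ → ℝ → ℝ),
      E.IsAtlas (E.restr Y keep S') r h ∧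
      E.ChExp (E.restr Y keep S') (fun k c => ((E.restr Y keep S' k).ch c).J / ((E.restr Y keep S' k).nuC c).toReal) e ∧
      (E.norm (E.restr Y keep S') r).Ok ∧ (E.norm (E.restr Y keep S') r).Hom f' ∧
      f' (E.L - r) 0 = f E.L 0 + e ∧
      (∀ s : ℝ, 0 ≤ s → s ≤ E.L - r → f (r + s) 0 + e ≤ f' s 0) ∧
      (E.IsKnown Y r → ∀ s : ℝ, 0 ≤ s → s ≤ E.L - r → f' s 0 = f (r + s) 0 + e) ∧
      (E.IsTrue Y (f r 0) → E.IsTrue (E.restr Y keep S') (f r 0)) ∧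
      (∀ d S η : ℝ, E.Cap d S η f → (E.norm (E.restr Y keep S') r).Cap d S η f') ∧
      ∀ s u : ℝ, 0 ≤ s → s ≤ E.L - r → 0 ≤ u → f (r + s) u + e ≤ f' s u := by
  obtain ⟨keep₁, e, M, hY₁, he₁, hν₁⟩ := E.k2n_exist_charts hE Y r h hY.1
  have hOkE₁ := E.k2n_norm_ok hE _ r h M hr hrL hY₁ hν₁
  obtain ⟨S, f', hSd, hf'⟩ := k2a_hub_homog _ hOkE₁
  have hOk₁ := k2a_hub_sel_ok _ hOkE₁ S hSd.1 hSd.2
  obtain ⟨hY₂, hret⟩ := E.k2n_exist_retain hE Y r h keep₁ hY₁ hY.1 S hSd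
  have hν₂ : ∀ᶠ k in uf, ∀ c, 1 ≤ ENNReal.ofReal (E.R.N k ^ M)
      * (E.restr Y (E.k2nK2 Y r keep₁ S) (E.k2nS2 Y r keep₁ S) k).nuC c :=
    hν₁.mono fun k hk c => hk ⟨c.1, E.k2n_K2_sub Y r keep₁ S k c.2⟩
  have hOk₂ := E.k2n_norm_ok hE _ r h M hr hrL hY₂ hν₂
  have hHom₂ := E.k2n_cmp_hom hE Y r h keep₁ hY.1 S hSd hOk₁ hY₂ hOk₂ f' hf'
  have hKn : ∀ s : ℝ, E.IsKnown Y s → E.IsKnown (E.restr Y (E.k2nK2 Y r keep₁ S) (E.k2nS2 Y r keep₁ S)) s :=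
    fun s hs τ hτ => (hs τ hτ).mono fun k hk => k2s_restr_known (Y k) _ _ hk
  have hAt₂ : E.IsAtlas (E.restr Y (E.k2nK2 Y r keep₁ S) (E.k2nS2 Y r keep₁ S)) r h := ⟨hY₂, hKn _ hY.2⟩
  have he₂ : E.ChExp (E.restr Y (E.k2nK2 Y r keep₁ S) (E.k2nS2 Y r keep₁ S))
      (E.k2nXJ (E.restr Y (E.k2nK2 Y r keep₁ S) (E.k2nS2 Y r keep₁ S))) e :=
    fun τ hτ => (he₁ τ hτ).mono fun k hk c => hk ⟨c.1, E.k2n_K2_sub Y r keep₁ S k c.2⟩
  obtain ⟨p1, p2, p3, p4⟩ := E.k2n_profile hE f f' hf _ r h e hr hrL hAt₂ he₂ hOk₂ hHom₂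
  refine ⟨_, _, e, f', hAt₂, he₂, hOk₂, hHom₂, p1, p2, fun hk => p4 (hKn _ hk), ?_, ?_, p3⟩
  · intro hT τ hτ
    filter_upwards [hT (τ / 2) (by positivity), hret (τ / 2) (by positivity)] with k h1 h2
    intro c
    calc ENNReal.ofReal (E.R.N k ^ (-(f r 0)) * ((E.restr Y (E.k2nK2 Y r keep₁ S) (E.k2nS2 Y r keep₁ S) k).ch c).J
          * (E.restr Y (E.k2nK2 Y r keep₁ S) (E.k2nS2 Y r keep₁ S) k).q)
        ≤ ENNReal.ofReal (E.R.N k ^ (τ / 2)) * (Y k).mC c.1 := h1 c.1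
      _ ≤ ENNReal.ofReal (E.R.N k ^ (τ / 2)) * (ENNReal.ofReal (E.R.N k ^ (τ / 2))
          * (E.restr Y (E.k2nK2 Y r keep₁ S) (E.k2nS2 Y r keep₁ S) k).mC c) := mul_le_mul_right (h2 c) _
      _ = ENNReal.ofReal (E.R.N k ^ τ) * (E.restr Y (E.k2nK2 Y r keep₁ S) (E.k2nS2 Y r keep₁ S) k).mC c := by
          rw [← mul_assoc, k2a_sq_ofReal_mul, add_halves]
  · intro d S₀ η hC
    exact E.k2n_cap f f' _ r h e hr hrL hAt₂ he₂ hOk₂ hHom₂ d S₀ η hC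

/-- = `kb_norm` -/
theorem k2n_hub_norm (E : KbEx v) (hE : E.Ok) (f : ℝ → ℝ → ℝ) (hf : E.Hom f) (Y : E.Sys) (r h : ℝ) (hr : 0 ≤ r) (hrL : r < E.L)
    (hY : E.IsAtlas Y r h) :
    ∃ (keep : ∀ k, Set (Y k).C) (S' : ∀ k, (Y k).C → Set ((E.P k).Lam × ℝ)) (e : ℝ) (f' : ℝ → ℝ → ℝ),
      E.IsAtlas (E.restr Y keep S') r h ∧
      E.ChExp (E.restr Y keep S') (fun k c => ((E.restr Y keep S' k).ch c).J / ((E.restr Y keep S' k).nuC c).toReal) e ∧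
      (E.norm (E.restr Y keep S') r).Ok ∧ (E.norm (E.restr Y keep S') r).Hom f' ∧
      f' (E.L - r) 0 = f E.L 0 + e ∧
      (∀ s : ℝ, 0 ≤ s → s ≤ E.L - r → f (r + s) 0 + e ≤ f' s 0) ∧
      (E.IsKnown Y r → ∀ s : ℝ, 0 ≤ s → s ≤ E.L - r → f' s 0 = f (r + s) 0 + e) ∧
      (E.IsTrue Y (f r 0) → E.IsTrue (E.restr Y keep S') (f r 0)) ∧
      ∀ d S η : ℝ, E.Cap d S η f → (E.norm (E.restr Y keep S') r).Cap d S η f' := by
  obtain ⟨keep, S', e, f', h1, h2, h3, h4, h5, h6, h7, h8, h9, -⟩ := k2n_hub_norm' E hE f hf Y r h hr hrL hY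
  exact ⟨keep, S', e, f', h1, h2, h3, h4, h5, h6, h7, h8, h9⟩

end

end Claimed.Agent.R252
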