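import Claimed.Agent.R252.Norm.Mass
import Claimed.Agent.R252.S2a.PbContract

/-!
# ROW 252 (S0492), unit NORM (post BP-252-S2aC, sub-architect helper22), file 8: OLD AND NEW BINS HAVE BOUNDED OVERLAP  (02-framework.tex l.747-751, 781-785).
CONTRACT file: every `sorry` is a leaf `L-252-NORM-B*`.  Arithmetic of floors at ONE scale.  Prefix `k2n_`.
`x` = OLD incidence, `Y.k2nBack c x` = the same incidence in the coordinates of the chart `c`; `γ = Y.wd c`.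
Tools: `k2a_dy_pos`, `k2a_dy_bounds` (`x ≤ kbDy x < 2 x`), `k2n_W_coN`, `k2n_V_old`, `k2n_tOf_tauOf`.
-/

set_option autoImplicit false

namespace Claimed.Agent.R252

open MeasureTheory
open scoped ENNReal BigOperators

noncomputable section

variable {v : KbVer}

/-! ## L-252-NORM-B1 : two grids on the line -/

/-- if `w = σ w' + s` with `0 < σ δ' ≤ ρ δ`, the `δ`-bin of `w` is one of `m + 1` consecutive integers determined by the `δ'`-bin of `w'` (`ρ ≤ m`) -/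
theorem k2n_grid (δ δ' σ s : ℝ) (m : ℕ) (hδ : 0 < δ) (hδ' : 0 < δ') (hσ : 0 < σ) (hm : σ * δ' ≤ m * δ) (w' : ℝ) :
    ⌊(σ * w' + s) / δ⌋ ∈ Finset.Icc ⌊(σ * (⌊w' / δ'⌋ * δ') + s) / δ⌋ (⌊(σ * (⌊w' / δ'⌋ * δ') + s) / δ⌋ + m) := by
  have hb1 : (⌊w' / δ'⌋ : ℝ) * δ' ≤ w' := by
    have := Int.floor_le (w' / δ')
    rwa [le_div_iff₀ hδ'] at this
  have hb2 : w' < ((⌊w' / δ'⌋ : ℝ) + 1) * δ' := by
    have := Int.lt_floor_add_one (w' / δ')
    rwa [div_lt_iff₀ hδ'] at this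
  rw [Finset.mem_Icc]
  constructor
  · apply Int.floor_le_floor
    apply div_le_div_of_nonneg_right _ hδ.le
    have := mul_le_mul_of_nonneg_left hb1 hσ.le
    linarith
  · rw [← Int.floor_add_natCast]
    apply Int.floor_le_floor
    rw [div_add' _ _ _ hδ.ne']
    apply div_le_div_of_nonneg_right _ hδ.le
    have := mul_le_mul_of_nonneg_left hb2.le hσ.le
    nlinarith

/-- measurability of a window of three consecutive integers starting at the floor of a measurable function -/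
theorem k2n_win_meas {X : Type} [MeasurableSpace X] {f : X → ℝ} (hf : Measurable f) (d' : ℤ) :
    MeasurableSet {o | d' ∈ Finset.Icc ⌊f o⌋ (⌊f o⌋ + (2 : ℕ))} := by
  have h1 : Measurable fun o => ⌊f o⌋ := hf.floor
  have e : {o | d' ∈ Finset.Icc ⌊f o⌋ (⌊f o⌋ + (2 : ℕ))} = (fun o => ⌊f o⌋) ⁻¹' {n : ℤ | d' ∈ Finset.Icc n (n + (2 : ℕ))} := rfl
  rw [e]
  exact h1 (MeasurableSet.of_discrete)

theorem k2n_win_card (n : ℤ) : (Finset.Icc n (n + (2 : ℕ))).card ≤ 3 := by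
  rw [Int.card_Icc]
  have : n + (2 : ℕ) + 1 - n = 3 := by push_cast; ring
  rw [this]
  rfl

/-- the section `w = 0` of a quadratic test is measurable in the base -/
theorem k2n_T0_meas {T : KbTest v} (hT : KbIsQuad T) : Measurable fun o : ℝ × KbB v => T o.1 o.2 0 := by
  have h1 : Continuous fun o : ℝ × KbB v => ((o.1, o.2, 0) : ℝ × KbB v × ℝ) := by fun_prop
  exact ((k2n_quad_cont hT).comp h1).measurable

namespace KbSys

variable {P : KbPb v} (Y : KbSys P)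

/-- the new hidden coordinate at an old incidence -/
theorem k2n_hw_back (a : ℝ) (c : Y.C) (hadm : KbAdm (Y.ch c).T) (x : P.Lam × ℝ) :
    (Y.norm a).hw c (Y.k2nBack c x) = Y.wOf a c x.2 (P.bs (Y.wd c) x).2 (P.hw (Y.wd c) x) := by
  show kbW (Y.coN a c x.1) (Y.tauOf c x.2) = _
  rw [Y.k2n_W_coN a c hadm x.1, Y.k2n_tOf_tauOf]
  rfl

/-- in version 2 the hidden labels coincide -/
theorem k2n_hid_two (hv : v = KbVer.two) (a a' : ℝ) (ha : 0 < a) (c : Y.C) (hadm : KbAdm (Y.ch c).T) (x : P.Lam × ℝ) :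
    (Y.norm a).hid a' c (Y.k2nBack c x) = P.hid (a * a') (Y.wd c) x := by
  have hv1 : v ≠ KbVer.one := by rw [hv]; decide
  show kbBin (a' / (if v = KbVer.one then 1 else P.B (Y.wd c) / a)) ((Y.norm a).hw c (Y.k2nBack c x)) = kbBin (a * a' / P.B (Y.wd c)) (P.hw (Y.wd c) x)
  rw [Y.k2n_hw_back a c hadm x, if_neg hv1, div_div_eq_mul_div, mul_comm a' a]
  unfold wOf
  rw [if_neg hv1]

/-! ## L-252-NORM-B2 : hidden bins -/

/-- the OLD hidden bin lies in a list of `3` bins determined by the NEW hidden bin and the exact base -/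
theorem k2n_hid_cover (hP : P.WF) (a a' : ℝ) (ha : 0 < a) (ha' : 0 < a') (c : Y.C) (hadm : KbAdm (Y.ch c).T) :
    ∃ Lst : ℤ → ℝ × KbB v → Finset ℤ, (∀ d o, (Lst d o).card ≤ 3) ∧ (∀ d d', MeasurableSet {o | d' ∈ Lst d o}) ∧
      ∀ x : P.Lam × ℝ, P.hid (a * a') (Y.wd c) x ∈ Lst ((Y.norm a).hid a' c (Y.k2nBack c x)) (P.bs (Y.wd c) x) := by
  by_cases hv : v = KbVer.one
  · have hB : P.B (Y.wd c) = 1 := (hP.v1 hv (Y.wd c)).1
    have hw := hadm.2 hv
    have hδ : 0 < kbDy (a * a') := k2a_dy_pos _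
    have hδ' : 0 < kbDy a' := k2a_dy_pos _
    have hm : a * kbDy a' ≤ (2 : ℕ) * kbDy (a * a') := by
      have h1 := (k2a_dy_bounds ha').2
      have h2 := (k2a_dy_bounds (mul_pos ha ha')).1
      have h3 : a * kbDy a' ≤ a * (2 * a') := mul_le_mul_of_nonneg_left h1.le ha.le
      push_cast
      nlinarith
    refine ⟨fun d o => Finset.Icc ⌊(a * (d * kbDy a') + -(Y.ch c).T o.1 o.2 0) / kbDy (a * a')⌋
      (⌊(a * (d * kbDy a') + -(Y.ch c).T o.1 o.2 0) / kbDy (a * a')⌋ + (2 : ℕ)), fun d o => k2n_win_card _,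
      fun d d' => k2n_win_meas (((k2n_T0_meas hadm.1).neg.const_add _).div_const _) d', fun x => ?_⟩
    have e1 : (Y.norm a).hid a' c (Y.k2nBack c x) = ⌊((Y.norm a).hw c (Y.k2nBack c x)) / kbDy a'⌋ := by
      show kbBin (a' / (if v = KbVer.one then 1 else P.B (Y.wd c) / a)) _ = _
      rw [if_pos hv, div_one]
      rfl
    have e2 : P.hid (a * a') (Y.wd c) x = ⌊P.hw (Y.wd c) x / kbDy (a * a')⌋ := by
      show kbBin (a * a' / P.B (Y.wd c)) _ = _
      rw [hB, div_one]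
      rfl
    have e3 : P.hw (Y.wd c) x = a * (Y.norm a).hw c (Y.k2nBack c x) + -(Y.ch c).T (P.bs (Y.wd c) x).1 (P.bs (Y.wd c) x).2 0 := by
      rw [Y.k2n_hw_back a c hadm x]
      unfold wOf
      rw [if_pos hv, hw, mul_div_cancel₀ _ ha.ne']
      show _ = P.hw (Y.wd c) x + (Y.ch c).T x.2 (P.bs (Y.wd c) x).2 0 + -(Y.ch c).T x.2 (P.bs (Y.wd c) x).2 0
      ring
    rw [e1, e2]
    have := k2n_grid (kbDy (a * a')) (kbDy a') a (-(Y.ch c).T (P.bs (Y.wd c) x).1 (P.bs (Y.wd c) x).2 0) 2 hδ hδ' ha hm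
      ((Y.norm a).hw c (Y.k2nBack c x))
    rw [← e3] at this
    exact this
  · have hv2 : v = KbVer.two := by
      cases v
      · exact absurd rfl hv
      · rfl
    refine ⟨fun d _ => {d}, fun d o => by simp, fun d d' => MeasurableSet.const _, fun x => ?_⟩
    rw [Y.k2n_hid_two hv2 a a' ha c hadm x]
    exact Finset.mem_singleton_self _

/-- the NEW hidden bin lies in a list of `3` bins determined by the OLD hidden bin and the exact base -/
theorem k2n_hid_cover' (hP : P.WF) (a a' : ℝ) (ha : 0 < a) (ha' : 0 < a') (c : Y.C) (hadm : KbAdm (Y.ch c).T) :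
    ∃ Lst : ℤ → ℝ × KbB v → Finset ℤ, (∀ d o, (Lst d o).card ≤ 3) ∧ (∀ d d', MeasurableSet {o | d' ∈ Lst d o}) ∧
      ∀ x : P.Lam × ℝ, (Y.norm a).hid a' c (Y.k2nBack c x) ∈ Lst (P.hid (a * a') (Y.wd c) x) (P.bs (Y.wd c) x) := by
  by_cases hv : v = KbVer.one
  · have hB : P.B (Y.wd c) = 1 := (hP.v1 hv (Y.wd c)).1
    have hw := hadm.2 hv
    have hδ : 0 < kbDy (a * a') := k2a_dy_pos _
    have hδ' : 0 < kbDy a' := k2a_dy_pos _
    have hm : a⁻¹ * kbDy (a * a') ≤ (2 : ℕ) * kbDy a' := by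
      have h1 := (k2a_dy_bounds (mul_pos ha ha')).2
      have h2 := (k2a_dy_bounds ha').1
      have h3 : a⁻¹ * kbDy (a * a') ≤ a⁻¹ * (2 * (a * a')) := mul_le_mul_of_nonneg_left h1.le (inv_pos.2 ha).le
      have h4 : a⁻¹ * (2 * (a * a')) = 2 * a' := by field_simp
      push_cast
      linarith
    refine ⟨fun d o => Finset.Icc ⌊(a⁻¹ * (d * kbDy (a * a')) + (Y.ch c).T o.1 o.2 0 / a) / kbDy a'⌋
      (⌊(a⁻¹ * (d * kbDy (a * a')) + (Y.ch c).T o.1 o.2 0 / a) / kbDy a'⌋ + (2 : ℕ)), fun d o => k2n_win_card _,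
      fun d d' => k2n_win_meas ((((k2n_T0_meas hadm.1).div_const _).const_add _).div_const _) d', fun x => ?_⟩
    have e1 : (Y.norm a).hid a' c (Y.k2nBack c x) = ⌊((Y.norm a).hw c (Y.k2nBack c x)) / kbDy a'⌋ := by
      show kbBin (a' / (if v = KbVer.one then 1 else P.B (Y.wd c) / a)) _ = _
      rw [if_pos hv, div_one]
      rfl
    have e2 : P.hid (a * a') (Y.wd c) x = ⌊P.hw (Y.wd c) x / kbDy (a * a')⌋ := by
      show kbBin (a * a' / P.B (Y.wd c)) _ = _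
      rw [hB, div_one]
      rfl
    have e3 : (Y.norm a).hw c (Y.k2nBack c x) = a⁻¹ * P.hw (Y.wd c) x + (Y.ch c).T (P.bs (Y.wd c) x).1 (P.bs (Y.wd c) x).2 0 / a := by
      rw [Y.k2n_hw_back a c hadm x]
      unfold wOf
      rw [if_pos hv, hw, add_div, div_eq_inv_mul]
      rfl
    rw [e1, e2]
    have := k2n_grid (kbDy a') (kbDy (a * a')) a⁻¹ ((Y.ch c).T (P.bs (Y.wd c) x).1 (P.bs (Y.wd c) x).2 0 / a) 2 hδ' hδ (inv_pos.2 ha) hm
      (P.hw (Y.wd c) x)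
    rw [← e3] at this
    exact this
  · have hv2 : v = KbVer.two := by
      cases v
      · exact absurd rfl hv
      · rfl
    refine ⟨fun d _ => {d}, fun d o => by simp, fun d d' => MeasurableSet.const _, fun x => ?_⟩
    rw [Y.k2n_hid_two hv2 a a' ha c hadm x]
    exact Finset.mem_singleton_self _

/-! ## L-252-NORM-B3 : velocity bins -/

theorem k2n_vel_term (D r δ : ℝ) (h0 : 0 ≤ r) (h1 : r ≤ δ) : 0 ≤ D * r - min D 0 * δ ∧ D * r - min D 0 * δ ≤ |D| * δ := by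
  rcases le_total 0 D with h | h
  · rw [min_eq_right h, abs_of_nonneg h]
    constructor <;> nlinarith [mul_nonneg h h0, mul_le_mul_of_nonneg_left h1 h]
  · rw [min_eq_left h, abs_of_nonpos h]
    constructor <;> nlinarith [mul_nonneg (neg_nonneg.2 h) h0, mul_nonneg (neg_nonneg.2 h) (sub_nonneg.2 h1)]

/-- `V = y_c' + D_c V' / q`, `kbMn D_c ≤ q K` : the OLD velocity bin lies in a list of `(⌈K⌉₊ + 2)^j` bins determined by the NEW velocity bin -/
theorem k2n_vel_cover (a b K : ℝ) (hb : 0 < b) (c : Y.C) (hinv : (Y.ch c).D * (Y.ch c).Di = 1) (hsize : kbMn (Y.ch c).D ≤ Y.q * K) :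
    ∃ Lst : (Fin v.j → ℤ) → Finset (Fin v.j → ℤ), (∀ d, (Lst d).card ≤ (⌈K⌉₊ + 2) ^ v.j) ∧
      ∀ x : P.Lam × ℝ, P.vel b (Y.wd c) x ∈ Lst ((Y.norm a).vel b c (Y.k2nBack c x)) := by
  classical
  have hq := Y.k2n_q_pos
  have hδ : 0 < kbDy b := k2a_dy_pos b
  let lo : (Fin v.j → ℤ) → Fin v.j → ℝ := fun d i =>
    ((Y.ch c).y1 i + (1 / Y.q) * ∑ k, ((Y.ch c).D i k * ((d k : ℝ) * kbDy b) + min ((Y.ch c).D i k) 0 * kbDy b)) / kbDy b
  refine ⟨fun d => Fintype.piFinset fun i => Finset.Icc ⌊lo d i⌋ (⌊lo d i⌋ + ⌈K⌉₊), ?_, ?_⟩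
  · intro d
    rw [Fintype.card_piFinset]
    calc ∏ i, (Finset.Icc ⌊lo d i⌋ (⌊lo d i⌋ + ⌈K⌉₊)).card = ∏ _i : Fin v.j, (⌈K⌉₊ + 1) := by
          refine Finset.prod_congr rfl fun i _ => ?_
          rw [Int.card_Icc]
          have : ⌊lo d i⌋ + (⌈K⌉₊ : ℤ) + 1 - ⌊lo d i⌋ = ((⌈K⌉₊ + 1 : ℕ) : ℤ) := by push_cast; ring
          rw [this, Int.toNat_natCast]
      _ = (⌈K⌉₊ + 1) ^ v.j := by simp
      _ ≤ (⌈K⌉₊ + 2) ^ v.j := Nat.pow_le_pow_left (by omega) _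
  · intro x
    rw [Fintype.mem_piFinset]
    intro i
    have hV : kbV (P.co (Y.wd c) x.1) i
        = (Y.ch c).y1 i + (1 / Y.q) * ∑ k, (Y.ch c).D i k * kbV (Y.coN a c x.1) k := by
      rw [Y.k2n_V_old a c hinv x.1]
      simp [Matrix.mulVec, dotProduct]
    have hd : ∀ k, (Y.norm a).vel b c (Y.k2nBack c x) k = ⌊kbV (Y.coN a c x.1) k / kbDy b⌋ := fun k => rfl
    have hold : P.vel b (Y.wd c) x i = ⌊kbV (P.co (Y.wd c) x.1) i / kbDy b⌋ := rfl
    have hr0 : ∀ k, 0 ≤ kbV (Y.coN a c x.1) k - ((Y.norm a).vel b c (Y.k2nBack c x) k : ℝ) * kbDy b := by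
      intro k
      rw [hd k]
      have := (le_div_iff₀ hδ).1 (Int.floor_le (kbV (Y.coN a c x.1) k / kbDy b))
      linarith
    have hr1 : ∀ k, kbV (Y.coN a c x.1) k - ((Y.norm a).vel b c (Y.k2nBack c x) k : ℝ) * kbDy b ≤ kbDy b := by
      intro k
      rw [hd k]
      have := (div_lt_iff₀ hδ).1 (Int.lt_floor_add_one (kbV (Y.coN a c x.1) k / kbDy b))
      linarith
    have hs : ∑ k, ((Y.ch c).D i k * (kbV (Y.coN a c x.1) k - ((Y.norm a).vel b c (Y.k2nBack c x) k : ℝ) * kbDy b)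
          - min ((Y.ch c).D i k) 0 * kbDy b)
        = ∑ k, (Y.ch c).D i k * kbV (Y.coN a c x.1) k
          - ∑ k, ((Y.ch c).D i k * (((Y.norm a).vel b c (Y.k2nBack c x) k : ℝ) * kbDy b) + min ((Y.ch c).D i k) 0 * kbDy b) := by
      rw [← Finset.sum_sub_distrib]
      exact Finset.sum_congr rfl fun k _ => by ring
    have hdiff : kbV (P.co (Y.wd c) x.1) i / kbDy b - lo ((Y.norm a).vel b c (Y.k2nBack c x)) i
        = (1 / Y.q) * (∑ k, ((Y.ch c).D i k * (kbV (Y.coN a c x.1) k - ((Y.norm a).vel b c (Y.k2nBack c x) k : ℝ) * kbDy b)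
          - min ((Y.ch c).D i k) 0 * kbDy b)) / kbDy b := by
      rw [hs, hV]
      simp only [lo]
      ring
    have hsum0 : 0 ≤ ∑ k, ((Y.ch c).D i k * (kbV (Y.coN a c x.1) k - ((Y.norm a).vel b c (Y.k2nBack c x) k : ℝ) * kbDy b)
          - min ((Y.ch c).D i k) 0 * kbDy b) :=
      Finset.sum_nonneg fun k _ => (k2n_vel_term _ _ _ (hr0 k) (hr1 k)).1
    have hrow : ∑ k, |(Y.ch c).D i k| ≤ kbMn (Y.ch c).D :=
      Finset.single_le_sum (f := fun i => ∑ k, |(Y.ch c).D i k|) (fun i _ => Finset.sum_nonneg fun k _ => abs_nonneg _)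
        (Finset.mem_univ i)
    have hsum1 : ∑ k, ((Y.ch c).D i k * (kbV (Y.coN a c x.1) k - ((Y.norm a).vel b c (Y.k2nBack c x) k : ℝ) * kbDy b)
          - min ((Y.ch c).D i k) 0 * kbDy b) ≤ Y.q * (K * kbDy b) := by
      calc _ ≤ ∑ k, |(Y.ch c).D i k| * kbDy b := Finset.sum_le_sum fun k _ => (k2n_vel_term _ _ _ (hr0 k) (hr1 k)).2
        _ = (∑ k, |(Y.ch c).D i k|) * kbDy b := by rw [Finset.sum_mul]
        _ ≤ (Y.q * K) * kbDy b := mul_le_mul_of_nonneg_right (hrow.trans hsize) hδ.le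
        _ = Y.q * (K * kbDy b) := by ring
    have hlo : lo ((Y.norm a).vel b c (Y.k2nBack c x)) i ≤ kbV (P.co (Y.wd c) x.1) i / kbDy b := by
      have : 0 ≤ kbV (P.co (Y.wd c) x.1) i / kbDy b - lo ((Y.norm a).vel b c (Y.k2nBack c x)) i := by
        rw [hdiff]
        exact div_nonneg (mul_nonneg (by positivity) hsum0) hδ.le
      linarith
    have hhi : kbV (P.co (Y.wd c) x.1) i / kbDy b ≤ lo ((Y.norm a).vel b c (Y.k2nBack c x)) i + (⌈K⌉₊ : ℝ) := by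
      have : kbV (P.co (Y.wd c) x.1) i / kbDy b - lo ((Y.norm a).vel b c (Y.k2nBack c x)) i ≤ K := by
        rw [hdiff, div_le_iff₀ hδ, one_div, inv_mul_le_iff₀ hq]
        exact hsum1
      have h2 : K ≤ (⌈K⌉₊ : ℝ) := Nat.le_ceil K
      linarith
    rw [hold, Finset.mem_Icc]
    refine ⟨Int.floor_le_floor hlo, ?_⟩
    rw [← Int.floor_add_natCast]
    exact Int.floor_le_floor hhi

/-- both together -/
theorem k2n_hv_cover (hP : P.WF) (a a' b K : ℝ) (ha : 0 < a) (ha' : 0 < a') (hb : 0 < b) (c : Y.C) (hadm : KbAdm (Y.ch c).T)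
    (hinv : (Y.ch c).D * (Y.ch c).Di = 1) (hsize : kbMn (Y.ch c).D ≤ Y.q * K) :
    ∃ Lst : ℤ × (Fin v.j → ℤ) → ℝ × KbB v → Finset (ℤ × (Fin v.j → ℤ)), (∀ d o, (Lst d o).card ≤ 3 * (⌈K⌉₊ + 2) ^ v.j) ∧
      (∀ d d', MeasurableSet {o | d' ∈ Lst d o}) ∧
      ∀ x : P.Lam × ℝ, P.hv (a * a') b (Y.wd c) x ∈ Lst ((Y.norm a).hv a' b c (Y.k2nBack c x)) (P.bs (Y.wd c) x) := by
  classical
  obtain ⟨LH, hH1, hH2, hH3⟩ := Y.k2n_hid_cover hP a a' ha ha' c hadm
  obtain ⟨LV, hV1, hV2⟩ := Y.k2n_vel_cover a b K hb c hinv hsize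
  refine ⟨fun d o => LH d.1 o ×ˢ LV d.2, ?_, ?_, ?_⟩
  · intro d o
    rw [Finset.card_product]
    exact Nat.mul_le_mul (hH1 d.1 o) (hV1 d.2)
  · intro d d'
    by_cases h : d'.2 ∈ LV d.2
    · have : {o | d' ∈ LH d.1 o ×ˢ LV d.2} = {o | d'.1 ∈ LH d.1 o} := by
        ext o
        simp [Finset.mem_product, h]
      rw [this]
      exact hH2 d.1 d'.1
    · have : {o | d' ∈ LH d.1 o ×ˢ LV d.2} = ∅ := by
        ext o
        simp [Finset.mem_product, h]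
      rw [this]
      exact MeasurableSet.empty
  · intro x
    exact Finset.mem_product.2 ⟨hH3 x, hV2 x⟩

end KbSys

end

end Claimed.Agent.R252
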