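import Claimed.Agent.R252.Base.Norm

/-!
# ROW 252 (S0492), unit NORM (post BP-252-S2aC, sub-architect helper22), file 1: COORDINATES OF `Y.norm a` AND `Y.lift a Y'`  (02-framework.tex L2.13, l.696-735, 806-838).
CONTRACT file: every `sorry` is a leaf `L-252-NORM-A*`.  Exact identities, ONE scale, no measure theory.  Prefix `k2n_`.
-/

set_option autoImplicit false

namespace Claimed.Agent.R252

open scoped BigOperators

noncomputable section

variable {v : KbVer}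

/-! ## times -/

theorem k2n_kbQ_pos (n : ℕ) : 0 < kbQ n := by
  unfold kbQ; positivity

theorem k2n_kbQ_le_one (n : ℕ) : kbQ n ≤ 1 := by
  unfold kbQ
  exact pow_le_one₀ (by norm_num) (by norm_num)

theorem k2n_kbQ_add (n m : ℕ) : kbQ (n + m) = kbQ n * kbQ m := by
  unfold kbQ; rw [pow_add]

theorem k2n_kbQ_mul_two_pow (n : ℕ) : kbQ n * 2 ^ n = 1 := by
  unfold kbQ
  rw [← mul_pow]; norm_num

namespace KbSys

variable {P : KbPb v} (Y : KbSys P)

theorem k2n_q_pos : 0 < Y.q := k2n_kbQ_pos _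

theorem k2n_tauOf_tOf (c : Y.C) (τ : ℝ) : Y.tauOf c (Y.tOf c τ) = τ := by
  have := Y.k2n_q_pos
  unfold tauOf tOf
  field_simp
  ring

theorem k2n_tOf_tauOf (c : Y.C) (t : ℝ) : Y.tOf c (Y.tauOf c t) = t := by
  have := Y.k2n_q_pos
  unfold tauOf tOf
  field_simp
  ring

theorem k2n_tOf_mem_I (c : Y.C) (τ : ℝ) : Y.tOf c τ ∈ Y.I c ↔ τ ∈ Set.Ico (0 : ℝ) 1 := by
  have hq := Y.k2n_q_pos
  have hq' : kbQ Y.n = Y.q := rfl
  unfold tOf I kbI tc
  rw [hq']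
  simp only [Set.mem_Ico]
  constructor
  · rintro ⟨h1, h2⟩
    constructor
    · by_contra h
      have : Y.q * τ < 0 := mul_neg_of_pos_of_neg hq (not_le.mp h)
      linarith
    · by_contra h
      have : Y.q * 1 ≤ Y.q * τ := mul_le_mul_of_nonneg_left (not_lt.mp h) hq.le
      nlinarith
  · rintro ⟨h1, h2⟩
    constructor
    · have : 0 ≤ Y.q * τ := mul_nonneg hq.le h1
      linarith
    · have : Y.q * τ < Y.q * 1 := mul_lt_mul_of_pos_left h2 hq
      nlinarith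

theorem k2n_I_sub (c : Y.C) (h : Y.iv c < 2 ^ Y.n) : Y.I c ⊆ Set.Ico (0 : ℝ) 1 := by
  intro t ht
  have hq := Y.k2n_q_pos
  have hq' : kbQ Y.n = Y.q := rfl
  have h2 : Y.q * 2 ^ Y.n = 1 := k2n_kbQ_mul_two_pow _
  unfold I kbI at ht
  rw [hq'] at ht
  have h3 : ((Y.iv c : ℝ) + 1) ≤ 2 ^ Y.n := by exact_mod_cast h
  constructor
  · exact le_trans (by positivity) ht.1
  · calc t < ((Y.iv c : ℝ) + 1) * Y.q := ht.2
      _ ≤ 2 ^ Y.n * Y.q := mul_le_mul_of_nonneg_right h3 hq.le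
      _ = 1 := by rw [mul_comm]; exact h2

/-! ## base coordinates -/

theorem k2n_inv' (c : Y.C) (h : (Y.ch c).D * (Y.ch c).Di = 1) : (Y.ch c).Di * (Y.ch c).D = 1 :=
  mul_eq_one_comm.mp h

theorem k2n_yOf_zOf (c : Y.C) (h : (Y.ch c).D * (Y.ch c).Di = 1) (τ : ℝ) (y : KbB v) :
    Y.yOf c τ (Y.zOf c (Y.tOf c τ) y) = y := by
  unfold yOf zOf
  rw [Matrix.mulVec_mulVec, h, Matrix.one_mulVec]
  abel

theorem k2n_zOf_yOf (c : Y.C) (h : (Y.ch c).D * (Y.ch c).Di = 1) (τ : ℝ) (z : KbB v) :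
    Y.zOf c (Y.tOf c τ) (Y.yOf c τ z) = z := by
  unfold yOf zOf
  rw [add_sub_cancel_left, Matrix.mulVec_mulVec, Y.k2n_inv' c h, Matrix.one_mulVec]

/-- the new base trajectory is the old one in the chart coordinates -/
theorem k2n_Y_coN (a : ℝ) (c : Y.C) (l : P.Lam) (τ : ℝ) :
    kbY (Y.coN a c l) τ = Y.zOf c (Y.tOf c τ) (kbY (P.co (Y.wd c) l) (Y.tOf c τ)) := by
  unfold kbY coN zOf kbY kbV KbChart.yc tOf
  simp only
  rw [smul_smul, ← Matrix.mulVec_smul, ← Matrix.mulVec_add]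
  congr 1
  ext i
  simp only [Pi.add_apply, Pi.sub_apply, Pi.smul_apply, smul_eq_mul]
  ring

theorem k2n_V_coN (a : ℝ) (c : Y.C) (l : P.Lam) :
    kbV (Y.coN a c l) = Y.q • (Y.ch c).Di.mulVec (kbV (P.co (Y.wd c) l) - (Y.ch c).y1) := rfl

/-- the old velocity from the new one: `V = y_c' + D_c V' / q` -/
theorem k2n_V_old (a : ℝ) (c : Y.C) (h : (Y.ch c).D * (Y.ch c).Di = 1) (l : P.Lam) :
    kbV (P.co (Y.wd c) l) = (Y.ch c).y1 + (1 / Y.q) • (Y.ch c).D.mulVec (kbV (Y.coN a c l)) := by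
  have hq := Y.k2n_q_pos
  rw [k2n_V_coN, Matrix.mulVec_smul, Matrix.mulVec_mulVec, h, Matrix.one_mulVec, smul_smul,
    one_div, inv_mul_cancel₀ hq.ne', one_smul]
  abel

end KbSys

end

end Claimed.Agent.R252
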