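import Claimed.Agent.R252.S2a.DenContract

/-!
# ROW 252 (S0492), unit NORM (post BP-252-S2aC, sub-architect helper22), file 7: COMPARISON OF TWO OBSERVATIONS, TRANSPORT OF DENSITIES.  ABSTRACT LAYER  (02-framework.tex l.747-790).
CONTRACT file: every `sorry` is a leaf `L-252-NORM-D*`.  Mathlib + the abstract layer `S2a/DenContract.lean` of helper129 (`k2aPart`, `k2aDen`, `k2aDn`, `K2aFr`, `K2aLab`, `k2a_measure`, `k2a_omit`, ...).
ONE world, ONE scale.  Prefix `k2n_`.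
-/

set_option autoImplicit false

namespace Claimed.Agent.R252

open MeasureTheory
open scoped ENNReal BigOperators

noncomputable section

variable {Ω Ω' O O' : Type} [MeasurableSpace Ω] [MeasurableSpace Ω'] [MeasurableSpace O] [MeasurableSpace O'] {D D₁ D₂ C : Type}

/-! ## L-252-NORM-D1 : ceilings pass to an observation whose classes are covered by few old classes -/

/-- the good part: if `ℓ₁ x ∈ Lst (ℓ₂ x) (b x)` on `S` (lists of size `≤ n`), the part of `μ|S` where the old density is `≤ hi` has `ℓ₂`-density `≤ n hi`.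
PROOF. For measurable `A`: `part (A) ≤ ∑_{d₁} μ {ℓ₁ = d₁, b ∈ A ∩ {d₁ ∈ Lst d₂ ·} ∩ {den d₁ ≤ hi}} = ∑_{d₁} ∫_{A ∩ ..} den d₁ ≤ ∫_A card (Lst d₂ o) hi` (`k2a_measure`);
then `ae_le_of_forall_setLIntegral_le_of_sigmaFinite` as in `k2a_den_le_of_map_le`. -/
theorem k2n_good_den {vol : Measure O} {μ : Measure Ω} {b : Ω → O} {ℓ₁ : Ω → D₁} {ℓ₂ : Ω → D₂} [Countable D₁] [Countable D₂]
    (h : K2aFr vol μ b) (hℓ₁ : K2aLab ℓ₁) (hℓ₂ : K2aLab ℓ₂) {S : Set Ω} (hS : MeasurableSet S)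
    (Lst : D₂ → O → Finset D₁) (n : ℕ) (hcard : ∀ d o, (Lst d o).card ≤ n) (hmeas : ∀ d d', MeasurableSet {o | d' ∈ Lst d o})
    (hmem : ∀ x ∈ S, ℓ₁ x ∈ Lst (ℓ₂ x) (b x)) (hi : ℝ≥0∞) (d : D₂) :
    ∀ᵐ o ∂vol, k2aDen vol ((μ.restrict S).restrict {x | k2aDn vol μ b ℓ₁ x ≤ hi}) b ℓ₂ d o ≤ n * hi := by
  classical
  have := h.sf
  have hG : MeasurableSet {x | k2aDn vol μ b ℓ₁ x ≤ hi} := measurableSet_le (k2a_dn_meas h hℓ₁ μ) measurable_const
  have hfr : K2aFr vol ((μ.restrict S).restrict {x | k2aDn vol μ b ℓ₁ x ≤ hi}) b := k2a_fr_restrict (k2a_fr_restrict h S) _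
  refine ae_le_of_forall_setLIntegral_le_of_sigmaFinite (g := fun _ => (n : ℝ≥0∞) * hi) (k2a_den_meas _ _ _ _ _) fun A hA _ => ?_
  rw [← withDensity_apply _ hA, k2a_part_withDensity hfr, setLIntegral_const]
  have hT : ∀ d₁ : D₁, MeasurableSet ((A ∩ {o | d₁ ∈ Lst d o}) ∩ {o | k2aDen vol μ b ℓ₁ d₁ o ≤ hi}) := fun d₁ =>
    (hA.inter (hmeas d d₁)).inter (measurableSet_le (k2a_den_meas _ _ _ _ _) measurable_const)
  have h1 : k2aPart ((μ.restrict S).restrict {x | k2aDn vol μ b ℓ₁ x ≤ hi}) b ℓ₂ d A ≤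
      μ {x | b x ∈ ((A ∩ {o | ℓ₁ x ∈ Lst d o}) ∩ {o | k2aDen vol μ b ℓ₁ (ℓ₁ x) o ≤ hi})} := by
    unfold k2aPart
    rw [Measure.map_apply h.bm hA, Measure.restrict_apply (h.bm hA), Measure.restrict_apply ((h.bm hA).inter (hℓ₂ d)),
      Measure.restrict_apply (((h.bm hA).inter (hℓ₂ d)).inter hG)]
    refine measure_mono ?_
    rintro x ⟨⟨⟨hxA, hxd⟩, hxG⟩, hxS⟩
    have hxd' : ℓ₂ x = d := hxd
    have h2 := hmem x hxS
    rw [hxd'] at h2
    exact ⟨⟨hxA, h2⟩, hxG⟩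
  refine h1.trans ?_
  rw [k2a_measure h hℓ₁ hT]
  have h3 : ∀ d₁ : D₁, ∫⁻ o in ((A ∩ {o | d₁ ∈ Lst d o}) ∩ {o | k2aDen vol μ b ℓ₁ d₁ o ≤ hi}), k2aDen vol μ b ℓ₁ d₁ o ∂vol ≤
      ∫⁻ o in A, {o | d₁ ∈ Lst d o}.indicator (fun _ => hi) o ∂vol := by
    intro d₁
    rw [lintegral_indicator (hmeas d d₁), Measure.restrict_restrict (hmeas d d₁), Set.inter_comm _ A]
    refine (setLIntegral_mono' (hT d₁) fun o ho => ho.2).trans ?_
    exact lintegral_mono' (Measure.restrict_mono Set.inter_subset_left le_rfl) le_rfl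
  refine (ENNReal.tsum_le_tsum h3).trans ?_
  rw [← lintegral_tsum fun d₁ => ((measurable_const).indicator (hmeas d d₁)).aemeasurable, ← setLIntegral_const]
  refine lintegral_mono fun o => ?_
  have e1 : ∑' d₁, {o | d₁ ∈ Lst d o}.indicator (fun _ => hi) o = ∑ d₁ ∈ Lst d o, hi := by
    rw [tsum_eq_sum (s := Lst d o) fun d' hd' => Set.indicator_of_notMem (by exact hd') _]
    exact Finset.sum_congr rfl fun d' hd' => Set.indicator_of_mem (by exact hd') _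
  rw [e1, Finset.sum_const, nsmul_eq_mul]
  have hc : ((Lst d o).card : ℝ≥0∞) ≤ (n : ℝ≥0∞) := Nat.cast_le.2 (hcard d o)
  exact mul_le_mul_left hc _

/-- **ceiling transfer** (`k2n_good_den` + `k2a_omit` for `μ.restrict S` and the good set) -/
theorem k2n_ceil {vol : Measure O} {μ : Measure Ω} {b : Ω → O} {ℓ₁ : Ω → D₁} {ℓ₂ : Ω → D₂} [Countable D₁] [Countable D₂]
    (h : K2aFr vol μ b) (hℓ₁ : K2aLab ℓ₁) (hℓ₂ : K2aLab ℓ₂) {S : Set Ω} (hS : MeasurableSet S)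
    (Lst : D₂ → O → Finset D₁) (n : ℕ) (hcard : ∀ d o, (Lst d o).card ≤ n) (hmeas : ∀ d d', MeasurableSet {o | d' ∈ Lst d o})
    (hmem : ∀ x ∈ S, ℓ₁ x ∈ Lst (ℓ₂ x) (b x)) (hi : ℝ≥0∞) :
    μ (S ∩ {x | 2 * (n * hi) < k2aDn vol (μ.restrict S) b ℓ₂ x}) ≤ 2 * μ (S ∩ {x | hi < k2aDn vol μ b ℓ₁ x}) := by
  have hG : MeasurableSet {x | k2aDn vol μ b ℓ₁ x ≤ hi} := measurableSet_le (k2a_dn_meas h hℓ₁ μ) measurable_const
  have hfr : K2aFr vol (μ.restrict S) b := k2a_fr_restrict h S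
  have h1 := k2a_omit hfr hℓ₂ hG
  have h2 : ∀ᵐ x ∂(μ.restrict S), k2aDn vol ((μ.restrict S).restrict {x | k2aDn vol μ b ℓ₁ x ≤ hi}) b ℓ₂ x ≤ n * hi :=
    k2a_ae_of_ae (ℓ := ℓ₂) hfr (p := fun d o => k2aDen vol ((μ.restrict S).restrict {x | k2aDn vol μ b ℓ₁ x ≤ hi}) b ℓ₂ d o ≤ n * hi)
      (fun d => k2n_good_den h hℓ₁ hℓ₂ hS Lst n hcard hmeas hmem hi d)
  have e1 : μ (S ∩ {x | 2 * (n * hi) < k2aDn vol (μ.restrict S) b ℓ₂ x}) = (μ.restrict S) {x | 2 * (n * hi) < k2aDn vol (μ.restrict S) b ℓ₂ x} := by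
    rw [Measure.restrict_apply' hS, Set.inter_comm]
  have e2 : μ (S ∩ {x | hi < k2aDn vol μ b ℓ₁ x}) = (μ.restrict S) {x | k2aDn vol μ b ℓ₁ x ≤ hi}ᶜ := by
    rw [Measure.restrict_apply' hS, Set.inter_comm]
    congr 2
    ext x
    simp
  rw [e1, e2]
  refine le_trans (measure_mono_ae ?_) h1
  filter_upwards [h2] with x hx hx'
  refine lt_of_le_of_lt ?_ hx'
  exact mul_le_mul_right hx _

/-! ## L-252-NORM-D2 : floors pass to a family of charts which is known by the old observation -/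

/-- **floor transfer.**  `S c` disjoint selections, `ℓ₂ c` the new label in the chart `c`; the pair (chart, new label) lies in a list of size `≤ n` depending on the old observation.
PROOF. Off `{dn ℓ₁ < lo}` the event implies `den_c (ℓ₂ c x) (b x) < ε den (ℓ₁ x) (b x)`.  Its mass is
`∑_c ∑_{d₁,d₂} μ (S c ∩ {ℓ₁ = d₁, ℓ₂ c = d₂} ∩ b⁻¹ G) ≤ ∑_c ∑_{d₁,d₂} ∫_{G ∩ {(c,d₂) ∈ Lst d₁ ·}} den_c d₂ ≤ ∑_{d₁} ∫ card (Lst d₁ o) ε den d₁ ≤ ε n μ univ`,  `G = {o | den_c d₂ o < ε den d₁ o}`. -/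
theorem k2n_floor {vol : Measure O} {μ : Measure Ω} {b : Ω → O} {ℓ₁ : Ω → D₁} [Fintype C] {ℓ₂ : C → Ω → D₂} [Countable D₁] [Countable D₂]
    (h : K2aFr vol μ b) (hℓ₁ : K2aLab ℓ₁) (hℓ₂ : ∀ c, K2aLab (ℓ₂ c)) {S : C → Set Ω} (hS : ∀ c, MeasurableSet (S c))
    (Lst : D₁ → O → Finset (C × D₂)) (n : ℕ) (hcard : ∀ d o, (Lst d o).card ≤ n) (hmeas : ∀ d p, MeasurableSet {o | p ∈ Lst d o})
    (hmem : ∀ c, ∀ x ∈ S c, (c, ℓ₂ c x) ∈ Lst (ℓ₁ x) (b x)) (hdisj : ∀ c c', c ≠ c' → Disjoint (S c) (S c')) (ε lo : ℝ≥0∞) :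
    ∑ c, μ (S c ∩ {x | k2aDn vol (μ.restrict (S c)) b (ℓ₂ c) x < ε * lo}) ≤ μ {x | k2aDn vol μ b ℓ₁ x < lo} + ε * n * μ Set.univ := by
  classical
  have hlow : MeasurableSet {x | k2aDn vol μ b ℓ₁ x < lo} := measurableSet_lt (k2a_dn_meas h hℓ₁ μ) measurable_const
  -- splitting
  have hsplit : ∀ c, μ (S c ∩ {x | k2aDn vol (μ.restrict (S c)) b (ℓ₂ c) x < ε * lo}) ≤
      μ (S c ∩ {x | k2aDn vol μ b ℓ₁ x < lo}) + (μ.restrict (S c)) {x | k2aDn vol (μ.restrict (S c)) b (ℓ₂ c) x < ε * k2aDn vol μ b ℓ₁ x} := by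
    intro c
    rw [Measure.restrict_apply' (hS c)]
    refine le_trans (measure_mono ?_) (measure_union_le _ _)
    rintro x ⟨hxS, hx⟩
    by_cases hx1 : k2aDn vol μ b ℓ₁ x < lo
    · exact Or.inl ⟨hxS, hx1⟩
    · exact Or.inr ⟨lt_of_lt_of_le hx (mul_le_mul_right (not_lt.mp hx1) _), hxS⟩
  -- first term
  have hfirst : ∑ c, μ (S c ∩ {x | k2aDn vol μ b ℓ₁ x < lo}) ≤ μ {x | k2aDn vol μ b ℓ₁ x < lo} := by
    rw [← measure_biUnion_finset (fun c _ c' _ hcc => (hdisj c c' hcc).mono Set.inter_subset_left Set.inter_subset_left)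
      (fun c _ => (hS c).inter hlow)]
    refine measure_mono ?_
    intro x hx
    simp only [Set.mem_iUnion] at hx
    obtain ⟨c, -, hx⟩ := hx
    exact hx.2
  -- second term
  obtain ⟨G, hG⟩ : ∃ G : D₁ → C × D₂ → ℝ≥0∞, ∀ d p, G d p =
      ∫⁻ o, {o | p ∈ Lst d o}.indicator (fun o => ε * k2aDen vol μ b ℓ₁ d o) o ∂vol := ⟨_, fun _ _ => rfl⟩
  have hsec : ∀ c, (μ.restrict (S c)) {x | k2aDn vol (μ.restrict (S c)) b (ℓ₂ c) x < ε * k2aDn vol μ b ℓ₁ x} ≤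
      ∑' d₁, ∑' d₂, G d₁ (c, d₂) := by
    intro c
    have hfr : K2aFr vol (μ.restrict (S c)) b := k2a_fr_restrict h (S c)
    have hT : ∀ dd : D₁ × D₂, MeasurableSet ({o | k2aDen vol (μ.restrict (S c)) b (ℓ₂ c) dd.2 o < ε * k2aDen vol μ b ℓ₁ dd.1 o} ∩
        {o | (c, dd.2) ∈ Lst dd.1 o}) := fun dd =>
      (measurableSet_lt (k2a_den_meas _ _ _ _ _) ((k2a_den_meas vol μ b ℓ₁ dd.1).const_mul ε)).inter (hmeas dd.1 (c, dd.2))
    have h1 := k2a_measure hfr (k2a_lab_pair hℓ₁ (hℓ₂ c)) hT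
    have h2 : (μ.restrict (S c)) {x | k2aDn vol (μ.restrict (S c)) b (ℓ₂ c) x < ε * k2aDn vol μ b ℓ₁ x} ≤
        (μ.restrict (S c)) {x | b x ∈ ({o | k2aDen vol (μ.restrict (S c)) b (ℓ₂ c) (k2aPair ℓ₁ (ℓ₂ c) x).2 o < ε * k2aDen vol μ b ℓ₁ (k2aPair ℓ₁ (ℓ₂ c) x).1 o} ∩
          {o | (c, (k2aPair ℓ₁ (ℓ₂ c) x).2) ∈ Lst (k2aPair ℓ₁ (ℓ₂ c) x).1 o})} := by
      refine measure_mono_ae ?_
      filter_upwards [ae_restrict_mem (hS c)] with x hx hxB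
      exact ⟨hxB, hmem c x hx⟩
    refine h2.trans ?_
    rw [h1]
    have h3 : ∀ dd : D₁ × D₂, ∫⁻ o in ({o | k2aDen vol (μ.restrict (S c)) b (ℓ₂ c) dd.2 o < ε * k2aDen vol μ b ℓ₁ dd.1 o} ∩
        {o | (c, dd.2) ∈ Lst dd.1 o}), k2aDen vol (μ.restrict (S c)) b (k2aPair ℓ₁ (ℓ₂ c)) dd o ∂vol ≤ G dd.1 (c, dd.2) := by
      intro dd
      rw [hG, lintegral_indicator (hmeas dd.1 (c, dd.2))]
      have hle : k2aDen vol (μ.restrict (S c)) b (k2aPair ℓ₁ (ℓ₂ c)) dd ≤ᵐ[vol] k2aDen vol (μ.restrict (S c)) b (ℓ₂ c) dd.2 := by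
        refine k2a_den_le_of_subset hfr le_rfl fun x hx => ?_
        exact congrArg Prod.snd (show (ℓ₁ x, ℓ₂ c x) = dd from hx)
      refine (setLIntegral_mono_ae (((k2a_den_meas vol μ b ℓ₁ dd.1).const_mul ε)).aemeasurable ?_).trans ?_
      · filter_upwards [hle] with o ho hoT
        exact ho.trans (le_of_lt hoT.1)
      · exact lintegral_mono' (Measure.restrict_mono Set.inter_subset_right le_rfl) le_rfl
    refine (ENNReal.tsum_le_tsum h3).trans ?_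
    rw [ENNReal.tsum_prod (f := fun d₁ d₂ => G d₁ (c, d₂))]
  have hG2 : ∀ d₁, ∑' p, G d₁ p ≤ ε * n * ∫⁻ o, k2aDen vol μ b ℓ₁ d₁ o ∂vol := by
    intro d
    simp only [hG]
    rw [← lintegral_tsum fun p => (((k2a_den_meas vol μ b ℓ₁ d).const_mul ε).indicator (hmeas d p)).aemeasurable,
      ← lintegral_const_mul _ (k2a_den_meas vol μ b ℓ₁ d)]
    refine lintegral_mono fun o => ?_
    have e1 : ∑' p, {o | p ∈ Lst d o}.indicator (fun o => ε * k2aDen vol μ b ℓ₁ d o) o =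
        ∑ p ∈ Lst d o, ε * k2aDen vol μ b ℓ₁ d o := by
      rw [tsum_eq_sum (s := Lst d o) fun d' hd' => Set.indicator_of_notMem (by exact hd') _]
      exact Finset.sum_congr rfl fun d' hd' => Set.indicator_of_mem (by exact hd') _
    rw [e1, Finset.sum_const, nsmul_eq_mul]
    have hc : ((Lst d o).card : ℝ≥0∞) ≤ (n : ℝ≥0∞) := Nat.cast_le.2 (hcard d o)
    calc ((Lst d o).card : ℝ≥0∞) * (ε * k2aDen vol μ b ℓ₁ d o) ≤ (n : ℝ≥0∞) * (ε * k2aDen vol μ b ℓ₁ d o) :=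
          mul_le_mul_left hc _
      _ = ε * n * k2aDen vol μ b ℓ₁ d o := by ring
  have hsum : ∑ c, ∑' d₁, ∑' d₂, G d₁ (c, d₂) ≤ ε * n * μ Set.univ := by
    have e0 : ∑ c, ∑' d₁, ∑' d₂, G d₁ (c, d₂) = ∑' c, ∑' d₁, ∑' d₂, G d₁ (c, d₂) := (tsum_fintype _).symm
    rw [e0, ENNReal.tsum_comm, ← k2a_total h hℓ₁, ← ENNReal.tsum_mul_left]
    refine ENNReal.tsum_le_tsum fun d₁ => ?_
    rw [← ENNReal.tsum_prod (f := fun c d₂ => G d₁ (c, d₂))]
    exact hG2 d₁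
  calc ∑ c, μ (S c ∩ {x | k2aDn vol (μ.restrict (S c)) b (ℓ₂ c) x < ε * lo})
      ≤ ∑ c, (μ (S c ∩ {x | k2aDn vol μ b ℓ₁ x < lo}) + ∑' d₁, ∑' d₂, G d₁ (c, d₂)) :=
        Finset.sum_le_sum fun c _ => (hsplit c).trans (add_le_add_right (hsec c) _)
    _ = ∑ c, μ (S c ∩ {x | k2aDn vol μ b ℓ₁ x < lo}) + ∑ c, ∑' d₁, ∑' d₂, G d₁ (c, d₂) := Finset.sum_add_distrib
    _ ≤ _ := add_le_add hfirst hsum

/-! ## L-252-NORM-D3 : transport of densities by a change of coordinates (2.20) -/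

/-- the parts are transported -/
theorem k2n_part_transport {μ : Measure Ω} {b : Ω → O} {b' : Ω' → O'} {back : Ω → Ω'} {Ψ : O → O'} {ℓ' : Ω' → D} (s : ℝ≥0∞)
    (hback : Measurable back) (hb : Measurable b) (hb' : Measurable b') (hΨ : Measurable Ψ) (hcomm : ∀ x, b' (back x) = Ψ (b x)) (hℓ' : K2aLab ℓ') (d : D) :
    k2aPart (s • μ.map back) b' ℓ' d = s • (k2aPart μ b (ℓ' ∘ back) d).map Ψ := by
  unfold k2aPart
  have e : b' ∘ back = Ψ ∘ b := funext hcomm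
  rw [Measure.restrict_smul, Measure.map_smul, Measure.restrict_map hback (hℓ' d), Measure.map_map hb' hback,
    Measure.map_map hΨ hb, e]
  rfl

/-- **exact density transform**: `ρ' = s κ ρ`  (`MeasurableEmbedding.rnDeriv_map`, `Measure.rnDeriv_smul_left`, `Measure.rnDeriv_smul_right`) -/
theorem k2n_den_transport {vol : Measure O} {vol' : Measure O'} {μ : Measure Ω} {b : Ω → O} {b' : Ω' → O'} {back : Ω → Ω'} {Ψ : O → O'} {ℓ' : Ω' → D}
    (h : K2aFr vol μ b) [SigmaFinite vol'] (s κ : ℝ≥0∞) (hs : s ≠ ∞) (hκ0 : κ ≠ 0) (hκt : κ ≠ ∞)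
    (hback : Measurable back) (hb' : Measurable b') (hΨ : MeasurableEmbedding Ψ) (hvol : vol.map Ψ = κ • vol')
    (hcomm : ∀ x, b' (back x) = Ψ (b x)) (hℓ' : K2aLab ℓ') (d : D) :
    ∀ᵐ o ∂vol, k2aDen vol' (s • μ.map back) b' ℓ' d (Ψ o) = s * κ * k2aDen vol μ b (ℓ' ∘ back) d o := by
  have := h.sf
  have := h.fin
  unfold k2aDen
  rw [k2n_part_transport s hback h.bm hb' hΨ.measurable hcomm hℓ' d]
  obtain ⟨ν, hν⟩ : ∃ ν : Measure O, ν = k2aPart μ b (ℓ' ∘ back) d := ⟨_, rfl⟩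
  have hfin : IsFiniteMeasure ν := by rw [hν]; unfold k2aPart; infer_instance
  rw [← hν]
  -- transfer of a.e. statements
  have htr : ∀ p : O' → Prop, (∀ᵐ o' ∂vol', p o') → ∀ᵐ o ∂vol, p (Ψ o) := by
    intro p hp
    have h1 : ∀ᵐ o' ∂(vol.map Ψ), p o' := by
      rw [hvol]
      exact (Measure.smul_absolutelyContinuous (c := κ)).ae_le hp
    exact ae_of_ae_map hΨ.measurable.aemeasurable h1
  have s1 := htr _ (Measure.rnDeriv_smul_left_of_ne_top (ν.map Ψ) vol' hs)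
  have s2 := htr _ (Measure.rnDeriv_smul_right_of_ne_top (ν.map Ψ) vol' hκ0 hκt)
  have s4 := hΨ.rnDeriv_map ν vol
  filter_upwards [s1, s2, s4] with o a1 a2 a4
  rw [a1, Pi.smul_apply, smul_eq_mul, mul_assoc]
  congr 1
  rw [hvol, a2, Pi.smul_apply, smul_eq_mul] at a4
  rw [← a4, ← mul_assoc, ENNReal.mul_inv_cancel hκ0 hκt, one_mul]

/-- the same at the sampled incidence (`k2a_ae_of_ae`) -/
theorem k2n_dn_transport {vol : Measure O} {vol' : Measure O'} {μ : Measure Ω} {b : Ω → O} {b' : Ω' → O'} {back : Ω → Ω'} {Ψ : O → O'} {ℓ' : Ω' → D} [Countable D]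
    (h : K2aFr vol μ b) [SigmaFinite vol'] (s κ : ℝ≥0∞) (hs : s ≠ ∞) (hκ0 : κ ≠ 0) (hκt : κ ≠ ∞)
    (hback : Measurable back) (hb' : Measurable b') (hΨ : MeasurableEmbedding Ψ) (hvol : vol.map Ψ = κ • vol')
    (hcomm : ∀ x, b' (back x) = Ψ (b x)) (hℓ' : K2aLab ℓ') :
    ∀ᵐ x ∂μ, k2aDn vol' (s • μ.map back) b' ℓ' (back x) = s * κ * k2aDn vol μ b (ℓ' ∘ back) x := by
  have h1 := k2a_ae_of_ae (ℓ := ℓ' ∘ back) h
    (p := fun d o => k2aDen vol' (s • μ.map back) b' ℓ' d (Ψ o) = s * κ * k2aDen vol μ b (ℓ' ∘ back) d o)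
    (fun d => k2n_den_transport h s κ hs hκ0 hκt hback hb' hΨ hvol hcomm hℓ' d)
  filter_upwards [h1] with x hx
  unfold k2aDn
  rw [hcomm]
  exact hx

/-! ## L-252-NORM-D4 : skew products of maps with constant Jacobian -/

/-- `(x, y) ↦ (f x, g y + s x)` has the Jacobian factor `κ₁ κ₂` (Tonelli; translation invariance in the second variable) -/
theorem k2n_skew_map {E₁ E₂ : Type} [MeasurableSpace E₁] [MeasurableSpace E₂] [AddGroup E₂] [MeasurableAdd₂ E₂]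
    (m₁ : Measure E₁) (m₂ : Measure E₂) [SFinite m₁] [SFinite m₂] [m₂.IsAddRightInvariant] (f : E₁ → E₁) (g : E₂ → E₂) (s : E₁ → E₂)
    (hf : Measurable f) (hg : Measurable g) (hs : Measurable s) (κ₁ κ₂ : ℝ≥0∞) (h₁ : m₁.map f = κ₁ • m₁) (h₂ : m₂.map g = κ₂ • m₂) :
    (m₁.prod m₂).map (fun p : E₁ × E₂ => (f p.1, g p.2 + s p.1)) = (κ₁ * κ₂) • m₁.prod m₂ := by
  have hf' : MeasurePreserving f m₁ (κ₁ • m₁) := ⟨hf, h₁⟩
  have hgm : Measurable (Function.uncurry fun (x : E₁) (y : E₂) => g y + s x) :=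
    (hg.comp measurable_snd).add (hs.comp measurable_fst)
  have hg' : ∀ᵐ a ∂m₁, Measure.map ((fun (x : E₁) (y : E₂) => g y + s x) a) m₂ = κ₂ • m₂ := by
    refine Filter.Eventually.of_forall fun a => ?_
    have e1 : (fun y : E₂ => g y + s a) = (fun y => y + s a) ∘ g := rfl
    simp only
    rw [e1, ← Measure.map_map (measurable_add_const _) hg, h₂, Measure.map_smul, map_add_right_eq_self]
  have h := (hf'.skew_product hgm hg').map_eq
  rw [h, Measure.prod_smul_left, Measure.prod_smul_right, smul_smul]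

/-- the same with the roles of the two factors exchanged -/
theorem k2n_skew_map_swap {E₁ E₂ : Type} [MeasurableSpace E₁] [MeasurableSpace E₂] [AddGroup E₁] [MeasurableAdd₂ E₁]
    (m₁ : Measure E₁) (m₂ : Measure E₂) [SFinite m₁] [SFinite m₂] [m₁.IsAddRightInvariant] (g : E₁ → E₁) (f : E₂ → E₂) (s : E₂ → E₁)
    (hf : Measurable f) (hg : Measurable g) (hs : Measurable s) (κ₁ κ₂ : ℝ≥0∞) (h₁ : m₁.map g = κ₁ • m₁) (h₂ : m₂.map f = κ₂ • m₂) :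
    (m₁.prod m₂).map (fun p : E₁ × E₂ => (g p.1 + s p.2, f p.2)) = (κ₁ * κ₂) • m₁.prod m₂ := by
  have h := k2n_skew_map m₂ m₁ f g s hf hg hs κ₂ κ₁ h₂ h₁
  have e : (fun p : E₁ × E₂ => (g p.1 + s p.2, f p.2)) = Prod.swap ∘ (fun p : E₂ × E₁ => (f p.1, g p.2 + s p.1)) ∘ Prod.swap := rfl
  have hm : Measurable (fun p : E₂ × E₁ => (f p.1, g p.2 + s p.1)) :=
    (hf.comp measurable_fst).prodMk ((hg.comp measurable_snd).add (hs.comp measurable_fst))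
  rw [e, ← Measure.map_map measurable_swap (hm.comp measurable_swap), ← Measure.map_map hm measurable_swap, Measure.prod_swap, h,
    Measure.map_smul, Measure.prod_swap, mul_comm]

/-- three factors: `(x, y, w) ↦ (g₁ x + s₁ y, f y, g₂ w + s₂ (x, y))` -/
theorem k2n_skew_map3 {A B : Type} [MeasurableSpace A] [MeasurableSpace B] [AddGroup A] [MeasurableAdd₂ A] [AddGroup B] [MeasurableAdd₂ B]
    (mA : Measure A) (mB : Measure B) [SFinite mA] [SFinite mB] [mA.IsAddRightInvariant] [mB.IsAddRightInvariant]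
    (g₁ f s₁ : A → A) (g₂ : B → B) (s₂ : A × A → B)
    (hg₁ : Measurable g₁) (hf : Measurable f) (hs₁ : Measurable s₁) (hg₂ : Measurable g₂) (hs₂ : Measurable s₂) (κ₁ κ₂ κ₃ : ℝ≥0∞)
    (h₁ : mA.map g₁ = κ₁ • mA) (h₂ : mA.map f = κ₂ • mA) (h₃ : mB.map g₂ = κ₃ • mB) :
    (mA.prod (mA.prod mB)).map (fun p : A × A × B => (g₁ p.1 + s₁ p.2.1, f p.2.1, g₂ p.2.2 + s₂ (p.1, p.2.1))) =
      (κ₁ * κ₂ * κ₃) • mA.prod (mA.prod mB) := by
  have hF := k2n_skew_map_swap mA mA g₁ f s₁ hf hg₁ hs₁ κ₁ κ₂ h₁ h₂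
  have hFm : Measurable (fun p : A × A => (g₁ p.1 + s₁ p.2, f p.2)) :=
    ((hg₁.comp measurable_fst).add (hs₁.comp measurable_snd)).prodMk (hf.comp measurable_snd)
  have h := k2n_skew_map (mA.prod mA) mB (fun p : A × A => (g₁ p.1 + s₁ p.2, f p.2)) g₂ s₂ hFm hg₂ hs₂ (κ₁ * κ₂) κ₃ hF h₃
  have hm : Measurable (fun p : (A × A) × B => ((g₁ p.1.1 + s₁ p.1.2, f p.1.2), g₂ p.2 + s₂ p.1)) :=
    (hFm.comp measurable_fst).prodMk ((hg₂.comp measurable_snd).add (hs₂.comp measurable_fst))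
  have e : (fun p : A × A × B => (g₁ p.1 + s₁ p.2.1, f p.2.1, g₂ p.2.2 + s₂ (p.1, p.2.1))) =
      MeasurableEquiv.prodAssoc ∘ (fun p : (A × A) × B => ((g₁ p.1.1 + s₁ p.1.2, f p.1.2), g₂ p.2 + s₂ p.1)) ∘
        (MeasurableEquiv.prodAssoc (α := A) (β := A) (γ := B)).symm := rfl
  have hsymm : (mA.prod (mA.prod mB)).map (MeasurableEquiv.prodAssoc (α := A) (β := A) (γ := B)).symm = (mA.prod mA).prod mB :=
    (measurePreserving_prodAssoc mA mA mB).symm.map_eq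
  rw [e, ← Measure.map_map MeasurableEquiv.prodAssoc.measurable (hm.comp (MeasurableEquiv.measurable _)),
    ← Measure.map_map hm (MeasurableEquiv.measurable _), hsymm, h, Measure.map_smul, Measure.prodAssoc_prod]

/-- affine maps of `ℝ^m` -/
theorem k2n_aff_map {m : ℕ} (M : Matrix (Fin m) (Fin m) ℝ) (hM : M.det ≠ 0) (b : Fin m → ℝ) :
    (volume : Measure (Fin m → ℝ)).map (fun x => M.mulVec (x - b)) = ENNReal.ofReal |M.det|⁻¹ • volume := by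
  have e : (fun x : Fin m → ℝ => M.mulVec (x - b)) = (Matrix.toLin' M) ∘ fun x => x + (-b) := by
    funext x
    simp [sub_eq_add_neg]
  have hm : Measurable (Matrix.toLin' M) := (LinearMap.continuous_of_finiteDimensional _).measurable
  rw [e, ← Measure.map_map hm (measurable_add_const _), map_add_right_eq_self, Real.map_matrix_volume_pi_eq_smul_volume_pi hM, abs_inv]

theorem k2n_aff_meas {m : ℕ} (M : Matrix (Fin m) (Fin m) ℝ) (b : Fin m → ℝ) : Measurable (fun x : Fin m → ℝ => M.mulVec (x - b)) := by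
  have e : (fun x : Fin m → ℝ => M.mulVec (x - b)) = (Matrix.toLin' M) ∘ fun x => x + (-b) := by
    funext x
    simp [sub_eq_add_neg]
  rw [e]
  exact (LinearMap.continuous_of_finiteDimensional _).measurable.comp (measurable_add_const _)


end

end Claimed.Agent.R252
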