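import Claimed.Agent.R252.Norm.Mass

/-!
# ROW 252 (S0492), unit NORM (post BP-252-S2aC, sub-architect helper22), file 6: `Y.lift a Y'` IS A CHART SYSTEM  (02-framework.tex l.806-838).
CONTRACT file: every `sorry` is a leaf `L-252-NORM-L*`.  ONE scale, explicit slacks.  Prefix `k2n_`.
`a = a_r` thickness of the parent, `a' = a_s` thickness of the child in the new units; the lift has thickness `a * a' = a_{r+s}`.
-/

set_option autoImplicit false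

namespace Claimed.Agent.R252

open MeasureTheory
open scoped ENNReal BigOperators

noncomputable section

variable {v : KbVer}

namespace KbSys

variable {P : KbPb v} (Y : KbSys P) (a : ℝ) (Y' : KbSys (Y.norm a))

/-! ## L-252-NORM-L1 : structure -/

theorem k2n_lift_S_eq (d : Y'.C) : (Y.lift a Y').S d = Y.k2nBack (Y'.wd d) ⁻¹' Y'.S d := rfl

theorem k2n_lift_S_sub (hY' : Y'.WF) (d : Y'.C) : (Y.lift a Y').S d ⊆ Y.S (Y'.wd d) := by
  intro x hx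
  have h1 : Y.k2nBack (Y'.wd d) x ∈ Y'.S d := hx
  have h2 : Y.incOf (Y'.wd d) (Y.k2nBack (Y'.wd d) x) ∈ Y.S (Y'.wd d) := (hY'.S_sub d h1).1
  have h3 : Y.incOf (Y'.wd d) (Y.k2nBack (Y'.wd d) x) = x := Y.k2n_inc_back (Y'.wd d) x
  exact h3 ▸ h2

/-- **the lift is a chart system** -/
theorem k2n_lift_WF (hY : Y.WF) (ha : 0 < a) (hY' : Y'.WF) : (Y.lift a Y').WF := by
  refine ⟨?_, ?_, ?_, ?_, ?_, ?_, ?_, ?_⟩
  · intro d
    exact Y.k2n_lift_iv_lt a Y' d (hY.iv_lt _) (hY'.iv_lt d)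
  · intro d
    exact (hY.A_meas (Y'.wd d)).inter (hY'.A_meas d)
  · intro d l hl
    exact hY.A_sub (Y'.wd d) hl.1
  · intro d d' hne hw hi
    obtain ⟨h1, h2⟩ := Y.k2n_lift_iv_inj a Y' d d' (hY'.iv_lt d) (hY'.iv_lt d') hi
    by_cases hc : Y'.wd d = Y'.wd d'
    · exact (hY'.A_disj d d' hne hc h2).mono Set.inter_subset_right Set.inter_subset_right
    · exact (hY.A_disj (Y'.wd d) (Y'.wd d') hc hw h1).mono Set.inter_subset_left Set.inter_subset_left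
  · intro d
    exact (Y.k2n_back_meas (Y'.wd d)) (hY'.S_meas d)
  · intro d x hx
    have h1 : Y.k2nBack (Y'.wd d) x ∈ Y'.S d := hx
    have h2 := (hY'.S_sub d h1).2
    have h3 := hY.S_sub (Y'.wd d) (Y.k2n_lift_S_sub a Y' hY' d hx)
    refine ⟨h3.1, ⟨h3.2.1, h2.1⟩, ?_⟩
    exact (Y.k2n_lift_I a Y' d x.2).mpr h2.2
  · intro d
    exact Y.k2n_lift_inv a Y' d (hY.inv _) (hY'.inv d)
  · intro d
    exact Y.k2n_lift_adm a Y' ha.ne' d (hY.adm _) (hY'.adm d)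

/-! ## L-252-NORM-L2 : chart bounds -/

/-- the new base point along an old trajectory, at an old time -/
theorem k2n_Y_coN' (c : Y.C) (l : P.Lam) (t : ℝ) :
    Y.zOf c t (kbY (P.co (Y.wd c) l) t) = kbY (Y.coN a c l) (Y.tauOf c t) := by
  rw [Y.k2n_Y_coN a c l (Y.tauOf c t), k2n_tOf_tauOf]

/-- **the chart bounds compose** -/
theorem k2n_lift_Geo (hP : P.WF) (hY : Y.WF) (ha : 0 < a) (hY' : Y'.WF) (K K' a' : ℝ) (hK : 1 ≤ K) (hK' : 1 ≤ K') (ha' : 0 < a')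
    (hG : Y.Geo K a) (hG' : Y'.Geo K' a') : (Y.lift a Y').Geo (K * K') (a * a') := by
  have hK0 : 0 < K := by linarith
  have hK0' : 0 < K' := by linarith
  have hKK : K' ≤ K * K' := by nlinarith
  refine ⟨?_, ?_, ?_, ?_, ?_, ?_⟩
  · intro d
    have h1 : kbMn ((Y.ch (Y'.wd d)).D * (Y'.ch d).D) ≤ kbMn (Y.ch (Y'.wd d)).D * kbMn (Y'.ch d).D := k2n_Mn_mul _ _
    have h2 := hG.size (Y'.wd d)
    have h3 := hG'.size d
    have h4 : 0 ≤ kbMn (Y'.ch d).D := by unfold kbMn; positivity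
    have h5 : 0 ≤ Y.q * K := mul_nonneg Y.k2n_q_pos.le hK0.le
    have h6 : (Y.lift a Y').q = Y.q * Y'.q := Y.k2n_lift_q a Y'
    calc kbMn ((Y.lift a Y').ch d).D ≤ kbMn (Y.ch (Y'.wd d)).D * kbMn (Y'.ch d).D := h1
      _ ≤ (Y.q * K) * (Y'.q * K') := mul_le_mul h2 h3 h4 h5
      _ = (Y.lift a Y').q * (K * K') := by rw [h6]; ring
  · intro d l hl t ht
    have h1 := Y.k2n_lift_box a Y' d (hY.inv _) t (kbY (P.co (Y.wd (Y'.wd d)) l) t)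
    have h2 := Y.k2n_Y_coN' a (Y'.wd d) l t
    have h3 := hG'.box d l hl.2 (Y.tauOf (Y'.wd d) t) ((Y.k2n_lift_I a Y' d t).mp ht)
    have h4 : ‖((Y.lift a Y').ch d).Di.mulVec (kbY (P.co (Y.wd (Y'.wd d)) l) t - ((Y.lift a Y').ch d).yc t)‖ ≤ K' := by
      rw [h1, h2]
      exact h3
    exact h4.trans hKK
  · intro d l hl t ht
    have h1 := Y.k2n_lift_X a Y' d (hY.adm _) l t
    have h3 := hG'.val d l hl.2 (Y.tauOf (Y'.wd d) t) ((Y.k2n_lift_I a Y' d t).mp ht)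
    have h4 : |kbX ((Y.lift a Y').ch d).T (P.co (Y.wd (Y'.wd d)) l) t| ≤ a * (K' * a') := by
      rw [h1, abs_mul, abs_of_pos ha]
      exact mul_le_mul_of_nonneg_left h3 ha.le
    refine h4.trans ?_
    have : K' * (a * a') ≤ K * K' * (a * a') := mul_le_mul_of_nonneg_right hKK (by positivity)
    nlinarith
  · intro d l hl t ht
    have h1 := Y.k2n_lift_Dw a Y' ha.ne' d (hY.adm _) (hY'.adm d) l t
    have h3 : |kbX (kbDw (Y'.ch d).T) (Y.coN a (Y'.wd d) l) (Y.tauOf (Y'.wd d) t)|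
        ≤ K' * (if v = KbVer.one then 1 else P.B (Y.wd (Y'.wd d)) / a) :=
      hG'.dw d l hl.2 (Y.tauOf (Y'.wd d) t) ((Y.k2n_lift_I a Y' d t).mp ht)
    have hB := hP.B_pos (Y.wd (Y'.wd d))
    have h4 : |kbX (kbDw ((Y.lift a Y').ch d).T) (P.co (Y.wd (Y'.wd d)) l) t| ≤ K' * P.B (Y.wd (Y'.wd d)) := by
      rw [h1, abs_mul]
      by_cases hv : v = KbVer.one
      · rw [if_pos hv] at h3 ⊢
        rw [(hP.v1 hv _).1]
        simpa using h3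
      · rw [if_neg hv] at h3 ⊢
        rw [abs_of_pos ha]
        calc a * |kbX (kbDw (Y'.ch d).T) (Y.coN a (Y'.wd d) l) (Y.tauOf (Y'.wd d) t)|
            ≤ a * (K' * (P.B (Y.wd (Y'.wd d)) / a)) := mul_le_mul_of_nonneg_left h3 ha.le
          _ = K' * P.B (Y.wd (Y'.wd d)) := by field_simp
    exact h4.trans (mul_le_mul_of_nonneg_right hKK hB.le)
  · intro d x hx
    have hx' : Y.k2nBack (Y'.wd d) x ∈ Y'.S d := hx
    have h1 := Y.k2n_lift_Dw a Y' ha.ne' d (hY.adm _) (hY'.adm d) x.1 x.2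
    have h3 : (if v = KbVer.one then 1 else P.B (Y.wd (Y'.wd d)) / a)
        ≤ K' * |kbX (kbDw (Y'.ch d).T) (Y.coN a (Y'.wd d) x.1) (Y.tauOf (Y'.wd d) x.2)| :=
      hG'.dw_low d _ hx'
    have hB := hP.B_pos (Y.wd (Y'.wd d))
    have h4 : P.B (Y.wd (Y'.wd d)) ≤ K' * |kbX (kbDw ((Y.lift a Y').ch d).T) (P.co (Y.wd (Y'.wd d)) x.1) x.2| := by
      rw [h1, abs_mul]
      by_cases hv : v = KbVer.one
      · rw [if_pos hv] at h3 ⊢
        rw [(hP.v1 hv _).1]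
        simpa using h3
      · rw [if_neg hv] at h3 ⊢
        rw [abs_of_pos ha]
        calc P.B (Y.wd (Y'.wd d)) = a * (P.B (Y.wd (Y'.wd d)) / a) := by field_simp
          _ ≤ a * (K' * |kbX (kbDw (Y'.ch d).T) (Y.coN a (Y'.wd d) x.1) (Y.tauOf (Y'.wd d) x.2)|) :=
              mul_le_mul_of_nonneg_left h3 ha.le
          _ = K' * (a * |kbX (kbDw (Y'.ch d).T) (Y.coN a (Y'.wd d) x.1) (Y.tauOf (Y'.wd d) x.2)|) := by ring
    exact h4.trans (mul_le_mul_of_nonneg_right hKK (abs_nonneg _))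
  · intro d t y w
    have h1 := Y.k2n_lift_Dww a Y' ha.ne' d (hY.adm _) (hY'.adm d) t y w
    have h3 : |kbDww (Y'.ch d).T (Y.tauOf (Y'.wd d) t) (Y.zOf (Y'.wd d) t y) (Y.wOf a (Y'.wd d) t y w)| * a'
        ≤ K' * (if v = KbVer.one then 1 else P.B (Y.wd (Y'.wd d)) / a) ^ 2 :=
      hG'.dww d _ _ _
    have hB := hP.B_pos (Y.wd (Y'.wd d))
    have h4 : |kbDww ((Y.lift a Y').ch d).T t y w| * (a * a') ≤ K' * P.B (Y.wd (Y'.wd d)) ^ 2 := by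
      rw [h1, abs_mul]
      by_cases hv : v = KbVer.one
      · rw [if_pos hv]
        simp only [abs_zero, zero_mul]
        positivity
      · rw [if_neg hv] at h3 ⊢
        rw [abs_of_pos ha]
        calc a * |kbDww (Y'.ch d).T (Y.tauOf (Y'.wd d) t) (Y.zOf (Y'.wd d) t y) (Y.wOf a (Y'.wd d) t y w)| * (a * a')
            = a ^ 2 * (|kbDww (Y'.ch d).T (Y.tauOf (Y'.wd d) t) (Y.zOf (Y'.wd d) t y) (Y.wOf a (Y'.wd d) t y w)| * a') := by ring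
          _ ≤ a ^ 2 * (K' * (P.B (Y.wd (Y'.wd d)) / a) ^ 2) := mul_le_mul_of_nonneg_left h3 (by positivity)
          _ = K' * P.B (Y.wd (Y'.wd d)) ^ 2 := by field_simp
    exact h4.trans (mul_le_mul_of_nonneg_right hKK (by positivity))

/-! ## L-252-NORM-L3 : masses, floors -/

theorem k2n_J_nonneg (ch : KbChart v) : 0 ≤ ch.J := abs_nonneg _

theorem k2n_lift_Big (hP : P.WF) (hY : Y.WF) (hY' : Y'.WF) (K K' : ℝ) (hK : 1 ≤ K) (hK' : 1 ≤ K')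
    (hB : Y.Big K) (hB' : Y'.Big K') : (Y.lift a Y').Big (K * K') := by
  unfold Big at hB hB' ⊢
  have h1 : 1 ≤ ENNReal.ofReal K * Y.Z := hB.trans (by gcongr; exact Y.k2n_mass_le_Z hP hY)
  have hZ : Y.Z ≠ 0 := by
    intro h0
    rw [h0, mul_zero] at h1
    exact absurd h1 (by simp)
  rw [Y.k2n_lift_mass a Y' hP hY hY' hZ, ENNReal.ofReal_mul (by linarith)]
  calc (1 : ℝ≥0∞) = 1 * 1 := (one_mul 1).symm
    _ ≤ (ENNReal.ofReal K * Y.Z) * (ENNReal.ofReal K' * Y'.mass) := mul_le_mul' h1 hB'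
    _ = ENNReal.ofReal K * ENNReal.ofReal K' * (Y.Z * Y'.mass) := by ring

/-- **true floors lift** as soon as `n J_c / ν_c ≤ K₁ n'` (lower bound for the new density; an upper bound alone would not suffice, 02 l.816-818) -/
theorem k2n_lift_Tru (hP : P.WF) (hY : Y.WF) (hY' : Y'.WF) (K₁ K' n n' : ℝ) (hK₁ : 1 ≤ K₁) (hK' : 1 ≤ K')
    (hn : 0 ≤ n) (hn' : 0 ≤ n') (h : ∀ c, ENNReal.ofReal (n * (Y.ch c).J) ≤ ENNReal.ofReal (K₁ * n') * Y.nuC c) (hT : Y'.Tru K' n') :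
    (Y.lift a Y').Tru (K₁ * K') n := by
  intro d
  have hJ := k2n_J_nonneg (Y.ch (Y'.wd d))
  have hJ' := k2n_J_nonneg (Y'.ch d)
  have hq := Y.k2n_q_pos
  have hq' := Y'.k2n_q_pos
  have h1 := h (Y'.wd d)
  have h2 := hT d
  rw [Y.k2n_lift_mC a Y' hP hY hY' d, Y.k2n_lift_J a Y' d, Y.k2n_lift_q a Y']
  have e1 : n * ((Y.ch (Y'.wd d)).J * (Y'.ch d).J) * (Y.q * Y'.q) = (n * (Y.ch (Y'.wd d)).J) * ((Y'.ch d).J * Y'.q) * Y.q := by ring
  rw [e1, ENNReal.ofReal_mul (by positivity), ENNReal.ofReal_mul (by positivity), ENNReal.ofReal_mul (p := K₁) (by linarith)]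
  rw [ENNReal.ofReal_mul (p := K₁) (by linarith)] at h1
  have e2 : n' * (Y'.ch d).J * Y'.q = n' * ((Y'.ch d).J * Y'.q) := by ring
  rw [e2, ENNReal.ofReal_mul hn'] at h2
  calc ENNReal.ofReal (n * (Y.ch (Y'.wd d)).J) * ENNReal.ofReal ((Y'.ch d).J * Y'.q) * ENNReal.ofReal Y.q
      ≤ (ENNReal.ofReal K₁ * ENNReal.ofReal n' * Y.nuC (Y'.wd d)) * ENNReal.ofReal ((Y'.ch d).J * Y'.q) * ENNReal.ofReal Y.q := by
        gcongr
    _ = ENNReal.ofReal K₁ * Y.nuC (Y'.wd d) * ENNReal.ofReal Y.q * (ENNReal.ofReal n' * ENNReal.ofReal ((Y'.ch d).J * Y'.q)) := by ring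
    _ ≤ ENNReal.ofReal K₁ * Y.nuC (Y'.wd d) * ENNReal.ofReal Y.q * (ENNReal.ofReal K' * Y'.mC d) := by gcongr
    _ = ENNReal.ofReal K₁ * ENNReal.ofReal K' * (ENNReal.ofReal Y.q * Y.nuC (Y'.wd d) * Y'.mC d) := by ring

/-- saturation lifts if `n J_c / ν_c ∼ n'` -/
theorem k2n_lift_Sat (hP : P.WF) (hY : Y.WF) (hY' : Y'.WF) (K₁ K' n n' : ℝ) (hK₁ : 1 ≤ K₁) (hK' : 1 ≤ K')
    (hn : 0 ≤ n) (hn' : 0 ≤ n') (h : ∀ c, ENNReal.ofReal (n * (Y.ch c).J) ≤ ENNReal.ofReal (K₁ * n') * Y.nuC c)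
    (h' : ∀ c, ENNReal.ofReal n' * Y.nuC c ≤ ENNReal.ofReal (K₁ * n * (Y.ch c).J)) (hS : Y'.Sat K' n') :
    (Y.lift a Y').Sat (K₁ * K') n := by
  intro d
  have hJ := k2n_J_nonneg (Y.ch (Y'.wd d))
  have hJ' := k2n_J_nonneg (Y'.ch d)
  have hq := Y.k2n_q_pos
  have hq' := Y'.k2n_q_pos
  have h1 := h (Y'.wd d)
  have h1' := h' (Y'.wd d)
  obtain ⟨s1, s2, s3⟩ := hS d
  have hK1 : (1 : ℝ≥0∞) ≤ ENNReal.ofReal K₁ := by
    rw [← ENNReal.ofReal_one]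
    exact ENNReal.ofReal_le_ofReal hK₁
  rw [Y.k2n_lift_mC a Y' hP hY hY' d, Y.k2n_lift_J a Y' d, Y.k2n_lift_q a Y', Y.k2n_lift_nuC a Y' hP hY d]
  refine ⟨?_, ?_, ?_⟩
  · rw [ENNReal.ofReal_mul hq.le, ENNReal.ofReal_mul (p := K₁) (by linarith)]
    calc ENNReal.ofReal Y.q * ENNReal.ofReal Y'.q * (Y.nuC (Y'.wd d) * Y'.nuC d)
        = 1 * (ENNReal.ofReal Y.q * Y.nuC (Y'.wd d) * (ENNReal.ofReal Y'.q * Y'.nuC d)) := by ring
      _ ≤ ENNReal.ofReal K₁ * (ENNReal.ofReal Y.q * Y.nuC (Y'.wd d) * (ENNReal.ofReal K' * Y'.mC d)) := by gcongr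
      _ = ENNReal.ofReal K₁ * ENNReal.ofReal K' * (ENNReal.ofReal Y.q * Y.nuC (Y'.wd d) * Y'.mC d) := by ring
  · have e1 : K' * n' * (Y'.ch d).J = n' * (K' * (Y'.ch d).J) := by ring
    rw [e1, ENNReal.ofReal_mul hn'] at s2
    have e2 : K₁ * K' * n * ((Y.ch (Y'.wd d)).J * (Y'.ch d).J) = (K₁ * n * (Y.ch (Y'.wd d)).J) * (K' * (Y'.ch d).J) := by ring
    rw [e2, ENNReal.ofReal_mul (by positivity)]
    calc Y.nuC (Y'.wd d) * Y'.nuC d ≤ Y.nuC (Y'.wd d) * (ENNReal.ofReal n' * ENNReal.ofReal (K' * (Y'.ch d).J)) := by gcongr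
      _ = (ENNReal.ofReal n' * Y.nuC (Y'.wd d)) * ENNReal.ofReal (K' * (Y'.ch d).J) := by ring
      _ ≤ ENNReal.ofReal (K₁ * n * (Y.ch (Y'.wd d)).J) * ENNReal.ofReal (K' * (Y'.ch d).J) := by gcongr
  · have e1 : n * ((Y.ch (Y'.wd d)).J * (Y'.ch d).J) = (n * (Y.ch (Y'.wd d)).J) * (Y'.ch d).J := by ring
    rw [e1, ENNReal.ofReal_mul (by positivity), ENNReal.ofReal_mul (p := K₁) (by linarith)]
    rw [ENNReal.ofReal_mul (p := K₁) (by linarith)] at h1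
    rw [ENNReal.ofReal_mul hn'] at s3
    calc ENNReal.ofReal (n * (Y.ch (Y'.wd d)).J) * ENNReal.ofReal (Y'.ch d).J
        ≤ (ENNReal.ofReal K₁ * ENNReal.ofReal n' * Y.nuC (Y'.wd d)) * ENNReal.ofReal (Y'.ch d).J := by gcongr
      _ = ENNReal.ofReal K₁ * Y.nuC (Y'.wd d) * (ENNReal.ofReal n' * ENNReal.ofReal (Y'.ch d).J) := by ring
      _ ≤ ENNReal.ofReal K₁ * Y.nuC (Y'.wd d) * (ENNReal.ofReal K' * Y'.nuC d) := by gcongr
      _ = ENNReal.ofReal K₁ * ENNReal.ofReal K' * (Y.nuC (Y'.wd d) * Y'.nuC d) := by ring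

/-! ## L-252-NORM-L4 : polynomial bounds -/

theorem k2n_lift_Tmp (hY : Y.WF) (K Q Q' : ℝ) (hK : 1 ≤ K) (hQ : 1 ≤ Q) (hQ' : 1 ≤ Q') (hG : Y.Geo K a) (hT : Y.Tmp Q) (hT' : Y'.Tmp Q') :
    (Y.lift a Y').Tmp (4 * K * Q ^ 2 * Q') := by
  have hK0 : 0 < K := by linarith
  have hQ0 : 0 < Q := by linarith
  have hQ0' : 0 < Q' := by linarith
  have hq := Y.k2n_q_pos
  have hq' := Y'.k2n_q_pos
  have hKQ : 1 ≤ K * Q := by nlinarith
  have hbig : Q * Q' ≤ 4 * K * Q ^ 2 * Q' := by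
    have : Q * Q' * 1 ≤ Q * Q' * (4 * (K * Q)) := mul_le_mul_of_nonneg_left (by linarith) (by positivity)
    nlinarith
  have hbig' : Q' ≤ 4 * K * Q ^ 2 * Q' := by
    have : 1 * Q' ≤ Q * Q' := mul_le_mul_of_nonneg_right hQ hQ0'.le
    linarith
  refine ⟨?_, ?_, ?_, ?_⟩
  · exact le_trans hT'.card hbig'
  · rw [Y.k2n_lift_q a Y']
    have h1 := hT.q_low
    have h2 := hT'.q_low
    have h3 : 1 ≤ (Q * Y.q) * (Q' * Y'.q) := by nlinarith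
    have h4 : (Q * Q') * (Y.q * Y'.q) ≤ (4 * K * Q ^ 2 * Q') * (Y.q * Y'.q) :=
      mul_le_mul_of_nonneg_right hbig (by positivity)
    nlinarith
  · intro d
    rw [Y.k2n_lift_J a Y' d]
    have hJ := k2n_J_nonneg (Y.ch (Y'.wd d))
    have hJ' := k2n_J_nonneg (Y'.ch d)
    have h1 := hT.J_low (Y'.wd d)
    have h2 := hT'.J_low d
    have h3 : 1 ≤ (Q * (Y.ch (Y'.wd d)).J) * (Q' * (Y'.ch d).J) := by nlinarith
    have h4 : (Q * Q') * ((Y.ch (Y'.wd d)).J * (Y'.ch d).J) ≤ (4 * K * Q ^ 2 * Q') * ((Y.ch (Y'.wd d)).J * (Y'.ch d).J) :=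
      mul_le_mul_of_nonneg_right hbig (by positivity)
    nlinarith
  · intro d
    have hc := hT.cen (Y'.wd d)
    have hc' := hT'.cen d
    have hs := hG.size (Y'.wd d)
    have hn0 := norm_nonneg (Y'.ch d).y0
    have hn1 := norm_nonneg (Y'.ch d).y1
    have hiv : (Y.iv (Y'.wd d) : ℝ) * Y.q ≤ 1 := by
      have h1 : ((Y.iv (Y'.wd d) : ℕ) : ℝ) ≤ 2 ^ Y.n := by exact_mod_cast (hY.iv_lt (Y'.wd d)).le
      have h2 : Y.q * 2 ^ Y.n = 1 := k2n_kbQ_mul_two_pow _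
      calc (Y.iv (Y'.wd d) : ℝ) * Y.q ≤ 2 ^ Y.n * Y.q := mul_le_mul_of_nonneg_right h1 hq.le
        _ = 1 := by rw [mul_comm]; exact h2
    have htc : Y.tc (Y'.wd d) / Y.q = (Y.iv (Y'.wd d) : ℝ) := by
      have : Y.tc (Y'.wd d) = (Y.iv (Y'.wd d) : ℝ) * Y.q := rfl
      rw [this]
      field_simp
    have hA : ‖(Y.ch (Y'.wd d)).D.mulVec ((Y'.ch d).y0 - (Y.tc (Y'.wd d) / Y.q) • (Y'.ch d).y1)‖ ≤ K * Q' := by
      refine (k2n_mulVec_le _ _).trans ?_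
      have h1 : ‖(Y'.ch d).y0 - (Y.tc (Y'.wd d) / Y.q) • (Y'.ch d).y1‖ ≤ ‖(Y'.ch d).y0‖ + (Y.iv (Y'.wd d) : ℝ) * ‖(Y'.ch d).y1‖ := by
        refine (norm_sub_le _ _).trans ?_
        rw [htc, norm_smul, Real.norm_eq_abs, abs_of_nonneg (Nat.cast_nonneg _)]
      have h2 : 0 ≤ ‖(Y'.ch d).y0‖ + (Y.iv (Y'.wd d) : ℝ) * ‖(Y'.ch d).y1‖ := by positivity
      calc kbMn (Y.ch (Y'.wd d)).D * ‖(Y'.ch d).y0 - (Y.tc (Y'.wd d) / Y.q) • (Y'.ch d).y1‖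
          ≤ (Y.q * K) * (‖(Y'.ch d).y0‖ + (Y.iv (Y'.wd d) : ℝ) * ‖(Y'.ch d).y1‖) :=
            mul_le_mul hs h1 (norm_nonneg _) (by positivity)
        _ = K * (Y.q * ‖(Y'.ch d).y0‖ + ((Y.iv (Y'.wd d) : ℝ) * Y.q) * ‖(Y'.ch d).y1‖) := by ring
        _ ≤ K * (1 * ‖(Y'.ch d).y0‖ + 1 * ‖(Y'.ch d).y1‖) := by
            have hq1 : Y.q ≤ 1 := k2n_kbQ_le_one _
            gcongr
        _ ≤ K * Q' := by
            rw [one_mul, one_mul]
            exact mul_le_mul_of_nonneg_left hc' hK0.le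
    have hB : ‖(1 / Y.q) • (Y.ch (Y'.wd d)).D.mulVec (Y'.ch d).y1‖ ≤ K * Q' := by
      rw [norm_smul, Real.norm_eq_abs, abs_of_pos (by positivity)]
      calc 1 / Y.q * ‖(Y.ch (Y'.wd d)).D.mulVec (Y'.ch d).y1‖
          ≤ 1 / Y.q * ((Y.q * K) * ‖(Y'.ch d).y1‖) := by
            refine mul_le_mul_of_nonneg_left ?_ (by positivity)
            exact (k2n_mulVec_le _ _).trans (mul_le_mul_of_nonneg_right hs hn1)
        _ = K * ‖(Y'.ch d).y1‖ := by field_simp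
        _ ≤ K * Q' := mul_le_mul_of_nonneg_left (by linarith) hK0.le
    have h0 : ‖((Y.lift a Y').ch d).y0‖ ≤ ‖(Y.ch (Y'.wd d)).y0‖ + K * Q' := (norm_add_le _ _).trans (by gcongr)
    have h1 : ‖((Y.lift a Y').ch d).y1‖ ≤ ‖(Y.ch (Y'.wd d)).y1‖ + K * Q' := (norm_add_le _ _).trans (by gcongr)
    have h5 : Q + 2 * (K * Q') ≤ 4 * K * Q ^ 2 * Q' := by
      have e1 : Q ≤ K * Q ^ 2 * Q' := by
        have : 1 ≤ K * Q * Q' := by nlinarith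
        nlinarith
      have e2 : K * Q' ≤ K * Q ^ 2 * Q' := by
        have : 1 ≤ Q ^ 2 := by nlinarith
        have h7 : K * Q' * 1 ≤ K * Q' * Q ^ 2 := mul_le_mul_of_nonneg_left this (by positivity)
        nlinarith
      nlinarith
    linarith

end KbSys

end

end Claimed.Agent.R252
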