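import Claimed.Agent.R252.Norm.Mass
import Claimed.Agent.R252.Norm.Den

/-!
# ROW 252 (S0492), unit NORM (post BP-252-S2aC, sub-architect helper22), file 5: `Y.norm a` IS A WEIGHTED PROBLEM  (02-framework.tex l.696-745).
CONTRACT file: every `sorry` is a leaf `L-252-NORM-W*`.  ONE scale, explicit slacks.  Prefix `k2n_`.
-/

set_option autoImplicit false

namespace Claimed.Agent.R252

open MeasureTheory
open scoped ENNReal BigOperators

noncomputable section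

variable {v : KbVer}

/-! ## tools of L-252-NORM-W1 (helper270) -/

theorem k2n_W_one (p : KbTj KbVer.one) (t : ℝ) :
    kbW p t = p.2.2 (0 : Fin 3) + p.2.2 (1 : Fin 3) * t + p.2.2 (2 : Fin 3) * t ^ 2 := by
  show ∑ i : Fin 3, p.2.2 i * t ^ (i : ℕ) = _
  simp [Fin.sum_univ_succ]
  ring

theorem k2n_W_two (p : KbTj KbVer.two) (t : ℝ) : kbW p t = p.2.2 (0 : Fin 2) + p.2.2 (1 : Fin 2) * t := by
  show ∑ i : Fin 2, p.2.2 i * t ^ (i : ℕ) = _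
  simp [Fin.sum_univ_succ]

/-- the first two components, any version -/
theorem k2n_Phi_fst {m : ℕ} (Di : Matrix (Fin m) (Fin m) ℝ) (x y b : Fin m → ℝ) (t : ℝ) :
    Di.mulVec (x + t • y - b) = Di.mulVec (x - 0) + Di.mulVec (t • y - b) := by
  rw [← Matrix.mulVec_add]
  congr 1
  simp only [sub_zero]
  abel

theorem k2n_Phi_snd {m : ℕ} (Di : Matrix (Fin m) (Fin m) ℝ) (y b : Fin m → ℝ) (q : ℝ) :
    q • Di.mulVec (y - b) = (q • Di).mulVec (y - b) := by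
  rw [Matrix.smul_mulVec]

theorem k2n_det_Di {m : ℕ} {D Di : Matrix (Fin m) (Fin m) ℝ} (h : D * Di = 1) : Di.det ≠ 0 ∧ |Di.det|⁻¹ = |D.det| := by
  have h1 : D.det * Di.det = 1 := by rw [← Matrix.det_mul, h, Matrix.det_one]
  have h2 : Di.det ≠ 0 := fun h0 => by rw [h0, mul_zero] at h1; exact zero_ne_one h1
  refine ⟨h2, ?_⟩
  have h3 : |D.det| * |Di.det| = 1 := by rw [← abs_mul, h1, abs_one]
  have h4 : |Di.det| ≠ 0 := abs_ne_zero.2 h2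
  field_simp
  linarith

theorem k2n_det_qDi {m : ℕ} {D Di : Matrix (Fin m) (Fin m) ℝ} (h : D * Di = 1) {q : ℝ} (hq : 0 < q) :
    (q • Di).det ≠ 0 ∧ |(q • Di).det|⁻¹ = |D.det| / q ^ m := by
  obtain ⟨h1, h2⟩ := k2n_det_Di h
  have h3 : (q • Di).det = q ^ m * Di.det := by rw [Matrix.det_smul, Fintype.card_fin]
  refine ⟨by rw [h3]; exact mul_ne_zero (pow_pos hq m).ne' h1, ?_⟩
  rw [h3, abs_mul, mul_inv, h2, abs_of_pos (pow_pos hq m)]
  field_simp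

/-- generic form of the statement: two affine maps of `ℝ^m`, one linear map of `ℝ^e` and a shift -/
theorem k2n_Phi_gen {m e : ℕ} {D Di : Matrix (Fin m) (Fin m) ℝ} (h : D * Di = 1) {q : ℝ} (hq : 0 < q) (t : ℝ) (b b' : Fin m → ℝ)
    (M : Matrix (Fin e) (Fin e) ℝ) (hM : M.det ≠ 0) (s₂ : (Fin m → ℝ) × (Fin m → ℝ) → Fin e → ℝ) (hs₂ : Measurable s₂) :
    (volume : Measure ((Fin m → ℝ) × (Fin m → ℝ) × (Fin e → ℝ))).map
      (fun p => (Di.mulVec (p.1 - 0) + Di.mulVec (t • p.2.1 - b), (q • Di).mulVec (p.2.1 - b'), M.mulVec (p.2.2 - 0) + s₂ (p.1, p.2.1))) =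
      ENNReal.ofReal (|D.det| ^ 2 / q ^ m * |M.det|⁻¹) • volume := by
  obtain ⟨h1, h2⟩ := k2n_det_Di h
  obtain ⟨h3, h4⟩ := k2n_det_qDi h hq
  have hs₁ : Measurable fun y : Fin m → ℝ => Di.mulVec (t • y - b) := by
    have : Continuous fun y : Fin m → ℝ => Di.mulVec (t • y - b) :=
      (Continuous.matrix_mulVec continuous_const (by fun_prop))
    exact this.measurable
  have key := k2n_skew_map3 (volume : Measure (Fin m → ℝ)) (volume : Measure (Fin e → ℝ))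
    (fun x => Di.mulVec (x - 0)) (fun y => (q • Di).mulVec (y - b')) (fun y => Di.mulVec (t • y - b)) (fun w => M.mulVec (w - 0)) s₂
    (k2n_aff_meas _ _) (k2n_aff_meas _ _) hs₁ (k2n_aff_meas _ _) hs₂ _ _ _
    (k2n_aff_map Di h1 0) (k2n_aff_map (q • Di) h3 b') (k2n_aff_map M hM 0)
  rw [Measure.volume_eq_prod, Measure.volume_eq_prod]
  rw [key]
  congr 1
  rw [h2, h4, ← ENNReal.ofReal_mul (abs_nonneg _), ← ENNReal.ofReal_mul (by positivity)]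
  congr 1
  ring


/-- the matrix of the `w`-coefficients, version 1 -/
def k2nM1 (a tc q : ℝ) : Matrix (Fin KbVer.one.e) (Fin KbVer.one.e) ℝ :=
  (!![1 / a, tc / a, tc ^ 2 / a; 0, q / a, 2 * tc * q / a; 0, 0, q ^ 2 / a] : Matrix (Fin 3) (Fin 3) ℝ)

/-- the matrix of the `w`-coefficients, version 2 -/
def k2nM2 (tc q : ℝ) : Matrix (Fin KbVer.two.e) (Fin KbVer.two.e) ℝ :=
  (!![1, tc; 0, q] : Matrix (Fin 2) (Fin 2) ℝ)

theorem k2n_M1_det (a tc q : ℝ) : (k2nM1 a tc q).det = q ^ 3 / a ^ 3 := by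
  show (Matrix.det (!![1 / a, tc / a, tc ^ 2 / a; 0, q / a, 2 * tc * q / a; 0, 0, q ^ 2 / a] : Matrix (Fin 3) (Fin 3) ℝ)) = _
  rw [Matrix.det_fin_three]
  simp
  ring

theorem k2n_M2_det (tc q : ℝ) : (k2nM2 tc q).det = q := by
  show (Matrix.det (!![1, tc; 0, q] : Matrix (Fin 2) (Fin 2) ℝ)) = _
  rw [Matrix.det_fin_two]
  simp

theorem k2n_fit_add_one (g₁ g₂ : ℝ → ℝ) : kbFit KbVer.one (fun τ => g₁ τ + g₂ τ) = kbFit KbVer.one g₁ + kbFit KbVer.one g₂ := by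
  funext i
  have hi : ∀ j : Fin 3, j = 0 ∨ j = 1 ∨ j = 2 := by decide
  rcases hi i with rfl | rfl | rfl
  · show (g₁ 0 + g₂ 0) = g₁ 0 + g₂ 0
    rfl
  · show (-3 * (g₁ 0 + g₂ 0) + 4 * (g₁ (1 / 2) + g₂ (1 / 2)) - (g₁ 1 + g₂ 1)) =
      (-3 * g₁ 0 + 4 * g₁ (1 / 2) - g₁ 1) + (-3 * g₂ 0 + 4 * g₂ (1 / 2) - g₂ 1)
    ring
  · show (2 * (g₁ 0 + g₂ 0) - 4 * (g₁ (1 / 2) + g₂ (1 / 2)) + 2 * (g₁ 1 + g₂ 1)) =
      (2 * g₁ 0 - 4 * g₁ (1 / 2) + 2 * g₁ 1) + (2 * g₂ 0 - 4 * g₂ (1 / 2) + 2 * g₂ 1)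
    ring

theorem k2n_fit_M1 (w : Fin KbVer.one.e → ℝ) (a tc q : ℝ) :
    kbFit KbVer.one (fun τ => (w (0 : Fin 3) + w (1 : Fin 3) * (tc + q * τ) + w (2 : Fin 3) * (tc + q * τ) ^ 2) / a) =
      (k2nM1 a tc q).mulVec (w - 0) := by
  funext i
  have hi : ∀ j : Fin 3, j = 0 ∨ j = 1 ∨ j = 2 := by decide
  have hm : ∀ j : Fin 3, (k2nM1 a tc q).mulVec (w - 0) j =
      ∑ k : Fin 3, (!![1 / a, tc / a, tc ^ 2 / a; 0, q / a, 2 * tc * q / a; 0, 0, q ^ 2 / a] : Matrix (Fin 3) (Fin 3) ℝ) j k * w k := by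
    intro j
    rw [sub_zero]
    rfl
  rcases hi i with rfl | rfl | rfl
  · rw [hm]
    simp [kbFit, Fin.sum_univ_succ]
    ring
  · rw [hm]
    simp [kbFit, Fin.sum_univ_succ]
    ring
  · rw [hm]
    simp [kbFit, Fin.sum_univ_succ]
    ring

theorem k2n_fit_M2 (w : Fin KbVer.two.e → ℝ) (tc q : ℝ) :
    kbFit KbVer.two (fun τ => w (0 : Fin 2) + w (1 : Fin 2) * (tc + q * τ)) = (k2nM2 tc q).mulVec (w - 0) + 0 := by
  funext i
  have hi : ∀ j : Fin 2, j = 0 ∨ j = 1 := by decide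
  have hm : ∀ j : Fin 2, ((k2nM2 tc q).mulVec (w - 0) + 0) j = ∑ k : Fin 2, (!![1, tc; 0, q] : Matrix (Fin 2) (Fin 2) ℝ) j k * w k := by
    intro j
    rw [sub_zero, add_zero]
    rfl
  rcases hi i with rfl | rfl
  · rw [hm]
    simp [kbFit, Fin.sum_univ_succ]
    ring
  · rw [hm]
    simp [kbFit, Fin.sum_univ_succ]
    ring

theorem k2n_fit_meas {X : Type} [MeasurableSpace X] (g : X → ℝ → ℝ) (hg : ∀ τ, Measurable fun x => g x τ) :
    Measurable fun x => kbFit v (g x) := by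
  rw [measurable_pi_iff]
  intro i
  cases v with
  | one =>
    have hi : ∀ j : Fin 3, j = 0 ∨ j = 1 ∨ j = 2 := by decide
    rcases hi i with rfl | rfl | rfl
    · exact hg 0
    · exact (((hg 0).const_mul (-3)).add ((hg (1 / 2)).const_mul 4)).sub (hg 1)
    · exact (((hg 0).const_mul 2).sub ((hg (1 / 2)).const_mul 4)).add ((hg 1).const_mul 2)
  | two =>
    have hi : ∀ j : Fin 2, j = 0 ∨ j = 1 := by decide
    rcases hi i with rfl | rfl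
    · exact hg 0
    · exact (hg 1).sub (hg 0)

theorem k2n_W_two_le (p : KbTj KbVer.two) (t : ℝ) (ht : t ∈ Set.Icc (0 : ℝ) 1) : |kbW p t| ≤ 2 * ‖p‖ := by
  rw [k2n_W_two]
  have h0 : |p.2.2 (0 : Fin 2)| ≤ ‖p‖ :=
    ((norm_le_pi_norm p.2.2 (0 : Fin 2)).trans (norm_snd_le p.2)).trans (norm_snd_le p)
  have h1 : |p.2.2 (1 : Fin 2)| ≤ ‖p‖ :=
    ((norm_le_pi_norm p.2.2 (1 : Fin 2)).trans (norm_snd_le p.2)).trans (norm_snd_le p)
  refine (abs_add_le _ _).trans ?_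
  rw [abs_mul, abs_of_nonneg ht.1]
  have h2 : |p.2.2 (1 : Fin 2)| * t ≤ ‖p‖ * 1 := mul_le_mul h1 ht.2 ht.1 (norm_nonneg _)
  linarith

namespace KbSys

variable {P : KbPb v} (Y : KbSys P)

/-- the coordinate change on coefficient space: `Y.coN a c l = Y.k2nPhi a c (P.co γ l)` -/
def k2nPhi (a : ℝ) (c : Y.C) (p : KbTj v) : KbTj v :=
  (Y.zOf c (Y.tc c) (kbY p (Y.tc c)),
   Y.q • (Y.ch c).Di.mulVec (kbV p - (Y.ch c).y1),
   kbFit v fun τ => Y.wOf a c (Y.tOf c τ) (kbY p (Y.tOf c τ)) (kbW p (Y.tOf c τ)))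

theorem k2n_coN_eq (a : ℝ) (c : Y.C) (l : P.Lam) : Y.coN a c l = Y.k2nPhi a c (P.co (Y.wd c) l) := rfl

/-- the constant Jacobian factor of `k2nPhi⁻¹` -/
def k2nJac (a : ℝ) (c : Y.C) : ℝ :=
  if v = KbVer.one then (Y.ch c).J ^ 2 * a ^ 3 / Y.q ^ 4 else (Y.ch c).J ^ 2 / Y.q ^ 3

/-! ## L-252-NORM-W1 : the coordinate change has constant Jacobian (02 l.737-741) -/

/-- the shape of `k2nPhi` once the third component is known -/
theorem k2n_Phi_form (a : ℝ) (c : Y.C) (M : Matrix (Fin v.e) (Fin v.e) ℝ) (s₂ : KbB v × KbB v → Fin v.e → ℝ)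
    (h3 : ∀ p : KbTj v, kbFit v (fun τ => Y.wOf a c (Y.tOf c τ) (kbY p (Y.tOf c τ)) (kbW p (Y.tOf c τ))) = M.mulVec (p.2.2 - 0) + s₂ (p.1, p.2.1)) :
    Y.k2nPhi a c = fun p : KbTj v =>
      ((Y.ch c).Di.mulVec (p.1 - 0) + (Y.ch c).Di.mulVec (Y.tc c • p.2.1 - (Y.ch c).yc (Y.tc c)),
       (Y.q • (Y.ch c).Di).mulVec (p.2.1 - (Y.ch c).y1), M.mulVec (p.2.2 - 0) + s₂ (p.1, p.2.1)) := by
  funext p
  refine Prod.ext ?_ (Prod.ext ?_ ?_)
  · exact k2n_Phi_fst _ _ _ _ _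
  · exact k2n_Phi_snd _ _ _ _
  · exact h3 p

theorem k2n_Phi_map_of (a : ℝ) (c : Y.C) (hinv : (Y.ch c).D * (Y.ch c).Di = 1) (M : Matrix (Fin v.e) (Fin v.e) ℝ) (hM : M.det ≠ 0)
    (s₂ : KbB v × KbB v → Fin v.e → ℝ) (hs₂ : Measurable s₂)
    (h3 : ∀ p : KbTj v, kbFit v (fun τ => Y.wOf a c (Y.tOf c τ) (kbY p (Y.tOf c τ)) (kbW p (Y.tOf c τ))) = M.mulVec (p.2.2 - 0) + s₂ (p.1, p.2.1)) :
    (volume : Measure (KbTj v)).map (Y.k2nPhi a c) = ENNReal.ofReal ((Y.ch c).J ^ 2 / Y.q ^ v.j * |M.det|⁻¹) • volume := by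
  rw [Y.k2n_Phi_form a c M s₂ h3]
  exact k2n_Phi_gen hinv Y.k2n_q_pos (Y.tc c) ((Y.ch c).yc (Y.tc c)) (Y.ch c).y1 M hM s₂ hs₂

theorem k2n_YW_cont (t : ℝ) : Continuous fun p : KbTj v => ((t, kbY p t, kbW p t) : ℝ × KbB v × ℝ) := by
  unfold kbY kbW
  fun_prop

theorem k2n_Phi_meas (a : ℝ) (c : Y.C) (hadm : KbAdm (Y.ch c).T) : Measurable (Y.k2nPhi a c) := by
  unfold k2nPhi
  refine Measurable.prodMk ?_ (Measurable.prodMk ?_ ?_)
  · have : Continuous fun p : KbTj v => Y.zOf c (Y.tc c) (kbY p (Y.tc c)) := by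
      unfold zOf kbY
      exact Continuous.matrix_mulVec continuous_const (by fun_prop)
    exact this.measurable
  · have : Continuous fun p : KbTj v => Y.q • (Y.ch c).Di.mulVec (kbV p - (Y.ch c).y1) := by
      unfold kbV
      have h1 : Continuous fun p : KbTj v => p.2.1 - (Y.ch c).y1 := by fun_prop
      have h2 : Continuous fun p : KbTj v => (Y.ch c).Di.mulVec (p.2.1 - (Y.ch c).y1) :=
        Continuous.matrix_mulVec continuous_const h1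
      exact h2.const_smul Y.q
    exact this.measurable
  · apply k2n_fit_meas
    intro τ
    unfold wOf
    split_ifs with hv
    · exact (((k2n_quad_cont hadm.1).comp (k2n_YW_cont (Y.tOf c τ))).div_const a).measurable
    · have : Continuous fun p : KbTj v => kbW p (Y.tOf c τ) := by
        unfold kbW
        fun_prop
      exact this.measurable


theorem k2n_Phi_map_one {P : KbPb KbVer.one} (Y : KbSys P) (a : ℝ) (ha : 0 < a) (c : Y.C) (hadm : KbAdm (Y.ch c).T)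
    (hinv : (Y.ch c).D * (Y.ch c).Di = 1) :
    (volume : Measure (KbTj KbVer.one)).map (Y.k2nPhi a c) = ENNReal.ofReal (Y.k2nJac a c) • volume := by
  have hq := Y.k2n_q_pos
  have hw := hadm.2 rfl
  have hdet := k2n_M1_det a (Y.tc c) Y.q
  have hs₂ : Measurable fun x : KbB KbVer.one × KbB KbVer.one =>
      kbFit KbVer.one (fun τ => (Y.ch c).T (Y.tOf c τ) (x.1 + Y.tOf c τ • x.2) 0 / a) := by
    apply k2n_fit_meas
    intro τ
    have h1 : Continuous fun x : KbB KbVer.one × KbB KbVer.one =>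
        ((Y.tOf c τ, x.1 + Y.tOf c τ • x.2, 0) : ℝ × KbB KbVer.one × ℝ) := by fun_prop
    exact (((k2n_quad_cont hadm.1).comp h1).div_const a).measurable
  have key := Y.k2n_Phi_map_of a c hinv (k2nM1 a (Y.tc c) Y.q) (by rw [hdet]; positivity) _ hs₂ (by
    intro p
    have e1 : ∀ τ, Y.wOf a c (Y.tOf c τ) (kbY p (Y.tOf c τ)) (kbW p (Y.tOf c τ)) =
        (p.2.2 (0 : Fin 3) + p.2.2 (1 : Fin 3) * (Y.tc c + Y.q * τ) + p.2.2 (2 : Fin 3) * (Y.tc c + Y.q * τ) ^ 2) / a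
          + (Y.ch c).T (Y.tOf c τ) (p.1 + Y.tOf c τ • p.2.1) 0 / a := by
      intro τ
      unfold KbSys.wOf
      rw [if_pos rfl, hw, k2n_W_one, add_div]
      rfl
    simp_rw [e1]
    rw [k2n_fit_add_one, k2n_fit_M1])
  rw [key]
  congr 2
  unfold KbSys.k2nJac
  rw [if_pos rfl, hdet, abs_of_pos (by positivity)]
  show (Y.ch c).J ^ 2 / Y.q ^ 1 * (Y.q ^ 3 / a ^ 3)⁻¹ = _
  field_simp

theorem k2n_Phi_map_two {P : KbPb KbVer.two} (Y : KbSys P) (a : ℝ) (c : Y.C)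
    (hinv : (Y.ch c).D * (Y.ch c).Di = 1) :
    (volume : Measure (KbTj KbVer.two)).map (Y.k2nPhi a c) = ENNReal.ofReal (Y.k2nJac a c) • volume := by
  have hq := Y.k2n_q_pos
  have hdet := k2n_M2_det (Y.tc c) Y.q
  have key := Y.k2n_Phi_map_of a c hinv (k2nM2 (Y.tc c) Y.q) (by rw [hdet]; positivity) (fun _ => 0) measurable_const (by
    intro p
    have e1 : ∀ τ, Y.wOf a c (Y.tOf c τ) (kbY p (Y.tOf c τ)) (kbW p (Y.tOf c τ)) =
        p.2.2 (0 : Fin 2) + p.2.2 (1 : Fin 2) * (Y.tc c + Y.q * τ) := by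
      intro τ
      unfold KbSys.wOf
      rw [if_neg (by decide), k2n_W_two]
      rfl
    simp_rw [e1]
    exact k2n_fit_M2 _ _ _)
  rw [key]
  congr 2
  unfold KbSys.k2nJac
  rw [if_neg (by decide), hdet, abs_of_pos hq]
  show (Y.ch c).J ^ 2 / Y.q ^ 2 * (Y.q)⁻¹ = _
  field_simp


/-- `(y₀,V) ↦ (z₀,V')` is affine with determinant `q^j / J^2`; the `w`-coefficients are transformed by a triangular linear map (diagonal `1,q,(q²)`, divided by `a` in version 1)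
plus, in version 1, a function of `(y₀,V)`.  Tonelli + `Measure.map_linearMap_addHaar_eq_smul_addHaar` / translation invariance. -/
theorem k2n_Phi_map (a : ℝ) (ha : 0 < a) (c : Y.C) (hadm : KbAdm (Y.ch c).T) (hinv : (Y.ch c).D * (Y.ch c).Di = 1) :
    (volume : Measure (KbTj v)).map (Y.k2nPhi a c) = ENNReal.ofReal (Y.k2nJac a c) • volume := by
  cases v with
  | one => exact k2n_Phi_map_one Y a ha c hadm hinv
  | two => exact k2n_Phi_map_two Y a c hinv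


/-! ## L-252-NORM-W2 : well-formedness -/

theorem k2n_norm_ac (hP : P.WF) (hY : Y.WF) (a : ℝ) (ha : 0 < a) (c : Y.C) : ((Y.norm a).nu c).map ((Y.norm a).co c) ≪ volume := by
  show (((Y.nuC c)⁻¹ • (P.nu (Y.wd c)).restrict (Y.A c)).map (Y.k2nPhi a c ∘ P.co (Y.wd c))) ≪ volume
  have hΦ : Measurable (Y.k2nPhi a c) := Y.k2n_Phi_meas a c (hY.adm c)
  have hco : Measurable (P.co (Y.wd c)) := hP.co_meas _
  rw [← Measure.map_map hΦ hco]
  have h1 : ((Y.nuC c)⁻¹ • (P.nu (Y.wd c)).restrict (Y.A c)) ≪ P.nu (Y.wd c) :=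
    (Measure.smul_absolutelyContinuous).trans (Measure.restrict_le_self).absolutelyContinuous
  have h2 : (((Y.nuC c)⁻¹ • (P.nu (Y.wd c)).restrict (Y.A c)).map (P.co (Y.wd c))) ≪ volume :=
    (h1.map hco).trans (hP.ac _)
  have h3 := h2.map hΦ
  rw [Y.k2n_Phi_map a ha c (hY.adm c) (hY.inv c)] at h3
  exact h3.trans Measure.smul_absolutelyContinuous

theorem k2n_norm_Ev_sub (hY : Y.WF) (a : ℝ) (c : Y.C) : (Y.norm a).Ev c ⊆ (Y.norm a).Sp c ×ˢ Set.Icc (0 : ℝ) 1 := by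
  intro x hx
  have h1 : (x.1, Y.tOf c x.2) ∈ Y.S c := hx
  have h2 := (hY.S_sub c h1).2
  have h3 : x.2 ∈ Set.Ico (0 : ℝ) 1 := (Y.k2n_tOf_mem_I c x.2).1 h2.2
  exact ⟨h2.1, Set.Ico_subset_Icc_self h3⟩

/-- **the normalised problem is well formed** -/
theorem k2n_norm_WF (hP : P.WF) (hY : Y.WF) (a : ℝ) (ha : 0 < a) (hν : ∀ c, Y.nuC c ≠ 0) (hZ : Y.Z ≠ 0) : (Y.norm a).WF where
  om_sum := Y.k2n_om_sum hP hY a hZ
  prob := fun c => Y.k2n_nu_prob hP a c (hν c)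
  co_meas := fun c => (Y.k2n_Phi_meas a c (hY.adm c)).comp (hP.co_meas (Y.wd c))
  Sp_meas := fun c => hY.A_meas c
  Sp_full := fun c => by
    show ((Y.nuC c)⁻¹ • (P.nu (Y.wd c)).restrict (Y.A c)) (Y.A c)ᶜ = 0
    rw [Measure.smul_apply, Measure.restrict_apply (hY.A_meas c).compl, Set.compl_inter_self, measure_empty, smul_zero]
  Ev_meas := fun c => (Y.k2n_inc_meas c) (hY.S_meas c)
  Ev_sub := fun c => Y.k2n_norm_Ev_sub hY a c
  B_pos := fun c => by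
    show 0 < (if v = KbVer.one then (1 : ℝ) else P.B (Y.wd c) / a)
    split_ifs
    · exact one_pos
    · exact div_pos (hP.B_pos _) ha
  Pst_adm := fun c => Y.k2n_Pst_adm a c (hY.adm c)
  v1 := fun hv c => by
    refine ⟨?_, fun t y w => ?_⟩
    · show (if v = KbVer.one then (1 : ℝ) else P.B (Y.wd c) / a) = 1
      rw [if_pos hv]
    · show (if v = KbVer.one then w else (Y.ch c).T (Y.tOf c t) (Y.yOf c t y) w / a) = w
      rw [if_pos hv]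
  ac := fun c => Y.k2n_norm_ac hP hY a ha c

/-! ## L-252-NORM-W3 : native bounds (02 l.712-731) -/

theorem k2n_tOf_cont (c : Y.C) : Continuous (Y.tOf c) := by
  unfold tOf
  fun_prop

theorem k2n_tOf_Icc (c : Y.C) (h : Y.iv c < 2 ^ Y.n) (τ : ℝ) (hτ : τ ∈ Set.Icc (0 : ℝ) 1) : Y.tOf c τ ∈ Set.Icc (0 : ℝ) 1 := by
  have hq := Y.k2n_q_pos
  have hq' : kbQ Y.n = Y.q := rfl
  have h2 : Y.q * 2 ^ Y.n = 1 := k2n_kbQ_mul_two_pow _
  have h3 : ((Y.iv c : ℝ) + 1) ≤ 2 ^ Y.n := by exact_mod_cast h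
  unfold tOf tc
  rw [hq']
  constructor
  · have h4 : 0 ≤ (Y.iv c : ℝ) * Y.q := by positivity
    have h5 : 0 ≤ Y.q * τ := mul_nonneg hq.le hτ.1
    linarith
  · have h5 : Y.q * τ ≤ Y.q * 1 := mul_le_mul_of_nonneg_left hτ.2 hq.le
    have h6 : ((Y.iv c : ℝ) + 1) * Y.q ≤ 2 ^ Y.n * Y.q := mul_le_mul_of_nonneg_right h3 hq.le
    nlinarith

/-- the value bound of `Geo` on the closed interval -/
theorem k2n_val_Icc (hY : Y.WF) (a K : ℝ) (hG : Y.Geo K a) (c : Y.C) (l : P.Lam) (hl : l ∈ Y.A c) (τ : ℝ) (hτ : τ ∈ Set.Icc (0 : ℝ) 1) :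
    |kbX (Y.ch c).T (P.co (Y.wd c) l) (Y.tOf c τ)| ≤ K * a := by
  have hcont : Continuous fun τ => kbX (Y.ch c).T (P.co (Y.wd c) l) (Y.tOf c τ) :=
    (k2n_X_cont (hY.adm c).1 _).comp (Y.k2n_tOf_cont c)
  have hb : ∀ τ ∈ Set.Ico (0 : ℝ) 1, ‖kbX (Y.ch c).T (P.co (Y.wd c) l) (Y.tOf c τ)‖ ≤ K * a := by
    intro τ hτ
    rw [Real.norm_eq_abs]
    exact hG.val c l hl _ ((Y.k2n_tOf_mem_I c τ).2 hτ)
  have := k2n_Ico_Icc hcont hb τ hτ
  rwa [Real.norm_eq_abs] at this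

/-- the derivative bound of `Geo` on the closed interval -/
theorem k2n_dw_Icc (hY : Y.WF) (a K : ℝ) (hG : Y.Geo K a) (c : Y.C) (l : P.Lam) (hl : l ∈ Y.A c) (τ : ℝ) (hτ : τ ∈ Set.Icc (0 : ℝ) 1) :
    |kbX (kbDw (Y.ch c).T) (P.co (Y.wd c) l) (Y.tOf c τ)| ≤ K * P.B (Y.wd c) := by
  have hcont : Continuous fun τ => kbX (kbDw (Y.ch c).T) (P.co (Y.wd c) l) (Y.tOf c τ) :=
    (k2n_XDw_cont (hY.adm c).1 _).comp (Y.k2n_tOf_cont c)
  have hb : ∀ τ ∈ Set.Ico (0 : ℝ) 1, ‖kbX (kbDw (Y.ch c).T) (P.co (Y.wd c) l) (Y.tOf c τ)‖ ≤ K * P.B (Y.wd c) := by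
    intro τ hτ
    rw [Real.norm_eq_abs]
    exact hG.dw c l hl _ ((Y.k2n_tOf_mem_I c τ).2 hτ)
  have := k2n_Ico_Icc hcont hb τ hτ
  rwa [Real.norm_eq_abs] at this

theorem k2n_norm_base (hY : Y.WF) (a K : ℝ) (hG : Y.Geo K a) (c : Y.C) (l : P.Lam) (hl : l ∈ Y.A c) (τ : ℝ) (hτ : τ ∈ Set.Icc (0 : ℝ) 1) :
    ‖kbY (Y.coN a c l) τ‖ ≤ K ∧ ‖kbV (Y.coN a c l)‖ ≤ 2 * K := by
  have hbox : ∀ τ ∈ Set.Ico (0 : ℝ) 1, ‖kbY (Y.coN a c l) τ‖ ≤ K := by
    intro τ hτ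
    rw [Y.k2n_Y_coN a c l τ]
    exact hG.box c l hl _ ((Y.k2n_tOf_mem_I c τ).2 hτ)
  have hall := k2n_Ico_Icc (k2n_Y_cont (Y.coN a c l)) hbox
  refine ⟨hall τ hτ, ?_⟩
  have e : kbV (Y.coN a c l) = kbY (Y.coN a c l) 1 - kbY (Y.coN a c l) 0 := by
    unfold kbY kbV
    simp
  rw [e]
  refine (norm_sub_le _ _).trans ?_
  have h1 := hall 1 ⟨zero_le_one, le_rfl⟩
  have h0 := hall 0 ⟨le_rfl, zero_le_one⟩
  linarith

/-- **the native bounds of the normalised problem** -/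
theorem k2n_norm_Ntv (hP : P.WF) (hY : Y.WF) (a K : ℝ) (ha : 0 < a) (hK : 1 ≤ K) (hν : ∀ c, Y.nuC c ≠ 0) (hG : Y.Geo K a) (hB : Y.Big K) :
    (Y.norm a).Ntv (3 * K) := by
  have hK0 : 0 < K := by linarith
  refine ⟨?_, ?_, ?_, ?_, ?_, ?_⟩
  · intro c l hl t ht
    have hl' : l ∈ Y.A c := hl
    have := Y.k2n_norm_base hY a K hG c l hl' t ht
    show ‖kbY (Y.coN a c l) t‖ + ‖kbV (Y.coN a c l)‖ ≤ 3 * K
    linarith [this.1, this.2]
  · intro c l hl t ht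
    have hl' : l ∈ Y.A c := hl
    show |kbX ((Y.norm a).Pst c) (Y.coN a c l) t| ≤ 3 * K
    rw [Y.k2n_X_norm a c (hY.adm c) (hY.inv c) l t, abs_div, abs_of_pos ha, div_le_iff₀ ha]
    have := Y.k2n_val_Icc hY a K hG c l hl' t ht
    have h0 : 0 ≤ K * a := by positivity
    linarith
  · intro c l hl t ht
    have hl' : l ∈ Y.A c := hl
    have hBpos := hP.B_pos (Y.wd c)
    show |kbX (kbDw ((Y.norm a).Pst c)) (Y.coN a c l) t| ≤ 3 * K * (if v = KbVer.one then 1 else P.B (Y.wd c) / a)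
    rw [Y.k2n_Dw_norm a c (hY.adm c) (hY.inv c) l t]
    by_cases hv : v = KbVer.one
    · rw [if_pos hv, if_pos hv, abs_one]
      linarith
    · rw [if_neg hv, if_neg hv, abs_div, abs_of_pos ha, ← mul_div_assoc]
      apply div_le_div_of_nonneg_right _ ha.le
      have := Y.k2n_dw_Icc hY a K hG c l hl' t ht
      have h0 : 0 ≤ K * P.B (Y.wd c) := by positivity
      linarith
  · intro c x hx
    have hx' : (x.1, Y.tOf c x.2) ∈ Y.S c := hx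
    show (if v = KbVer.one then 1 else P.B (Y.wd c) / a) ≤ 3 * K * |kbX (kbDw ((Y.norm a).Pst c)) (Y.coN a c x.1) x.2|
    rw [Y.k2n_Dw_norm a c (hY.adm c) (hY.inv c) x.1 x.2]
    by_cases hv : v = KbVer.one
    · rw [if_pos hv, if_pos hv, abs_one]
      linarith
    · rw [if_neg hv, if_neg hv, abs_div, abs_of_pos ha, ← mul_div_assoc]
      apply div_le_div_of_nonneg_right _ ha.le
      have h1 : P.B (Y.wd c) ≤ K * |kbX (kbDw (Y.ch c).T) (P.co (Y.wd c) x.1) (Y.tOf c x.2)| := hG.dw_low c _ hx'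
      have h0 : 0 ≤ K * |kbX (kbDw (Y.ch c).T) (P.co (Y.wd c) x.1) (Y.tOf c x.2)| := by positivity
      linarith
  · intro c t y w
    show |kbDww ((Y.norm a).Pst c) t y w| ≤ 3 * K * (if v = KbVer.one then 1 else P.B (Y.wd c) / a) ^ 2
    rw [Y.k2n_Dww_norm a c t y w]
    by_cases hv : v = KbVer.one
    · rw [if_pos hv, if_pos hv, abs_zero]
      positivity
    · rw [if_neg hv, if_neg hv, abs_div, abs_of_pos ha, div_pow, div_le_iff₀ ha]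
      have h1 := hG.dww c (Y.tOf c t) (Y.yOf c t y) w
      have e : 3 * K * (P.B (Y.wd c) ^ 2 / a ^ 2) * a = 3 * (K * P.B (Y.wd c) ^ 2) / a := by field_simp
      rw [e, le_div_iff₀ ha]
      have h0 : 0 ≤ K * P.B (Y.wd c) ^ 2 := by positivity
      linarith
  · rw [Y.k2n_norm_tot hP hY a]
    have hZ : Y.Z ≤ 1 := Y.k2n_Z_le_one hP hY
    have h1 : Y.mass ≤ Y.mass / Y.Z := by
      rw [div_eq_mul_inv]
      calc Y.mass = Y.mass * 1 := (mul_one _).symm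
        _ ≤ Y.mass * Y.Z⁻¹ := mul_le_mul_right (ENNReal.one_le_inv.2 hZ) _
    calc 1 ≤ ENNReal.ofReal K * Y.mass := hB
      _ ≤ ENNReal.ofReal (3 * K) * (Y.mass / Y.Z) :=
          mul_le_mul' (ENNReal.ofReal_le_ofReal (by linarith)) h1

/-! ## L-252-NORM-W4 : polynomial bounds (02 l.742-746) -/

theorem k2n_Jac_le (a K Q : ℝ) (ha : 0 < a) (ha1 : a ≤ 1) (hK : 1 ≤ K) (hQ : 1 ≤ Q) (hG : Y.Geo K a) (hq : 1 ≤ Q * Y.q) (c : Y.C) :
    Y.k2nJac a c ≤ Q ^ 2 * K ^ 4 := by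
  have hq0 := Y.k2n_q_pos
  have hq1 : Y.q ≤ 1 := k2n_kbQ_le_one _
  have hK0 : 0 < K := by linarith
  have hJ0 : 0 ≤ (Y.ch c).J := abs_nonneg _
  have hJ : (Y.ch c).J ≤ (Y.q * K) ^ v.j :=
    (k2n_det_le _).trans (pow_le_pow_left₀ (k2n_Mn_nonneg _) (hG.size c) _)
  unfold k2nJac
  cases v with
  | one =>
    rw [if_pos rfl]
    have hJ' : (Y.ch c).J ≤ Y.q * K := by
      have : (Y.q * K) ^ KbVer.one.j = Y.q * K := pow_one _
      rwa [this] at hJ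
    rw [div_le_iff₀ (by positivity)]
    have h1 : (Y.ch c).J ^ 2 ≤ (Y.q * K) ^ 2 := pow_le_pow_left₀ hJ0 hJ' 2
    have h2 : a ^ 3 ≤ 1 := pow_le_one₀ ha.le ha1
    have h3 : 1 ≤ (Q * Y.q) ^ 2 := one_le_pow₀ hq
    have h4 : K ^ 2 ≤ K ^ 4 := pow_le_pow_right₀ hK (by norm_num)
    calc (Y.ch c).J ^ 2 * a ^ 3 ≤ (Y.q * K) ^ 2 * 1 := mul_le_mul h1 h2 (by positivity) (by positivity)
      _ = Y.q ^ 2 * K ^ 2 * 1 := by ring
      _ ≤ Y.q ^ 2 * K ^ 4 * (Q * Y.q) ^ 2 := by gcongr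
      _ = Q ^ 2 * K ^ 4 * Y.q ^ 4 := by ring
  | two =>
    rw [if_neg (by decide)]
    have hJ' : (Y.ch c).J ≤ (Y.q * K) ^ 2 := hJ
    rw [div_le_iff₀ (by positivity)]
    have h1 : (Y.ch c).J ^ 2 ≤ ((Y.q * K) ^ 2) ^ 2 := pow_le_pow_left₀ hJ0 hJ' 2
    have h3 : 1 ≤ Q ^ 2 := one_le_pow₀ hQ
    calc (Y.ch c).J ^ 2 ≤ ((Y.q * K) ^ 2) ^ 2 := h1
      _ = 1 * K ^ 4 * (Y.q ^ 3 * Y.q) := by ring
      _ ≤ Q ^ 2 * K ^ 4 * (Y.q ^ 3 * 1) := by gcongr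
      _ = Q ^ 2 * K ^ 4 * Y.q ^ 3 := by ring

theorem k2n_norm_dens (hP : P.WF) (hY : Y.WF) (a K Q : ℝ) (ha : 0 < a) (ha1 : a ≤ 1) (hK : 1 ≤ K) (hQ : 1 ≤ Q) (hG : Y.Geo K a)
    (hT : P.Tmp Q) (hq : 1 ≤ Q * Y.q) (c : Y.C) (hν : 1 ≤ ENNReal.ofReal Q * Y.nuC c) :
    ((Y.norm a).nu c).map ((Y.norm a).co c) ≤ ENNReal.ofReal (Q ^ 4 * K ^ 4) • volume := by
  have hΦ := Y.k2n_Phi_meas a c (hY.adm c)
  have hco := hP.co_meas (Y.wd c)
  have hQ0 : 0 < Q := by linarith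
  have hK0 : 0 < K := by linarith
  have e1 : ((Y.norm a).nu c).map ((Y.norm a).co c)
      = (Y.nuC c)⁻¹ • (((P.nu (Y.wd c)).restrict (Y.A c)).map (P.co (Y.wd c))).map (Y.k2nPhi a c) := by
    show ((Y.nuC c)⁻¹ • (P.nu (Y.wd c)).restrict (Y.A c)).map (Y.coN a c) = _
    rw [Measure.map_smul, Measure.map_map hΦ hco]
    rfl
  rw [e1]
  have h1 : ((P.nu (Y.wd c)).restrict (Y.A c)).map (P.co (Y.wd c)) ≤ ENNReal.ofReal Q • volume :=
    (Measure.map_mono Measure.restrict_le_self hco).trans (hT.dens _)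
  have h2 : (((P.nu (Y.wd c)).restrict (Y.A c)).map (P.co (Y.wd c))).map (Y.k2nPhi a c)
      ≤ ENNReal.ofReal Q • ENNReal.ofReal (Y.k2nJac a c) • volume := by
    refine (Measure.map_mono h1 hΦ).trans (le_of_eq ?_)
    rw [Measure.map_smul, Y.k2n_Phi_map a ha c (hY.adm c) (hY.inv c)]
  have h3 : (Y.nuC c)⁻¹ ≤ ENNReal.ofReal Q := by
    calc (Y.nuC c)⁻¹ = 1 * (Y.nuC c)⁻¹ := (one_mul _).symm
      _ ≤ (ENNReal.ofReal Q * Y.nuC c) * (Y.nuC c)⁻¹ := mul_le_mul_left hν _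
      _ = ENNReal.ofReal Q * (Y.nuC c * (Y.nuC c)⁻¹) := mul_assoc _ _ _
      _ ≤ ENNReal.ofReal Q * 1 := mul_le_mul_right (ENNReal.mul_inv_le_one _) _
      _ = ENNReal.ofReal Q := mul_one _
  have h4 : Y.k2nJac a c ≤ Q ^ 2 * K ^ 4 := Y.k2n_Jac_le a K Q ha ha1 hK hQ hG hq c
  rw [Measure.le_iff']
  intro s
  have h5 := Measure.le_iff'.1 h2 s
  simp only [Measure.smul_apply, smul_eq_mul] at h5 ⊢
  calc (Y.nuC c)⁻¹ * ((((P.nu (Y.wd c)).restrict (Y.A c)).map (P.co (Y.wd c))).map (Y.k2nPhi a c)) s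
      ≤ ENNReal.ofReal Q * (ENNReal.ofReal Q * (ENNReal.ofReal (Q ^ 2 * K ^ 4) * volume s)) := by
        refine mul_le_mul' h3 (h5.trans ?_)
        exact mul_le_mul_right (mul_le_mul_left (ENNReal.ofReal_le_ofReal h4) _) _
    _ = ENNReal.ofReal (Q ^ 4 * K ^ 4) * volume s := by
        rw [← mul_assoc, ← mul_assoc, ← ENNReal.ofReal_mul hQ0.le, ← ENNReal.ofReal_mul (by positivity)]
        congr 2
        ring

/-- the interpolated hidden coefficients are polynomially bounded -/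
theorem k2n_norm_fit_le (hY : Y.WF) (a K Q : ℝ) (ha : 0 < a) (hK : 1 ≤ K) (hQ : 1 ≤ Q) (hG : Y.Geo K a) (hT : P.Tmp Q)
    (c : Y.C) (l : P.Lam) (hl : l ∈ Y.A c) : ‖(Y.coN a c l).2.2‖ ≤ 8 * (2 * Q * K) := by
  have hK0 : 0 < K := by linarith
  have hQ0 : 0 < Q := by linarith
  refine k2n_fit_le _ _ fun τ hτ => ?_
  have hQK : K ≤ 2 * Q * K := by nlinarith
  have hQK' : 2 * Q ≤ 2 * Q * K := by nlinarith
  cases v with
  | one =>
    show |Y.wOf a c (Y.tOf c τ) (kbY (P.co (Y.wd c) l) (Y.tOf c τ)) (kbW (P.co (Y.wd c) l) (Y.tOf c τ))| ≤ _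
    unfold wOf
    rw [if_pos rfl, abs_div, abs_of_pos ha, div_le_iff₀ ha]
    have := Y.k2n_val_Icc hY a K hG c l hl τ hτ
    unfold kbX at this
    refine this.trans ?_
    exact mul_le_mul_of_nonneg_right hQK ha.le
  | two =>
    show |Y.wOf a c (Y.tOf c τ) (kbY (P.co (Y.wd c) l) (Y.tOf c τ)) (kbW (P.co (Y.wd c) l) (Y.tOf c τ))| ≤ _
    unfold wOf
    rw [if_neg (by decide)]
    have h1 := k2n_W_two_le (P.co (Y.wd c) l) (Y.tOf c τ) (Y.k2n_tOf_Icc c (hY.iv_lt c) τ hτ)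
    have h2 := hT.co_le (Y.wd c) l (hY.A_sub c hl)
    linarith

/-- **polynomial bounds of the normalised problem**; `hν` : the extremely light charts have been discarded -/
theorem k2n_norm_Tmp (hP : P.WF) (hY : Y.WF) (a K Q : ℝ) (ha : 0 < a) (ha1 : a ≤ 1) (haQ : 1 ≤ Q * a) (hK : 1 ≤ K) (hQ : 1 ≤ Q)
    (hG : Y.Geo K a) (hT : P.Tmp Q) (hT' : Y.Tmp Q) (hν : ∀ c, 1 ≤ ENNReal.ofReal Q * Y.nuC c) :
    (Y.norm a).Tmp (16 * Q ^ 4 * K ^ 4) := by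
  have hK0 : 0 < K := by linarith
  have hQ0 : 0 < Q := by linarith
  have hQ4 : 1 ≤ Q ^ 4 := one_le_pow₀ hQ
  have hK4 : 1 ≤ K ^ 4 := one_le_pow₀ hK
  have hQQ : Q ≤ Q ^ 4 := by
    calc Q = Q ^ 1 := (pow_one _).symm
      _ ≤ Q ^ 4 := pow_le_pow_right₀ hQ (by norm_num)
  have hQ2 : Q ^ 2 ≤ Q ^ 4 := pow_le_pow_right₀ hQ (by norm_num)
  have hKK : K ≤ K ^ 4 := by
    calc K = K ^ 1 := (pow_one _).symm
      _ ≤ K ^ 4 := pow_le_pow_right₀ hK (by norm_num)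
  have hbig : ∀ x y : ℝ, 0 ≤ x → x ≤ Q ^ 4 → 0 ≤ y → y ≤ K ^ 4 → 16 * (x * y) ≤ 16 * Q ^ 4 * K ^ 4 := by
    intro x y hx hx' hy hy'
    have := mul_le_mul hx' hy' hy (by positivity)
    linarith
  refine ⟨?_, ?_, ?_, ?_⟩
  · have h1 : (Fintype.card Y.C : ℝ) ≤ Q := hT'.card
    have h2 := hbig Q 1 hQ0.le hQQ zero_le_one hK4
    show (Fintype.card Y.C : ℝ) ≤ _
    linarith
  · intro c
    have hBpos := hP.B_pos (Y.wd c)
    have hB := hT.B_le (Y.wd c)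
    show (if v = KbVer.one then 1 else P.B (Y.wd c) / a) ≤ _ ∧ 1 ≤ _ * (if v = KbVer.one then 1 else P.B (Y.wd c) / a)
    have h11 := hbig 1 1 zero_le_one hQ4 zero_le_one hK4
    by_cases hv : v = KbVer.one
    · rw [if_pos hv]
      constructor <;> linarith
    · rw [if_neg hv]
      constructor
      · rw [div_le_iff₀ ha]
        have h2 := hbig (Q ^ 2) 1 (by positivity) hQ2 zero_le_one hK4
        have h3 : Q ≤ Q ^ 2 * a := by nlinarith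
        have h4 : Q ^ 2 * a ≤ 16 * Q ^ 4 * K ^ 4 * a := mul_le_mul_of_nonneg_right (by linarith) ha.le
        linarith [hB.1]
      · have h2 := hbig Q 1 hQ0.le hQQ zero_le_one hK4
        have h3 : P.B (Y.wd c) ≤ P.B (Y.wd c) / a := by
          rw [le_div_iff₀ ha]
          nlinarith
        have h4 : Q * P.B (Y.wd c) ≤ 16 * Q ^ 4 * K ^ 4 * (P.B (Y.wd c) / a) :=
          mul_le_mul (by linarith) h3 hBpos.le (by positivity)
        linarith [hB.2]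
  · intro c l hl
    have hl' : l ∈ Y.A c := hl
    show ‖Y.coN a c l‖ ≤ _
    have hb := Y.k2n_norm_base hY a K hG c l hl' 0 ⟨le_rfl, zero_le_one⟩
    have h1 : ‖(Y.coN a c l).1‖ ≤ K := by
      have := hb.1
      unfold kbY at this
      rwa [zero_smul, add_zero] at this
    have h2 : ‖(Y.coN a c l).2.1‖ ≤ 2 * K := hb.2
    have h3 := Y.k2n_norm_fit_le hY a K Q ha hK hQ hG hT c l hl'
    have h4 := hbig Q K hQ0.le hQQ hK0.le hKK
    have h5 := hbig 1 K zero_le_one hQ4 hK0.le hKK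
    rw [Prod.norm_def, Prod.norm_def]
    refine max_le (by linarith) (max_le (by linarith) (by linarith))
  · intro c
    refine (Y.k2n_norm_dens hP hY a K Q ha ha1 hK hQ hG hT hT'.q_low c (hν c)).trans ?_
    rw [Measure.le_iff']
    intro s
    simp only [Measure.smul_apply, smul_eq_mul]
    refine mul_le_mul_left (ENNReal.ofReal_le_ofReal ?_) _
    have : 0 ≤ Q ^ 4 * K ^ 4 := by positivity
    linarith

end KbSys

end

end Claimed.Agent.R252
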