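import Claimed.Agent.R252.Norm.Den
import Claimed.Agent.R252.Norm.Bins
import Claimed.Agent.R252.Norm.Lift
import Claimed.Agent.R252.Norm.Wf

/-!
# ROW 252 (S0492), unit NORM (post BP-252-S2aC, sub-architect helper22), file 9: DENSITIES OF THE NORMALISED PROBLEM AT ONE SCALE  (02-framework.tex (2.18)-(2.20), l.747-800).
CONTRACT file: every `sorry` is a leaf `L-252-NORM-N*`.  Prefix `k2n_`.
`γ = Y.wd c`;  old chart measure `μ_c = (P.mu γ).restrict (Y.S c)`;  `Ψ_c (t,y) = (τ,z)` the change of the exact base, Jacobian `dt dy = q J_c dτ dz`.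
PRIMARY CORE: `k2n_dn_norm` = the exact identity (2.20) for EVERY label of the new problem.   GENERAL EXITS (any pair of labels with bounded lists): `k2n_norm_above_gen`, `k2n_norm_below_gen`.
EXITS used by `Norm/Seq.lean`: `k2n_norm_above`, `k2n_norm_above_hid`, `k2n_norm_below`.
-/

set_option autoImplicit false

namespace Claimed.Agent.R252

open MeasureTheory
open scoped ENNReal BigOperators

noncomputable section

variable {v : KbVer}

namespace KbSys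

variable {P : KbPb v} (Y : KbSys P)

/-- the change of the exact base -/
def k2nPsi (c : Y.C) (o : ℝ × KbB v) : ℝ × KbB v := (Y.tauOf c o.1, Y.zOf c o.1 o.2)

/-! ## L-252-NORM-N1 : the change of the exact base -/

theorem k2n_bs_back (a : ℝ) (c : Y.C) (x : P.Lam × ℝ) : (Y.norm a).bs c (Y.k2nBack c x) = Y.k2nPsi c (P.bs (Y.wd c) x) := by
  have h1 := Y.k2n_Y_coN a c x.1 (Y.tauOf c x.2)
  rw [k2n_tOf_tauOf] at h1
  exact Prod.ext rfl h1

theorem k2n_Psi_meas (c : Y.C) : Measurable (Y.k2nPsi c) := by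
  have h1 : Measurable fun o : ℝ × KbB v => Y.tauOf c o.1 := by
    unfold tauOf
    fun_prop
  have h2 : Measurable fun o : ℝ × KbB v => Y.zOf c o.1 o.2 := by
    unfold zOf KbChart.yc
    have hm : Measurable (Matrix.toLin' (Y.ch c).Di) := (LinearMap.continuous_of_finiteDimensional _).measurable
    exact hm.comp (by fun_prop)
  exact h1.prodMk h2

theorem k2n_PsiInv_meas (c : Y.C) : Measurable fun o : ℝ × KbB v => ((Y.tOf c o.1, Y.yOf c o.1 o.2) : ℝ × KbB v) := by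
  have h1 : Measurable fun o : ℝ × KbB v => Y.tOf c o.1 := by
    unfold tOf
    fun_prop
  have h2 : Measurable fun o : ℝ × KbB v => Y.yOf c o.1 o.2 := by
    unfold yOf KbChart.yc tOf
    have hm : Measurable (Matrix.toLin' (Y.ch c).D) := (LinearMap.continuous_of_finiteDimensional _).measurable
    have h3 : Measurable fun o : ℝ × KbB v => (Y.ch c).D.mulVec o.2 := hm.comp measurable_snd
    exact Measurable.add (by fun_prop) h3
  exact h1.prodMk h2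

/-- `Ψ_c` is a bijective affine map (inverse `(τ,z) ↦ (Y.tOf c τ, Y.yOf c τ z)`, both continuous) -/
theorem k2n_Psi_emb (c : Y.C) (hinv : (Y.ch c).D * (Y.ch c).Di = 1) : MeasurableEmbedding (Y.k2nPsi c) := by
  let e : (ℝ × KbB v) ≃ᵐ (ℝ × KbB v) :=
    { toFun := Y.k2nPsi c
      invFun := fun o => (Y.tOf c o.1, Y.yOf c o.1 o.2)
      left_inv := by
        intro o
        unfold k2nPsi
        refine Prod.ext (Y.k2n_tOf_tauOf c o.1) ?_
        have := Y.k2n_yOf_zOf c hinv (Y.tauOf c o.1) o.2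
        rw [k2n_tOf_tauOf] at this
        exact this
      right_inv := by
        intro o
        unfold k2nPsi
        exact Prod.ext (Y.k2n_tauOf_tOf c o.1) (Y.k2n_zOf_yOf c hinv o.1 o.2)
      measurable_toFun := Y.k2n_Psi_meas c
      measurable_invFun := Y.k2n_PsiInv_meas c }
  exact e.measurableEmbedding

/-- the base Jacobian `q J_c` (`k2n_skew_map` with `f = tauOf`, `g = Di.mulVec`, `Real.map_linearMap_volume_pi_eq_smul_volume_pi` / `Real.map_matrix_volume_pi_eq_smul_volume_pi`) -/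
theorem k2n_Psi_map (c : Y.C) (hinv : (Y.ch c).D * (Y.ch c).Di = 1) :
    (volume : Measure (ℝ × KbB v)).map (Y.k2nPsi c) = ENNReal.ofReal (Y.q * (Y.ch c).J) • volume := by
  have hq := Y.k2n_q_pos
  have hdet : (Y.ch c).D.det * (Y.ch c).Di.det = 1 := by
    rw [← Matrix.det_mul, hinv, Matrix.det_one]
  have hDi : (Y.ch c).Di.det ≠ 0 := fun h0 => by rw [h0, mul_zero] at hdet; exact zero_ne_one hdet
  have h1 : (volume : Measure ℝ).map (Y.tauOf c) = ENNReal.ofReal Y.q • volume := by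
    have e : Y.tauOf c = (fun t => Y.q⁻¹ * t) ∘ fun t => t + (-Y.tc c) := by
      funext t
      unfold tauOf
      simp only [Function.comp]
      rw [div_eq_inv_mul, sub_eq_add_neg]
    rw [e, ← Measure.map_map (measurable_const_mul _) (measurable_add_const _), map_add_right_eq_self,
      Real.map_volume_mul_left (inv_ne_zero hq.ne'), inv_inv, abs_of_pos hq]
  have h2 : (volume : Measure (KbB v)).map (fun y => (Y.ch c).Di.mulVec y) = ENNReal.ofReal (Y.ch c).J • volume := by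
    have := k2n_aff_map (Y.ch c).Di hDi 0
    simp only [sub_zero] at this
    rw [this]
    congr 2
    unfold KbChart.J
    rw [← abs_inv]
    congr 1
    exact (eq_inv_of_mul_eq_one_left hdet).symm
  have hm2 : Measurable fun y : KbB v => (Y.ch c).Di.mulVec y := by
    have := k2n_aff_meas (Y.ch c).Di 0
    simpa using this
  have hs : Measurable fun t : ℝ => -(Y.ch c).Di.mulVec ((Y.ch c).yc t) := by
    have : Measurable fun t : ℝ => (Y.ch c).yc t := by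
      unfold KbChart.yc
      fun_prop
    exact (hm2.comp this).neg
  have hf : Measurable (Y.tauOf c) := by
    unfold tauOf
    fun_prop
  have key := k2n_skew_map (volume : Measure ℝ) (volume : Measure (KbB v)) (Y.tauOf c) (fun y => (Y.ch c).Di.mulVec y)
    (fun t => -(Y.ch c).Di.mulVec ((Y.ch c).yc t)) hf hm2 hs _ _ h1 h2
  have e : Y.k2nPsi c = fun p : ℝ × KbB v => (Y.tauOf c p.1, (Y.ch c).Di.mulVec p.2 + -(Y.ch c).Di.mulVec ((Y.ch c).yc p.1)) := by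
    funext p
    unfold k2nPsi zOf
    rw [Matrix.mulVec_sub, sub_eq_add_neg]
  rw [Measure.volume_eq_prod, e, key, ENNReal.ofReal_mul hq.le]

theorem k2n_J_pos (c : Y.C) (hinv : (Y.ch c).D * (Y.ch c).Di = 1) : 0 < (Y.ch c).J := by
  unfold KbChart.J
  rw [abs_pos]
  intro h0
  have := congrArg Matrix.det hinv
  rw [Matrix.det_mul, h0, zero_mul, Matrix.det_one] at this
  exact zero_ne_one this

/-! ## L-252-NORM-N2 : the exact density transform (2.20) -/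

/-- the base map of the normalised problem is measurable -/
theorem k2n_bs_norm_meas (hP : P.WF) (a : ℝ) (c : Y.C) : Measurable ((Y.norm a).bs c) := by
  have e : (Y.norm a).bs c = Y.k2nPsi c ∘ P.bs (Y.wd c) ∘ Y.incOf c := by
    funext x
    exact (congrArg ((Y.norm a).bs c) (Y.k2n_back_inc c x)).symm.trans (Y.k2n_bs_back a c (Y.incOf c x))
  rw [e]
  exact (Y.k2n_Psi_meas c).comp ((k2a_bs_meas hP _).comp (Y.k2n_inc_meas c))

/-- **`ρ'_c = (J_c / ν_c) ρ_c`** at almost every selected incidence of the chart, for EVERY label of the new problem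
(`k2n_mu_norm`, `k2n_dn_transport` with `s = (q ν_c)⁻¹`, `κ = q J_c`, frame `k2a_fr_restrict (k2a_fr hP γ)`) -/
theorem k2n_dn_norm {D : Type} [Countable D] (hP : P.WF) (hY : Y.WF) (a : ℝ) (c : Y.C) (hν : Y.nuC c ≠ 0) (ℓ' : (Y.norm a).Lab D)
    (hℓ' : (Y.norm a).LabMeas ℓ') :
    ∀ᵐ x ∂(P.mu (Y.wd c)).restrict (Y.S c), (Y.norm a).dn ℓ' c (Y.k2nBack c x)
      = ENNReal.ofReal (Y.ch c).J / Y.nuC c * k2aDn volume ((P.mu (Y.wd c)).restrict (Y.S c)) (P.bs (Y.wd c)) (ℓ' c ∘ Y.k2nBack c) x := by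
  have hq := Y.k2n_q_pos
  have hJ := Y.k2n_J_pos c (hY.inv c)
  have hq0 : ENNReal.ofReal Y.q ≠ 0 := (ENNReal.ofReal_pos.2 hq).ne'
  have hs : (ENNReal.ofReal Y.q * Y.nuC c)⁻¹ ≠ ∞ := ENNReal.inv_ne_top.2 (mul_ne_zero hq0 hν)
  have key := k2n_dn_transport (vol' := (volume : Measure (ℝ × KbB v))) (b' := (Y.norm a).bs c) (back := Y.k2nBack c) (Ψ := Y.k2nPsi c) (ℓ' := ℓ' c)
    (k2a_fr_restrict (k2a_fr hP (Y.wd c)) (Y.S c)) (ENNReal.ofReal Y.q * Y.nuC c)⁻¹ (ENNReal.ofReal (Y.q * (Y.ch c).J)) hs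
    (ENNReal.ofReal_pos.2 (mul_pos hq hJ)).ne' ENNReal.ofReal_ne_top (Y.k2n_back_meas c) (Y.k2n_bs_norm_meas hP a c) (Y.k2n_Psi_emb c (hY.inv c))
    (Y.k2n_Psi_map c (hY.inv c)) (Y.k2n_bs_back a c) (hℓ' c)
  filter_upwards [key] with x hx
  have e1 : (Y.norm a).dn ℓ' c (Y.k2nBack c x) = k2aDn volume ((Y.norm a).mu c) ((Y.norm a).bs c) (ℓ' c) (Y.k2nBack c x) := rfl
  refine e1.trans ((congrArg (fun m => k2aDn volume m ((Y.norm a).bs c) (ℓ' c) (Y.k2nBack c x)) (Y.k2n_mu_norm hP hY a c)).trans (hx.trans ?_))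
  congr 1
  rw [ENNReal.ofReal_mul hq.le, ENNReal.mul_inv (Or.inl hq0) (Or.inl ENNReal.ofReal_ne_top), div_eq_mul_inv]
  calc (ENNReal.ofReal Y.q)⁻¹ * (Y.nuC c)⁻¹ * (ENNReal.ofReal Y.q * ENNReal.ofReal (Y.ch c).J)
      = ((ENNReal.ofReal Y.q)⁻¹ * ENNReal.ofReal Y.q) * (ENNReal.ofReal (Y.ch c).J * (Y.nuC c)⁻¹) := by ring
    _ = ENNReal.ofReal (Y.ch c).J * (Y.nuC c)⁻¹ := by rw [ENNReal.inv_mul_cancel hq0 ENNReal.ofReal_ne_top, one_mul]

/-- masses of density events of the new problem in the old coordinates (`k2n_norm_mass`, `k2n_dn_norm`) -/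
theorem k2n_norm_mass_dn {D : Type} [Countable D] (hP : P.WF) (hY : Y.WF) (a : ℝ) (hν : ∀ c, Y.nuC c ≠ 0) (ℓ' : (Y.norm a).Lab D)
    (hℓ' : (Y.norm a).LabMeas ℓ') (hWF : (Y.norm a).WF) (B : Set ℝ≥0∞) (hB : MeasurableSet B) :
    (Y.norm a).mass (fun c => {x' | (Y.norm a).dn ℓ' c x' ∈ B})
      = (∑ c, P.om (Y.wd c) * P.mu (Y.wd c) (Y.S c ∩ {x | ENNReal.ofReal (Y.ch c).J / Y.nuC c
          * k2aDn volume ((P.mu (Y.wd c)).restrict (Y.S c)) (P.bs (Y.wd c)) (ℓ' c ∘ Y.k2nBack c) x ∈ B})) / Y.Z := by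
  refine (Y.k2n_norm_mass hP hY a (fun c => {x' | (Y.norm a).dn ℓ' c x' ∈ B}) fun c => (k2a_dn_measurable hWF hℓ' c) hB).trans ?_
  congr 1
  refine Finset.sum_congr rfl fun c _ => ?_
  congr 1
  rw [Set.inter_comm (Y.S c), ← Measure.restrict_apply' (hY.S_meas c), ← Measure.restrict_apply' (hY.S_meas c)]
  refine measure_congr ?_
  filter_upwards [Y.k2n_dn_norm hP hY a c (hν c) ℓ' hℓ'] with x hx
  have : (x ∈ Y.k2nBack c ⁻¹' {x' | (Y.norm a).dn ℓ' c x' ∈ B}) = (x ∈ {x | ENNReal.ofReal (Y.ch c).J / Y.nuC c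
          * k2aDn volume ((P.mu (Y.wd c)).restrict (Y.S c)) (P.bs (Y.wd c)) (ℓ' c ∘ Y.k2nBack c) x ∈ B}) := by
    simp only [Set.mem_preimage, Set.mem_ofPred_eq]
    rw [hx]
  exact this

/-! ## L-252-NORM-N3 : ceilings  ((2.19) and the angular bound, l.781-795) -/

theorem k2n_j_le_two : v.j ≤ 2 := by
  cases v <;> simp [KbVer.j]

/-- a new label in the old coordinates is a label -/
theorem k2n_lab_back {D : Type} (a : ℝ) (c : Y.C) (ℓ' : (Y.norm a).Lab D) (hℓ' : (Y.norm a).LabMeas ℓ') : K2aLab (ℓ' c ∘ Y.k2nBack c) :=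
  fun d => (Y.k2n_back_meas c) (hℓ' c d)

/-- the factor `J_c / ν_c ≤ X` -/
theorem k2n_ratio_le (hP : P.WF) {X : ℝ} (c : Y.C) (hν : Y.nuC c ≠ 0) (hJ : ENNReal.ofReal (Y.ch c).J ≤ ENNReal.ofReal X * Y.nuC c) :
    ENNReal.ofReal (Y.ch c).J / Y.nuC c ≤ ENNReal.ofReal X :=
  (ENNReal.div_le_iff hν (Y.k2n_nuC_ne_top hP c)).2 hJ

/-- **general ceiling.**  `ℓ` any label of `P`, `ℓ'` any label of `Y.norm a`; in every chart the old label lies in a list of size `≤ n` determined by the new label and the exact base; `J_c / ν_c ≤ X`.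
Outside twice the old exceptional mass (divided by `Z`) the new density is `≤ 2 n X hi`.      (`k2n_norm_mass_dn`, `k2n_ceil` in every chart, `k2n_sum_le_mass`.) -/
theorem k2n_norm_above_gen {D D' : Type} [Countable D] [Countable D'] (hP : P.WF) (hY : Y.WF) (a X hi : ℝ) (ha : 0 < a) (hX : 0 ≤ X) (hhi : 0 ≤ hi)
    (hν : ∀ c, Y.nuC c ≠ 0) (hZ : Y.Z ≠ 0) (hJ : ∀ c, ENNReal.ofReal (Y.ch c).J ≤ ENNReal.ofReal X * Y.nuC c)
    (ℓ : P.Lab D) (hℓ : P.LabMeas ℓ) (ℓ' : (Y.norm a).Lab D') (hℓ' : (Y.norm a).LabMeas ℓ') (n : ℕ)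
    (hL : ∀ c, ∃ Lst : D' → ℝ × KbB v → Finset D, (∀ d o, (Lst d o).card ≤ n) ∧ (∀ d d', MeasurableSet {o | d' ∈ Lst d o}) ∧
      ∀ x ∈ Y.S c, ℓ (Y.wd c) x ∈ Lst (ℓ' c (Y.k2nBack c x)) (P.bs (Y.wd c) x)) :
    (Y.norm a).mass ((Y.norm a).above ℓ' (2 * n * X * hi)) ≤ 2 * P.mass (P.above ℓ hi) / Y.Z := by
  have hWF := Y.k2n_norm_WF hP hY a ha hν hZ
  have h1 := Y.k2n_norm_mass_dn hP hY a hν ℓ' hℓ' hWF (Set.Ioi (ENNReal.ofReal (2 * n * X * hi))) measurableSet_Ioi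
  refine (le_of_eq h1).trans (ENNReal.div_le_div_right ?_ _)
  have hab : ∀ γ, MeasurableSet (P.above ℓ hi γ) := fun γ => measurableSet_lt measurable_const (k2a_dn_measurable hP hℓ γ)
  have h2 := Y.k2n_sum_le_mass hP hY (P.above ℓ hi) hab
  refine le_trans ?_ (mul_le_mul_right h2 2)
  rw [Finset.mul_sum]
  refine Finset.sum_le_sum fun c _ => ?_
  obtain ⟨Lst, hcard, hmeas, hmem⟩ := hL c
  have h3 := k2n_ceil (k2a_fr hP (Y.wd c)) (hℓ (Y.wd c)) (Y.k2n_lab_back a c ℓ' hℓ') (hY.S_meas c) Lst n hcard hmeas hmem (ENNReal.ofReal hi)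
  have h4 : Y.S c ∩ {x | ENNReal.ofReal (Y.ch c).J / Y.nuC c * k2aDn volume ((P.mu (Y.wd c)).restrict (Y.S c)) (P.bs (Y.wd c)) (ℓ' c ∘ Y.k2nBack c) x
        ∈ Set.Ioi (ENNReal.ofReal (2 * n * X * hi))} ⊆
      Y.S c ∩ {x | 2 * (n * ENNReal.ofReal hi) < k2aDn volume ((P.mu (Y.wd c)).restrict (Y.S c)) (P.bs (Y.wd c)) (ℓ' c ∘ Y.k2nBack c) x} := by
    intro x hx
    refine ⟨hx.1, ?_⟩
    have hx2 : ENNReal.ofReal (2 * n * X * hi) < ENNReal.ofReal (Y.ch c).J / Y.nuC c * k2aDn volume ((P.mu (Y.wd c)).restrict (Y.S c)) (P.bs (Y.wd c)) (ℓ' c ∘ Y.k2nBack c) x := hx.2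
    by_contra hcon
    have hcon' : k2aDn volume ((P.mu (Y.wd c)).restrict (Y.S c)) (P.bs (Y.wd c)) (ℓ' c ∘ Y.k2nBack c) x ≤ 2 * (n * ENNReal.ofReal hi) := not_lt.1 hcon
    have h5 : ENNReal.ofReal (Y.ch c).J / Y.nuC c * k2aDn volume ((P.mu (Y.wd c)).restrict (Y.S c)) (P.bs (Y.wd c)) (ℓ' c ∘ Y.k2nBack c) x
        ≤ ENNReal.ofReal X * (2 * (n * ENNReal.ofReal hi)) := mul_le_mul' (Y.k2n_ratio_le hP c (hν c) (hJ c)) hcon'
    have h6 : ENNReal.ofReal X * (2 * (n * ENNReal.ofReal hi)) = ENNReal.ofReal (2 * n * X * hi) := by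
      have e : 2 * (n : ℝ) * X * hi = X * (2 * (n * hi)) := by ring
      rw [e, ENNReal.ofReal_mul hX, ENNReal.ofReal_mul (by norm_num), ENNReal.ofReal_mul (by positivity), ENNReal.ofReal_natCast]
      norm_num
    exact absurd (hx2.trans_le (h5.trans h6.le)) (lt_irrefl _)
  calc P.om (Y.wd c) * P.mu (Y.wd c) (Y.S c ∩ {x | ENNReal.ofReal (Y.ch c).J / Y.nuC c * k2aDn volume ((P.mu (Y.wd c)).restrict (Y.S c)) (P.bs (Y.wd c)) (ℓ' c ∘ Y.k2nBack c) x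
        ∈ Set.Ioi (ENNReal.ofReal (2 * n * X * hi))})
      ≤ P.om (Y.wd c) * (2 * P.mu (Y.wd c) (Y.S c ∩ {x | ENNReal.ofReal hi < k2aDn volume (P.mu (Y.wd c)) (P.bs (Y.wd c)) (ℓ (Y.wd c)) x})) :=
        mul_le_mul_right ((measure_mono h4).trans h3) _
    _ = 2 * (P.om (Y.wd c) * P.mu (Y.wd c) (P.above ℓ hi (Y.wd c) ∩ Y.S c)) := by
        rw [Set.inter_comm]
        have : P.above ℓ hi (Y.wd c) = {x | ENNReal.ofReal hi < k2aDn volume (P.mu (Y.wd c)) (P.bs (Y.wd c)) (ℓ (Y.wd c)) x} := rfl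
        rw [this]
        ring

/-- **joint ceiling**  (`k2n_norm_above_gen`, `k2n_hv_cover`; `2 * 3 * (⌈K⌉₊+2)^j ≤ 96 K²`, `above` is antitone in the threshold) -/
theorem k2n_norm_above (hP : P.WF) (hY : Y.WF) (a a' b K X hi : ℝ) (ha : 0 < a) (ha' : 0 < a') (hb : 0 < b) (hK : 1 ≤ K) (hX : 0 ≤ X) (hhi : 0 ≤ hi)
    (hG : Y.Geo K a) (hν : ∀ c, Y.nuC c ≠ 0) (hZ : Y.Z ≠ 0) (hJ : ∀ c, ENNReal.ofReal (Y.ch c).J ≤ ENNReal.ofReal X * Y.nuC c) :
    (Y.norm a).mass ((Y.norm a).above ((Y.norm a).hv a' b) (96 * K ^ 2 * X * hi)) ≤ 2 * P.mass (P.above (P.hv (a * a') b) hi) / Y.Z := by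
  have hWF := Y.k2n_norm_WF hP hY a ha hν hZ
  have key := Y.k2n_norm_above_gen hP hY a X hi ha hX hhi hν hZ hJ (P.hv (a * a') b) (k2a_hv_meas hP _ _) ((Y.norm a).hv a' b) (k2a_hv_meas hWF _ _)
    (3 * (⌈K⌉₊ + 2) ^ v.j) fun c => by
      obtain ⟨Lst, h1, h2, h3⟩ := Y.k2n_hv_cover hP a a' b K ha ha' hb c (hY.adm c) (hY.inv c) (hG.size c)
      exact ⟨Lst, h1, h2, fun x _ => h3 x⟩
  refine le_trans (k2a_mass_mono fun c x hx => ?_) key
  have hx' : ENNReal.ofReal (96 * K ^ 2 * X * hi) < (Y.norm a).dn ((Y.norm a).hv a' b) c x := hx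
  refine lt_of_le_of_lt (ENNReal.ofReal_le_ofReal ?_) hx'
  push_cast
  have h1 : (⌈K⌉₊ : ℝ) ≤ K + 1 := (Nat.ceil_lt_add_one (by linarith)).le
  have h0 : (0 : ℝ) ≤ ⌈K⌉₊ := Nat.cast_nonneg _
  have h2 : ((⌈K⌉₊ : ℝ) + 2) ^ v.j ≤ ((⌈K⌉₊ : ℝ) + 2) ^ 2 := pow_le_pow_right₀ (by linarith) k2n_j_le_two
  have h3 : ((⌈K⌉₊ : ℝ) + 2) ^ 2 ≤ (4 * K) ^ 2 := pow_le_pow_left₀ (by positivity) (by linarith) 2
  have h4 : 2 * (3 * ((⌈K⌉₊ : ℝ) + 2) ^ v.j) ≤ 96 * K ^ 2 := by nlinarith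
  have h5 : 0 ≤ X * hi := mul_nonneg hX hhi
  calc 2 * (3 * ((⌈K⌉₊ : ℝ) + 2) ^ v.j) * X * hi = 2 * (3 * ((⌈K⌉₊ : ℝ) + 2) ^ v.j) * (X * hi) := by ring
    _ ≤ 96 * K ^ 2 * (X * hi) := mul_le_mul_of_nonneg_right h4 h5
    _ = 96 * K ^ 2 * X * hi := by ring

/-- **pure ceiling** (2.19)  (`k2n_norm_above_gen`, `k2n_hid_cover`) -/
theorem k2n_norm_above_hid (hP : P.WF) (hY : Y.WF) (a a' X hi : ℝ) (ha : 0 < a) (ha' : 0 < a') (hX : 0 ≤ X) (hhi : 0 ≤ hi)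
    (hν : ∀ c, Y.nuC c ≠ 0) (hZ : Y.Z ≠ 0) (hJ : ∀ c, ENNReal.ofReal (Y.ch c).J ≤ ENNReal.ofReal X * Y.nuC c) :
    (Y.norm a).mass ((Y.norm a).above ((Y.norm a).hid a') (6 * X * hi)) ≤ 2 * P.mass (P.above (P.hid (a * a')) hi) / Y.Z := by
  have hWF := Y.k2n_norm_WF hP hY a ha hν hZ
  have key := Y.k2n_norm_above_gen hP hY a X hi ha hX hhi hν hZ hJ (P.hid (a * a')) (k2a_hid_meas hP _) ((Y.norm a).hid a') (k2a_hid_meas hWF _)
    3 fun c => by
      obtain ⟨Lst, h1, h2, h3⟩ := Y.k2n_hid_cover hP a a' ha ha' c (hY.adm c)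
      exact ⟨Lst, h1, h2, fun x _ => h3 x⟩
  have e : (2 * ((3 : ℕ) : ℝ) * X * hi) = 6 * X * hi := by
    push_cast
    ring
  rw [e] at key
  exact key

/-! ## L-252-NORM-N4 : floors  ((2.18) and the equality case of (2.19)) -/

/-- the factor `X ≤ J_c / ν_c` -/
theorem k2n_le_ratio (hP : P.WF) {X : ℝ} (c : Y.C) (hν : Y.nuC c ≠ 0) (hJ : ENNReal.ofReal X * Y.nuC c ≤ ENNReal.ofReal (Y.ch c).J) :
    ENNReal.ofReal X ≤ ENNReal.ofReal (Y.ch c).J / Y.nuC c :=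
  (ENNReal.le_div_iff_mul_le (Or.inl hν) (Or.inl (Y.k2n_nuC_ne_top hP c))).2 hJ

/-- **general floor.**  In every world the pair (chart, new label) lies in a list of size `≤ n` determined by the old label and the exact base; `X ≤ J_c / ν_c`.
Outside the old exceptional mass plus `n ε` (divided by `Z`) the new density is `≥ ε X lo`.      (`k2n_norm_mass_dn`, `k2n_floor` in every world with `S c := ∅` for the charts of the other worlds.) -/
theorem k2n_norm_below_gen {D D' : Type} [Countable D] [Countable D'] (hP : P.WF) (hY : Y.WF) (a X ε lo : ℝ) (ha : 0 < a) (hX : 0 ≤ X) (hε : 0 ≤ ε) (hlo : 0 ≤ lo)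
    (hν : ∀ c, Y.nuC c ≠ 0) (hZ : Y.Z ≠ 0) (hJ : ∀ c, ENNReal.ofReal X * Y.nuC c ≤ ENNReal.ofReal (Y.ch c).J)
    (ℓ : P.Lab D) (hℓ : P.LabMeas ℓ) (ℓ' : (Y.norm a).Lab D') (hℓ' : (Y.norm a).LabMeas ℓ') (n : ℕ)
    (hL : ∀ γ, ∃ Lst : D → ℝ × KbB v → Finset (Y.C × D'), (∀ d o, (Lst d o).card ≤ n) ∧ (∀ d p, MeasurableSet {o | p ∈ Lst d o}) ∧
      ∀ c, Y.wd c = γ → ∀ x ∈ Y.S c, (c, ℓ' c (Y.k2nBack c x)) ∈ Lst (ℓ γ x) (P.bs γ x)) :
    (Y.norm a).mass ((Y.norm a).below ℓ' (ε * X * lo)) ≤ (P.mass (P.below ℓ lo) + ENNReal.ofReal (n * ε) * P.tot) / Y.Z := by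
  classical
  have hWF := Y.k2n_norm_WF hP hY a ha hν hZ
  have h1 := Y.k2n_norm_mass_dn hP hY a hν ℓ' hℓ' hWF (Set.Iio (ENNReal.ofReal (ε * X * lo))) measurableSet_Iio
  refine (le_of_eq h1).trans (ENNReal.div_le_div_right ?_ _)
  -- the world-wise quantity
  let S' : P.W → Y.C → Set (P.Lam × ℝ) := fun γ c => if Y.wd c = γ then Y.S c else ∅
  let G : P.W → Y.C → ℝ≥0∞ := fun γ c => P.mu γ (S' γ c ∩ {x | k2aDn volume ((P.mu γ).restrict (S' γ c)) (P.bs γ) (ℓ' c ∘ Y.k2nBack c) x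
    < ENNReal.ofReal ε * ENNReal.ofReal lo})
  have hG0 : ∀ γ c, Y.wd c ≠ γ → G γ c = 0 := by
    intro γ c h
    have : S' γ c = ∅ := if_neg h
    simp only [G, this, Set.empty_inter, measure_empty]
  have hstep : ∀ c, P.om (Y.wd c) * P.mu (Y.wd c) (Y.S c ∩ {x | ENNReal.ofReal (Y.ch c).J / Y.nuC c
      * k2aDn volume ((P.mu (Y.wd c)).restrict (Y.S c)) (P.bs (Y.wd c)) (ℓ' c ∘ Y.k2nBack c) x ∈ Set.Iio (ENNReal.ofReal (ε * X * lo))})
      ≤ ∑ γ, P.om γ * G γ c := by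
    intro c
    rw [Finset.sum_eq_single (Y.wd c) (fun γ _ h => by rw [hG0 γ c h.symm, mul_zero]) (fun h => absurd (Finset.mem_univ _) h)]
    refine mul_le_mul_right (measure_mono ?_) _
    have hS : S' (Y.wd c) c = Y.S c := if_pos rfl
    rw [hS]
    intro x hx
    refine ⟨hx.1, ?_⟩
    have hx2 : ENNReal.ofReal (Y.ch c).J / Y.nuC c * k2aDn volume ((P.mu (Y.wd c)).restrict (Y.S c)) (P.bs (Y.wd c)) (ℓ' c ∘ Y.k2nBack c) x
      < ENNReal.ofReal (ε * X * lo) := hx.2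
    by_contra hcon
    have hcon' : ENNReal.ofReal ε * ENNReal.ofReal lo ≤ k2aDn volume ((P.mu (Y.wd c)).restrict (Y.S c)) (P.bs (Y.wd c)) (ℓ' c ∘ Y.k2nBack c) x := not_lt.1 hcon
    have h5 : ENNReal.ofReal X * (ENNReal.ofReal ε * ENNReal.ofReal lo) ≤ ENNReal.ofReal (Y.ch c).J / Y.nuC c
        * k2aDn volume ((P.mu (Y.wd c)).restrict (Y.S c)) (P.bs (Y.wd c)) (ℓ' c ∘ Y.k2nBack c) x := mul_le_mul' (Y.k2n_le_ratio hP c (hν c) (hJ c)) hcon'
    have h6 : ENNReal.ofReal X * (ENNReal.ofReal ε * ENNReal.ofReal lo) = ENNReal.ofReal (ε * X * lo) := by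
      have e : ε * X * lo = X * (ε * lo) := by ring
      rw [e, ENNReal.ofReal_mul hX, ENNReal.ofReal_mul hε]
    exact absurd ((h6.symm.le.trans h5).trans_lt hx2) (lt_irrefl _)
  have hworld : ∀ γ, ∑ c, G γ c ≤ P.mu γ (P.below ℓ lo γ) + ENNReal.ofReal ε * n * P.mu γ Set.univ := by
    intro γ
    obtain ⟨Lst, hcard, hmeas, hmem⟩ := hL γ
    exact k2n_floor (k2a_fr hP γ) (hℓ γ) (fun c => Y.k2n_lab_back a c ℓ' hℓ') (S := S' γ)
      (fun c => by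
        by_cases h : Y.wd c = γ
        · have : S' γ c = Y.S c := if_pos h
          rw [this]; exact hY.S_meas c
        · have : S' γ c = ∅ := if_neg h
          rw [this]; exact MeasurableSet.empty)
      Lst n hcard hmeas
      (fun c x hx => by
        by_cases h : Y.wd c = γ
        · have e : S' γ c = Y.S c := if_pos h
          rw [e] at hx
          exact hmem c h x hx
        · have e : S' γ c = ∅ := if_neg h
          rw [e] at hx
          exact absurd hx (Set.notMem_empty x))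
      (fun c c' hcc => by
        by_cases h : Y.wd c = γ
        · by_cases h' : Y.wd c' = γ
          · have e : S' γ c = Y.S c := if_pos h
            have e' : S' γ c' = Y.S c' := if_pos h'
            rw [e, e']
            exact Y.k2n_S_disj hY c c' hcc (h.trans h'.symm)
          · have e' : S' γ c' = ∅ := if_neg h'
            rw [e']; exact Set.disjoint_empty _
        · have e : S' γ c = ∅ := if_neg h
          rw [e]; exact Set.empty_disjoint _)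
      (ENNReal.ofReal ε) (ENNReal.ofReal lo)
  calc ∑ c, P.om (Y.wd c) * P.mu (Y.wd c) (Y.S c ∩ {x | ENNReal.ofReal (Y.ch c).J / Y.nuC c
      * k2aDn volume ((P.mu (Y.wd c)).restrict (Y.S c)) (P.bs (Y.wd c)) (ℓ' c ∘ Y.k2nBack c) x ∈ Set.Iio (ENNReal.ofReal (ε * X * lo))})
      ≤ ∑ c, ∑ γ, P.om γ * G γ c := Finset.sum_le_sum fun c _ => hstep c
    _ = ∑ γ, P.om γ * ∑ c, G γ c := by
        rw [Finset.sum_comm]
        exact Finset.sum_congr rfl fun γ _ => (Finset.mul_sum _ _ _).symm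
    _ ≤ ∑ γ, P.om γ * (P.mu γ (P.below ℓ lo γ) + ENNReal.ofReal ε * n * P.mu γ Set.univ) := Finset.sum_le_sum fun γ _ => mul_le_mul_right (hworld γ) _
    _ = P.mass (P.below ℓ lo) + ENNReal.ofReal (n * ε) * P.tot := by
        unfold KbPb.tot KbPb.mass
        rw [Finset.mul_sum, ← Finset.sum_add_distrib]
        refine Finset.sum_congr rfl fun γ _ => ?_
        rw [ENNReal.ofReal_mul (by positivity), ENNReal.ofReal_natCast]
        ring

/-- the pair (chart, new hidden bin) is known by the old observation `p_{r+s}` up to lists of size `3 K` -/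
theorem k2n_known_pair (hP : P.WF) (hY : Y.WF) (a a' K : ℝ) (ha : 0 < a) (ha' : 0 < a') (hKn : Y.Known (P.hid (a * a')) K) (γ : P.W) :
    ∃ Lst : ℤ → ℝ × KbB v → Finset (Y.C × ℤ), (∀ d o, ((Lst d o).card : ℝ) ≤ 3 * K) ∧ (∀ d p, MeasurableSet {o | p ∈ Lst d o}) ∧
      ∀ c, Y.wd c = γ → ∀ x ∈ Y.S c, (c, (Y.norm a).hid a' c (Y.k2nBack c x)) ∈ Lst (P.hid (a * a') γ x) (P.bs γ x) := by
  classical
  obtain ⟨L0, hc0, hm0, hmem0⟩ := hKn
  choose Λ hΛc hΛm hΛmem using fun c => Y.k2n_hid_cover' hP a a' ha ha' c (hY.adm c)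
  refine ⟨fun d o => (L0 γ d o).biUnion fun c => (Λ c d o).image fun e => (c, e), fun d o => ?_, fun d p => ?_, fun c hc x hx => ?_⟩
  · have h1 : ((L0 γ d o).biUnion fun c => (Λ c d o).image fun e => (c, e)).card ≤ (L0 γ d o).card * 3 :=
      Finset.card_biUnion_le_card_mul _ _ _ fun c _ => Finset.card_image_le.trans (hΛc c d o)
    have h2 : (((L0 γ d o).biUnion fun c => (Λ c d o).image fun e => (c, e)).card : ℝ) ≤ ((L0 γ d o).card : ℝ) * 3 := by exact_mod_cast h1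
    have h3 := hc0 γ d o
    linarith
  · have e : {o | p ∈ (L0 γ d o).biUnion fun c => (Λ c d o).image fun e => (c, e)} = {o | p.1 ∈ L0 γ d o} ∩ {o | p.2 ∈ Λ p.1 d o} := by
      ext o
      simp only [Set.mem_ofPred_eq, Finset.mem_biUnion, Finset.mem_image, Set.mem_inter_iff]
      constructor
      · rintro ⟨c, hc, e, he, rfl⟩
        exact ⟨hc, he⟩
      · rintro ⟨h1, h2⟩
        exact ⟨p.1, h1, p.2, h2, rfl⟩
    rw [e]
    exact (hm0 γ d p.1).inter (hΛm p.1 d p.2)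
  · subst hc
    rw [Finset.mem_biUnion]
    exact ⟨c, hmem0 c x hx, Finset.mem_image.2 ⟨_, hΛmem c x, rfl⟩⟩

/-- **floor**  (`k2n_norm_below_gen` with `n = ⌊3 K⌋₊`, `k2n_known_pair`) -/
theorem k2n_norm_below (hP : P.WF) (hY : Y.WF) (a a' K X ε lo : ℝ) (ha : 0 < a) (ha' : 0 < a') (hK : 1 ≤ K) (hX : 0 ≤ X) (hε : 0 ≤ ε) (hlo : 0 ≤ lo)
    (hKn : Y.Known (P.hid (a * a')) K) (hν : ∀ c, Y.nuC c ≠ 0) (hZ : Y.Z ≠ 0) (hJ : ∀ c, ENNReal.ofReal X * Y.nuC c ≤ ENNReal.ofReal (Y.ch c).J) :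
    (Y.norm a).mass ((Y.norm a).below ((Y.norm a).hid a') (ε * X * lo))
      ≤ (P.mass (P.below (P.hid (a * a')) lo) + ENNReal.ofReal (3 * K * ε) * P.tot) / Y.Z := by
  have hWF := Y.k2n_norm_WF hP hY a ha hν hZ
  have key := Y.k2n_norm_below_gen hP hY a X ε lo ha hX hε hlo hν hZ hJ (P.hid (a * a')) (k2a_hid_meas hP _) ((Y.norm a).hid a') (k2a_hid_meas hWF _)
    ⌊3 * K⌋₊ fun γ => by
      obtain ⟨Lst, h1, h2, h3⟩ := Y.k2n_known_pair hP hY a a' K ha ha' hKn γ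
      exact ⟨Lst, fun d o => Nat.le_floor (h1 d o), h2, h3⟩
  refine key.trans (ENNReal.div_le_div_right ?_ _)
  gcongr
  exact Nat.floor_le (by linarith)

/-! ## L-252-NORM-N5 : label knowledge composes (04 l.255-257) -/

/-- lists: `⋃_{c ∈ Lst γ b o} ⋃_{b' ∈ Λ_c b o} Lst' c b' (Ψ_c o)` with `Λ_c` from `k2n_hid_cover'`; `x ∈ (lift).S d → x ∈ Y.S c` (`k2n_lift_S_sub`), `k2n_bs_back` -/
theorem k2n_lift_Known (hP : P.WF) (hY : Y.WF) (a a' K K' : ℝ) (ha : 0 < a) (ha' : 0 < a') (hK : 0 ≤ K) (hK' : 0 ≤ K') (Y' : KbSys (Y.norm a)) (hY' : Y'.WF)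
    (hKn : Y.Known (P.hid (a * a')) K) (hKn' : Y'.Known ((Y.norm a).hid a') K') : (Y.lift a Y').Known (P.hid (a * a')) (3 * K * K') := by
  classical
  obtain ⟨L0, hc0, hm0, hmem0⟩ := hKn
  obtain ⟨L1, hc1, hm1, hmem1⟩ := hKn'
  choose Λ hΛc hΛm hΛmem using fun c => Y.k2n_hid_cover' hP a a' ha ha' c (hY.adm c)
  let Lst : P.W → ℤ → ℝ × KbB v → Finset Y'.C := fun γ b o => (L0 γ b o).biUnion fun c => (Λ c b o).biUnion fun b' => L1 c b' (Y.k2nPsi c o)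
  have hmemL : ∀ γ b o (d : Y'.C), d ∈ Lst γ b o ↔ ∃ c ∈ L0 γ b o, ∃ b' ∈ Λ c b o, d ∈ L1 c b' (Y.k2nPsi c o) := by
    intro γ b o d
    simp only [Lst, Finset.mem_biUnion]
  have hcardL : ∀ γ b o, ((Lst γ b o).card : ℝ) ≤ 3 * K * K' := by
    intro γ b o
    have h1 : (Lst γ b o).card ≤ (L0 γ b o).card * (3 * ⌊K'⌋₊) :=
      Finset.card_biUnion_le_card_mul _ _ _ fun c _ =>
        (Finset.card_biUnion_le_card_mul _ _ _ fun b' _ => Nat.le_floor (hc1 c b' (Y.k2nPsi c o))).trans (Nat.mul_le_mul_right _ (hΛc c b o))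
    have h2 : ((Lst γ b o).card : ℝ) ≤ ((L0 γ b o).card : ℝ) * (3 * (⌊K'⌋₊ : ℝ)) := by exact_mod_cast h1
    have h3 := hc0 γ b o
    have h4 : (⌊K'⌋₊ : ℝ) ≤ K' := Nat.floor_le hK'
    have h5 : (0 : ℝ) ≤ (⌊K'⌋₊ : ℝ) := Nat.cast_nonneg _
    calc ((Lst γ b o).card : ℝ) ≤ ((L0 γ b o).card : ℝ) * (3 * (⌊K'⌋₊ : ℝ)) := h2
      _ ≤ K * (3 * K') := mul_le_mul h3 (by linarith) (by positivity) hK
      _ = 3 * K * K' := by ring
  have hmeasL : ∀ γ b (d : Y'.C), MeasurableSet {o | d ∈ Lst γ b o} := by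
    intro γ b d
    have e : {o | d ∈ Lst γ b o} = ⋃ c : Y.C, ⋃ b' : ℤ, ({o | c ∈ L0 γ b o} ∩ {o | b' ∈ Λ c b o}) ∩ Y.k2nPsi c ⁻¹' {o' | d ∈ L1 c b' o'} := by
      ext o
      simp only [Set.mem_ofPred_eq, hmemL, Set.mem_iUnion, Set.mem_inter_iff, Set.mem_preimage]
      constructor
      · rintro ⟨c, hc, b', hb', hd⟩
        exact ⟨c, b', ⟨hc, hb'⟩, hd⟩
      · rintro ⟨c, b', ⟨hc, hb'⟩, hd⟩
        exact ⟨c, hc, b', hb', hd⟩
    rw [e]
    exact MeasurableSet.iUnion fun c => MeasurableSet.iUnion fun b' => ((hm0 γ b c).inter (hΛm c b b')).inter ((Y.k2n_Psi_meas c) (hm1 c b' d))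
  refine ⟨Lst, hcardL, hmeasL, fun d x hx => ?_⟩
  · have hxS : x ∈ Y.S (Y'.wd d) := Y.k2n_lift_S_sub a Y' hY' d hx
    have hx' : Y.k2nBack (Y'.wd d) x ∈ Y'.S d := hx
    have h1 := hmem0 (Y'.wd d) x hxS
    have h2 := hΛmem (Y'.wd d) x
    have h3 := hmem1 d (Y.k2nBack (Y'.wd d) x) hx'
    have h4 : (Y.norm a).bs (Y'.wd d) (Y.k2nBack (Y'.wd d) x) = Y.k2nPsi (Y'.wd d) (P.bs (Y.wd (Y'.wd d)) x) := Y.k2n_bs_back a (Y'.wd d) x
    have h5 : d ∈ L1 (Y'.wd d) ((Y.norm a).hid a' (Y'.wd d) (Y.k2nBack (Y'.wd d) x)) (Y.k2nPsi (Y'.wd d) (P.bs (Y.wd (Y'.wd d)) x)) := h4 ▸ h3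
    exact (hmemL _ _ _ d).2 ⟨Y'.wd d, h1, _, h2, h5⟩

end KbSys

end

end Claimed.Agent.R252
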