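import Claimed.Agent.R252.Norm.Tests

/-!
# ROW 252 (S0492), unit NORM (post BP-252-S2aC, sub-architect helper22), file 4: MASSES OF `Y.norm a` AND `Y.lift a Y'`  (02-framework.tex l.690-711, 806-813).
CONTRACT file: every `sorry` is a leaf `L-252-NORM-M*`.  Exact identities between `ℝ≥0∞`-valued masses at ONE scale.  Prefix `k2n_`.
`γ = Y.wd c`, `q = Y.q`, `ν_c = Y.nuC c`, `m_c = Y.mC c`.  The only analytic input is the affine change of the time variable `t = t_c + q τ`.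
NO hypothesis `ν_c ≠ 0`: if `ν_c = 0` then `(Y.norm a).nu c = ∞ • 0 = 0`, `m_c = 0` and both sides vanish (`by_cases`).
-/

set_option autoImplicit false

namespace Claimed.Agent.R252

open MeasureTheory
open scoped ENNReal BigOperators

noncomputable section

variable {v : KbVer}

/-- two different intervals of one dyadic partition are disjoint -/
theorem k2n_kbI_disj (n i i' : ℕ) (h : i ≠ i') : Disjoint (kbI n i) (kbI n i') := by
  have hq := k2n_kbQ_pos n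
  rw [Set.disjoint_left]
  intro t ht ht'
  unfold kbI at ht ht'
  rcases lt_or_gt_of_ne h with h1 | h1
  · have h2 : ((i : ℝ) + 1) ≤ i' := by exact_mod_cast h1
    have h3 : ((i : ℝ) + 1) * kbQ n ≤ (i' : ℝ) * kbQ n := mul_le_mul_of_nonneg_right h2 hq.le
    linarith [ht.2, ht'.1]
  · have h2 : ((i' : ℝ) + 1) ≤ i := by exact_mod_cast h1
    have h3 : ((i' : ℝ) + 1) * kbQ n ≤ (i : ℝ) * kbQ n := mul_le_mul_of_nonneg_right h2 hq.le
    linarith [ht'.2, ht.1]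

theorem k2n_kbI_vol (n i : ℕ) : volume (kbI n i) = ENNReal.ofReal (kbQ n) := by
  unfold kbI
  rw [Real.volume_Ico]
  congr 1
  ring

namespace KbSys

variable {P : KbPb v} (Y : KbSys P)

/-- the new incidence of an old incidence -/
def k2nBack (c : Y.C) (x : P.Lam × ℝ) : P.Lam × ℝ := (x.1, Y.tauOf c x.2)

theorem k2n_back_inc (c : Y.C) (x : P.Lam × ℝ) : Y.k2nBack c (Y.incOf c x) = x := by
  unfold k2nBack incOf
  simp [k2n_tauOf_tOf]

theorem k2n_inc_back (c : Y.C) (x : P.Lam × ℝ) : Y.incOf c (Y.k2nBack c x) = x := by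
  unfold k2nBack incOf
  simp [k2n_tOf_tauOf]

theorem k2n_inc_meas (c : Y.C) : Measurable (Y.incOf c) := by
  unfold incOf tOf
  fun_prop

theorem k2n_back_meas (c : Y.C) : Measurable (Y.k2nBack c) := by
  unfold k2nBack tauOf
  fun_prop

/-! ## L-252-NORM-M1 : budgets of a chart system -/

theorem k2n_nuC_le_one (hP : P.WF) (c : Y.C) : Y.nuC c ≤ 1 := by
  have := hP.prob (Y.wd c)
  exact prob_le_one

theorem k2n_nuC_ne_top (hP : P.WF) (c : Y.C) : Y.nuC c ≠ ∞ :=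
  ne_top_of_le_ne_top ENNReal.one_ne_top (Y.k2n_nuC_le_one hP c)

/-- selections of different charts of one world are disjoint -/
theorem k2n_S_disj (hY : Y.WF) (c c' : Y.C) (hc : c ≠ c') (hw : Y.wd c = Y.wd c') : Disjoint (Y.S c) (Y.S c') := by
  rw [Set.disjoint_left]
  intro x hx hx'
  have h1 := (hY.S_sub c hx).2
  have h2 := (hY.S_sub c' hx').2
  by_cases hi : Y.iv c = Y.iv c'
  · exact Set.disjoint_left.mp (hY.A_disj c c' hc hw hi) h1.1 h2.1
  · exact Set.disjoint_left.mp (k2n_kbI_disj Y.n _ _ hi) h1.2 h2.2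

/-- `m_c ≤ q ν_c` (02 l.440) -/
theorem k2n_mC_le (hP : P.WF) (hY : Y.WF) (c : Y.C) : Y.mC c ≤ ENNReal.ofReal Y.q * Y.nuC c := by
  have := hP.prob (Y.wd c)
  have : SFinite (KbPb.tm) := by unfold KbPb.tm; infer_instance
  unfold mC KbPb.mu
  calc ((P.nu (Y.wd c)).prod KbPb.tm).restrict (P.Ev (Y.wd c)) (Y.S c)
      ≤ ((P.nu (Y.wd c)).prod KbPb.tm) (Y.S c) := Measure.restrict_apply_le _ _
    _ ≤ ((P.nu (Y.wd c)).prod KbPb.tm) (Y.A c ×ˢ Y.I c) := measure_mono fun x hx => (hY.S_sub c hx).2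
    _ = P.nu (Y.wd c) (Y.A c) * KbPb.tm (Y.I c) := Measure.prod_prod _ _
    _ ≤ P.nu (Y.wd c) (Y.A c) * volume (Y.I c) := by
        gcongr
        exact Measure.restrict_le_self
    _ = ENNReal.ofReal Y.q * Y.nuC c := by
        rw [mul_comm]
        congr 1
        exact k2n_kbI_vol _ _

/-- `∑ ω q ν_c ≤ 1` (02 l.441): inside one world and one interval the assignments are disjoint, there are `2^n` intervals, `q = 2^{-n}` -/
theorem k2n_Z_le_one (hP : P.WF) (hY : Y.WF) : Y.Z ≤ 1 := by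
  classical
  unfold Z
  have hmaps : ∀ c ∈ (Finset.univ : Finset Y.C), (Y.wd c, Y.iv c) ∈ (Finset.univ : Finset P.W) ×ˢ Finset.range (2 ^ Y.n) := by
    intro c _
    simp [hY.iv_lt c]
  rw [← Finset.sum_fiberwise_of_maps_to hmaps]
  have hfib : ∀ p ∈ (Finset.univ : Finset P.W) ×ˢ Finset.range (2 ^ Y.n),
      ∑ c ∈ Finset.univ.filter (fun c => (Y.wd c, Y.iv c) = p), P.om (Y.wd c) * ENNReal.ofReal Y.q * Y.nuC c
        ≤ P.om p.1 * ENNReal.ofReal Y.q := by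
    rintro ⟨γ, i⟩ _
    have := hP.prob γ
    have h1 : ∑ c ∈ Finset.univ.filter (fun c => (Y.wd c, Y.iv c) = (γ, i)), P.om (Y.wd c) * ENNReal.ofReal Y.q * Y.nuC c
        = ∑ c ∈ Finset.univ.filter (fun c => (Y.wd c, Y.iv c) = (γ, i)), P.om γ * ENNReal.ofReal Y.q * P.nu γ (Y.A c) := by
      refine Finset.sum_congr rfl fun c hc => ?_
      have hc' : Y.wd c = γ := by
        have := (Finset.mem_filter.mp hc).2
        exact (Prod.mk.inj this).1
      unfold nuC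
      rw [hc']
    rw [h1, ← Finset.mul_sum]
    have h2 : ∑ c ∈ Finset.univ.filter (fun c => (Y.wd c, Y.iv c) = (γ, i)), P.nu γ (Y.A c) ≤ 1 := by
      rw [← measure_biUnion_finset]
      · exact prob_le_one
      · intro c hc c' hc' hne
        have e1 := Prod.mk.inj (Finset.mem_filter.mp hc).2
        have e2 := Prod.mk.inj (Finset.mem_filter.mp hc').2
        exact hY.A_disj c c' hne (e1.1.trans e2.1.symm) (e1.2.trans e2.2.symm)
      · intro c _
        exact hY.A_meas c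
    calc P.om γ * ENNReal.ofReal Y.q * ∑ c ∈ Finset.univ.filter (fun c => (Y.wd c, Y.iv c) = (γ, i)), P.nu γ (Y.A c)
        ≤ P.om γ * ENNReal.ofReal Y.q * 1 := by gcongr
      _ = P.om γ * ENNReal.ofReal Y.q := mul_one _
  refine (Finset.sum_le_sum hfib).trans ?_
  rw [Finset.sum_product]
  simp only [Finset.sum_const, Finset.card_range, nsmul_eq_mul]
  have h3 : ((2 ^ Y.n : ℕ) : ℝ≥0∞) * ENNReal.ofReal Y.q = 1 := by
    have : ((2 ^ Y.n : ℕ) : ℝ≥0∞) = ENNReal.ofReal (2 ^ Y.n) := by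
      rw [← ENNReal.ofReal_natCast]
      push_cast
      rfl
    rw [this, ← ENNReal.ofReal_mul (by positivity), mul_comm]
    have : Y.q * 2 ^ Y.n = 1 := k2n_kbQ_mul_two_pow _
    rw [this, ENNReal.ofReal_one]
  have h4 : ∀ γ : P.W, ((2 ^ Y.n : ℕ) : ℝ≥0∞) * (P.om γ * ENNReal.ofReal Y.q) = P.om γ := by
    intro γ
    rw [mul_left_comm, h3, mul_one]
  simp only [h4]
  exact hP.om_sum.le

theorem k2n_mass_le_Z (hP : P.WF) (hY : Y.WF) : Y.mass ≤ Y.Z := by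
  unfold mass Z
  refine Finset.sum_le_sum fun c _ => ?_
  rw [mul_assoc]
  exact mul_le_mul_right (Y.k2n_mC_le hP hY c) _

/-- the selected mass of a system is at most the mass of the problem on the union of the selections -/
theorem k2n_sum_le_mass (hP : P.WF) (hY : Y.WF) (U : P.W → Set (P.Lam × ℝ)) (hU : ∀ γ, MeasurableSet (U γ)) :
    ∑ c, P.om (Y.wd c) * P.mu (Y.wd c) (U (Y.wd c) ∩ Y.S c) ≤ P.mass U := by
  classical
  unfold KbPb.mass
  rw [← Finset.sum_fiberwise (Finset.univ : Finset Y.C) Y.wd]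
  refine Finset.sum_le_sum fun γ _ => ?_
  have h1 : ∑ c ∈ Finset.univ.filter (fun c => Y.wd c = γ), P.om (Y.wd c) * P.mu (Y.wd c) (U (Y.wd c) ∩ Y.S c)
      = ∑ c ∈ Finset.univ.filter (fun c => Y.wd c = γ), P.om γ * P.mu γ (U γ ∩ Y.S c) := by
    refine Finset.sum_congr rfl fun c hc => ?_
    rw [(Finset.mem_filter.mp hc).2]
  rw [h1, ← Finset.mul_sum]
  gcongr
  rw [← measure_biUnion_finset]
  · refine measure_mono ?_
    intro x hx
    simp only [Set.mem_iUnion] at hx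
    obtain ⟨c, _, hx⟩ := hx
    exact hx.1
  · intro c hc c' hc' hne
    have e1 := (Finset.mem_filter.mp hc).2
    have e2 := (Finset.mem_filter.mp hc').2
    exact (Y.k2n_S_disj hY c c' hne (e1.trans e2.symm)).mono Set.inter_subset_right Set.inter_subset_right
  · intro c _
    exact (hU γ).inter (hY.S_meas c)

/-! ## L-252-NORM-M2 : the new selected measure -/

/-- Lebesgue measure under the affine change of time -/
theorem k2n_vol_map_tauOf (c : Y.C) : (volume : Measure ℝ).map (Y.tauOf c) = ENNReal.ofReal Y.q • volume := by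
  have hq := Y.k2n_q_pos
  have h1 : Y.tauOf c = (fun t => Y.q⁻¹ * t) ∘ (fun t => t - Y.tc c) := by
    funext t
    simp only [tauOf, Function.comp]
    rw [div_eq_inv_mul]
  rw [h1, ← Measure.map_map (by fun_prop) (by fun_prop), (measurePreserving_sub_right volume (Y.tc c)).map_eq,
    Real.map_volume_mul_left (inv_ne_zero hq.ne'), inv_inv, abs_of_pos hq]

/-- time measure of the interval of a chart under the affine change of time -/
theorem k2n_tm_map_tauOf (hY : Y.WF) (c : Y.C) :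
    (KbPb.tm.restrict (Y.I c)).map (Y.tauOf c) = ENNReal.ofReal Y.q • KbPb.tm := by
  have hm : Measurable (Y.tauOf c) := by unfold tauOf; fun_prop
  have h1 : KbPb.tm.restrict (Y.I c) = volume.restrict (Y.tauOf c ⁻¹' Set.Ico (0 : ℝ) 1) := by
    have h2 : Y.tauOf c ⁻¹' Set.Ico (0 : ℝ) 1 = Y.I c := by
      ext t
      rw [Set.mem_preimage, ← Y.k2n_tOf_mem_I c, k2n_tOf_tauOf]
    rw [h2]
    unfold KbPb.tm
    exact Measure.restrict_restrict_of_subset
      ((Y.k2n_I_sub c (hY.iv_lt c)).trans Set.Ico_subset_Icc_self)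
  rw [h1, ← Measure.restrict_map hm measurableSet_Ico, k2n_vol_map_tauOf, Measure.restrict_smul]
  congr 1
  unfold KbPb.tm
  exact Measure.restrict_congr_set Ico_ae_eq_Icc

/-- **the new selected measure is the push-forward of the old assigned selected measure divided by `q ν_c`** (02 l.704-706) -/
theorem k2n_mu_norm (hP : P.WF) (hY : Y.WF) (a : ℝ) (c : Y.C) :
    (Y.norm a).mu c = (ENNReal.ofReal Y.q * Y.nuC c)⁻¹ • ((P.mu (Y.wd c)).restrict (Y.S c)).map (Y.k2nBack c) := by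
  have hq := Y.k2n_q_pos
  have := hP.prob (Y.wd c)
  have : SFinite (KbPb.tm) := by unfold KbPb.tm; infer_instance
  have hm : Measurable (Y.tauOf c) := by unfold tauOf; fun_prop
  -- the common measure
  set M : Measure (P.Lam × ℝ) := (((P.nu (Y.wd c)).restrict (Y.A c)).prod KbPb.tm).restrict (Y.incOf c ⁻¹' Y.S c) with hM
  have hL : (Y.norm a).mu c = (Y.nuC c)⁻¹ • M := by
    change (((Y.nuC c)⁻¹ • (P.nu (Y.wd c)).restrict (Y.A c)).prod KbPb.tm).restrict (Y.incOf c ⁻¹' Y.S c) = _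
    rw [Measure.prod_smul_left, Measure.restrict_smul]
  have hR : ((P.mu (Y.wd c)).restrict (Y.S c)).map (Y.k2nBack c) = ENNReal.ofReal Y.q • M := by
    have h1 : (P.mu (Y.wd c)).restrict (Y.S c)
        = ((((P.nu (Y.wd c)).restrict (Y.A c)).prod (KbPb.tm.restrict (Y.I c)))).restrict (Y.k2nBack c ⁻¹' (Y.incOf c ⁻¹' Y.S c)) := by
      have h2 : Y.k2nBack c ⁻¹' (Y.incOf c ⁻¹' Y.S c) = Y.S c := by
        ext x
        simp only [Set.mem_preimage, k2n_inc_back]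
      rw [h2, Measure.prod_restrict]
      unfold KbPb.mu
      rw [Measure.restrict_restrict_of_subset fun x hx => (hY.S_sub c hx).1,
        Measure.restrict_restrict_of_subset fun x hx => (hY.S_sub c hx).2]
    rw [h1, ← Measure.restrict_map (Y.k2n_back_meas c) ((Y.k2n_inc_meas c) (hY.S_meas c))]
    have h3 : Y.k2nBack c = Prod.map id (Y.tauOf c) := rfl
    rw [h3, ← Measure.map_prod_map _ _ measurable_id hm, Measure.map_id, Y.k2n_tm_map_tauOf hY c,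
      Measure.prod_smul_right, Measure.restrict_smul]
  rw [hL, hR, smul_smul]
  by_cases hν : Y.nuC c = 0
  · have hM0 : M = 0 := by
      have : (P.nu (Y.wd c)).restrict (Y.A c) = 0 := Measure.restrict_eq_zero.mpr hν
      rw [hM, this, Measure.zero_prod, Measure.restrict_zero]
    rw [hM0, smul_zero, smul_zero]
  · congr 1
    have hq0 : ENNReal.ofReal Y.q ≠ 0 := by simpa using hq
    rw [ENNReal.mul_inv (Or.inl hq0) (Or.inl ENNReal.ofReal_ne_top), mul_right_comm,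
      ENNReal.inv_mul_cancel hq0 ENNReal.ofReal_ne_top, one_mul]

theorem k2n_mu_norm_apply (hP : P.WF) (hY : Y.WF) (a : ℝ) (c : Y.C) (U : Set (P.Lam × ℝ)) (hU : MeasurableSet U) :
    (Y.norm a).mu c (Y.incOf c ⁻¹' U) = (ENNReal.ofReal Y.q * Y.nuC c)⁻¹ * P.mu (Y.wd c) (U ∩ Y.S c) := by
  have key : ((ENNReal.ofReal Y.q * Y.nuC c)⁻¹ • ((P.mu (Y.wd c)).restrict (Y.S c)).map (Y.k2nBack c) : Measure (P.Lam × ℝ))
      (Y.incOf c ⁻¹' U) = (ENNReal.ofReal Y.q * Y.nuC c)⁻¹ * P.mu (Y.wd c) (U ∩ Y.S c) := by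
    rw [Measure.smul_apply, smul_eq_mul, Measure.map_apply (Y.k2n_back_meas c) ((Y.k2n_inc_meas c) hU)]
    have h2 : Y.k2nBack c ⁻¹' (Y.incOf c ⁻¹' U) = U := by
      ext x
      simp only [Set.mem_preimage, k2n_inc_back]
    rw [h2, Measure.restrict_apply hU]
  exact (DFunLike.congr_fun (Y.k2n_mu_norm hP hY a c) (Y.incOf c ⁻¹' U)).trans key

/-- the same for a set given in the new coordinates -/
theorem k2n_mu_norm_apply' (hP : P.WF) (hY : Y.WF) (a : ℝ) (c : Y.C) (U' : Set (P.Lam × ℝ)) (hU : MeasurableSet U') :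
    (Y.norm a).mu c U' = (ENNReal.ofReal Y.q * Y.nuC c)⁻¹ * P.mu (Y.wd c) (Y.k2nBack c ⁻¹' U' ∩ Y.S c) := by
  have key : ((ENNReal.ofReal Y.q * Y.nuC c)⁻¹ • ((P.mu (Y.wd c)).restrict (Y.S c)).map (Y.k2nBack c) : Measure (P.Lam × ℝ))
      U' = (ENNReal.ofReal Y.q * Y.nuC c)⁻¹ * P.mu (Y.wd c) (Y.k2nBack c ⁻¹' U' ∩ Y.S c) := by
    rw [Measure.smul_apply, smul_eq_mul, Measure.map_apply (Y.k2n_back_meas c) hU,
      Measure.restrict_apply ((Y.k2n_back_meas c) hU)]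
  exact (DFunLike.congr_fun (Y.k2n_mu_norm hP hY a c) U').trans key

/-! ## L-252-NORM-M3 : weights and weighted masses of the normalised problem -/

theorem k2n_Z_ne_top (hP : P.WF) (hY : Y.WF) : Y.Z ≠ ∞ :=
  ne_top_of_le_ne_top ENNReal.one_ne_top (Y.k2n_Z_le_one hP hY)

theorem k2n_q_ne_zero : ENNReal.ofReal Y.q ≠ 0 := by
  simpa using Y.k2n_q_pos

/-- the factor `q ν_c` cancels against its inverse in front of any mass carried by `S c` -/
theorem k2n_cancel (hP : P.WF) (hY : Y.WF) (c : Y.C) (U : Set (P.Lam × ℝ)) (hU : U ⊆ Y.S c) :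
    ENNReal.ofReal Y.q * Y.nuC c * ((ENNReal.ofReal Y.q * Y.nuC c)⁻¹ * P.mu (Y.wd c) U) = P.mu (Y.wd c) U := by
  by_cases hν : Y.nuC c = 0
  · have h1 : P.mu (Y.wd c) U = 0 := by
      have h2 : P.mu (Y.wd c) U ≤ ENNReal.ofReal Y.q * Y.nuC c := (measure_mono hU).trans (Y.k2n_mC_le hP hY c)
      rw [hν, mul_zero] at h2
      exact le_antisymm h2 zero_le
    rw [h1, mul_zero, mul_zero]
  · rw [← mul_assoc, ENNReal.mul_inv_cancel (mul_ne_zero Y.k2n_q_ne_zero hν)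
      (ENNReal.mul_ne_top ENNReal.ofReal_ne_top (Y.k2n_nuC_ne_top hP c)), one_mul]

theorem k2n_om_sum (hP : P.WF) (hY : Y.WF) (a : ℝ) (hZ : Y.Z ≠ 0) : ∑ c, (Y.norm a).om c = 1 := by
  change ∑ c : Y.C, P.om (Y.wd c) * ENNReal.ofReal Y.q * Y.nuC c / Y.Z = 1
  simp_rw [div_eq_mul_inv]
  rw [← Finset.sum_mul]
  exact ENNReal.mul_inv_cancel hZ (Y.k2n_Z_ne_top hP hY)

theorem k2n_nu_prob (hP : P.WF) (a : ℝ) (c : Y.C) (hν : Y.nuC c ≠ 0) : IsProbabilityMeasure ((Y.norm a).nu c) := by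
  constructor
  change ((Y.nuC c)⁻¹ • (P.nu (Y.wd c)).restrict (Y.A c)) Set.univ = 1
  rw [Measure.smul_apply, smul_eq_mul, Measure.restrict_apply MeasurableSet.univ, Set.univ_inter]
  exact ENNReal.inv_mul_cancel hν (Y.k2n_nuC_ne_top hP c)

/-- weighted masses: neither `q ν_c` nor the world weight survives, only `Z` (02 l.707, 768) -/
theorem k2n_norm_mass (hP : P.WF) (hY : Y.WF) (a : ℝ) (U' : Y.C → Set (P.Lam × ℝ)) (hU : ∀ c, MeasurableSet (U' c)) :
    (Y.norm a).mass U' = (∑ c, P.om (Y.wd c) * P.mu (Y.wd c) (Y.k2nBack c ⁻¹' U' c ∩ Y.S c)) / Y.Z := by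
  change ∑ c : Y.C, (P.om (Y.wd c) * ENNReal.ofReal Y.q * Y.nuC c / Y.Z) * (Y.norm a).mu c (U' c) = _
  rw [div_eq_mul_inv, Finset.sum_mul]
  refine Finset.sum_congr rfl fun c _ => ?_
  rw [Y.k2n_mu_norm_apply' hP hY a c (U' c) (hU c), div_eq_mul_inv]
  have h := Y.k2n_cancel hP hY c (Y.k2nBack c ⁻¹' U' c ∩ Y.S c) Set.inter_subset_right
  calc P.om (Y.wd c) * ENNReal.ofReal Y.q * Y.nuC c * (Y.Z)⁻¹ *
        ((ENNReal.ofReal Y.q * Y.nuC c)⁻¹ * P.mu (Y.wd c) (Y.k2nBack c ⁻¹' U' c ∩ Y.S c))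
      = P.om (Y.wd c) * (ENNReal.ofReal Y.q * Y.nuC c *
        ((ENNReal.ofReal Y.q * Y.nuC c)⁻¹ * P.mu (Y.wd c) (Y.k2nBack c ⁻¹' U' c ∩ Y.S c))) * (Y.Z)⁻¹ := by ring
    _ = _ := by rw [h]

theorem k2n_norm_tot (hP : P.WF) (hY : Y.WF) (a : ℝ) : (Y.norm a).tot = Y.mass / Y.Z := by
  have h := Y.k2n_norm_mass hP hY a (fun _ => Set.univ) (fun _ => MeasurableSet.univ)
  simp only [Set.preimage_univ, Set.univ_inter] at h
  exact h

/-- global exceptional masses are multiplied by at most `Z⁻¹` -/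
theorem k2n_norm_mass_le (hP : P.WF) (hY : Y.WF) (a : ℝ) (U : P.W → Set (P.Lam × ℝ)) (hU : ∀ γ, MeasurableSet (U γ)) :
    (Y.norm a).mass (fun c => Y.incOf c ⁻¹' U (Y.wd c)) ≤ P.mass U / Y.Z := by
  have h := Y.k2n_norm_mass hP hY a (fun c => Y.incOf c ⁻¹' U (Y.wd c)) (fun c => (Y.k2n_inc_meas c) (hU _))
  have h2 : ∀ c, Y.k2nBack c ⁻¹' (Y.incOf c ⁻¹' U (Y.wd c)) = U (Y.wd c) := by
    intro c
    ext x
    simp only [Set.mem_preimage, k2n_inc_back]
  simp only [h2] at h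
  exact le_of_eq_of_le h (ENNReal.div_le_div_right (Y.k2n_sum_le_mass hP hY U hU) _)

/-! ## L-252-NORM-M4 : composition of masses (2.21) -/

theorem k2n_lift_nuC_aux (hP : P.WF) (hY : Y.WF) (c : Y.C) (A' : Set P.Lam) :
    P.nu (Y.wd c) (Y.A c ∩ A') = Y.nuC c * ((Y.nuC c)⁻¹ • (P.nu (Y.wd c)).restrict (Y.A c)) A' := by
  rw [Measure.smul_apply, smul_eq_mul, Measure.restrict_apply' (hY.A_meas _), Set.inter_comm]
  by_cases hν : Y.nuC c = 0
  · have h1 : P.nu (Y.wd c) (A' ∩ Y.A c) = 0 :=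
      le_antisymm ((measure_mono Set.inter_subset_right).trans hν.le) zero_le
    rw [h1, mul_zero, mul_zero]
  · rw [← mul_assoc, ENNReal.mul_inv_cancel hν (Y.k2n_nuC_ne_top hP _), one_mul]

theorem k2n_lift_mC_aux (hP : P.WF) (hY : Y.WF) (a : ℝ) (c : Y.C) (S' : Set (P.Lam × ℝ)) (hS' : MeasurableSet S')
    (hsub' : S' ⊆ Y.incOf c ⁻¹' Y.S c) :
    P.mu (Y.wd c) (Y.k2nBack c ⁻¹' S') = ENNReal.ofReal Y.q * Y.nuC c * (Y.norm a).mu c S' := by
  have hsub : Y.k2nBack c ⁻¹' S' ⊆ Y.S c := by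
    intro x hx
    have h2 : Y.incOf c (Y.k2nBack c x) ∈ Y.S c := hsub' hx
    rwa [k2n_inc_back] at h2
  have h4 := Y.k2n_mu_norm_apply' hP hY a c S' hS'
  rw [Set.inter_eq_left.mpr hsub] at h4
  rw [h4, Y.k2n_cancel hP hY _ _ hsub]

theorem k2n_alg1 (o q n Z m M : ℝ≥0∞) (hZ : Z ≠ 0) (hZ' : Z ≠ ∞) (h : M = q * n * m) :
    o * M = Z * (o * q * n / Z * m) := by
  have e : Z * (o * q * n / Z * m) = Z * (o * q * n / Z) * m := by ring
  rw [h, e, ENNReal.mul_div_cancel hZ hZ']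
  ring

theorem k2n_alg2 (o q q' n n' Z N Q : ℝ≥0∞) (hZ : Z ≠ 0) (hZ' : Z ≠ ∞) (h : N = n * n') (hQ : Q = q * q') :
    o * Q * N = Z * (o * q * n / Z * q' * n') := by
  have e : Z * (o * q * n / Z * q' * n') = Z * (o * q * n / Z) * q' * n' := by ring
  rw [h, hQ, e, ENNReal.mul_div_cancel hZ hZ']
  ring

variable (a : ℝ) (Y' : KbSys (Y.norm a))

/-- `ν_{cd} = ν_c ν'_d` -/
theorem k2n_lift_nuC (hP : P.WF) (hY : Y.WF) (d : Y'.C) :
    (Y.lift a Y').nuC d = Y.nuC (Y'.wd d) * Y'.nuC d :=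
  Y.k2n_lift_nuC_aux hP hY (Y'.wd d) (Y'.A d)

/-- `m_{cd} = q ν_c m'_d` -/
theorem k2n_lift_mC (hP : P.WF) (hY : Y.WF) (hY' : Y'.WF) (d : Y'.C) :
    (Y.lift a Y').mC d = ENNReal.ofReal Y.q * Y.nuC (Y'.wd d) * Y'.mC d :=
  Y.k2n_lift_mC_aux hP hY a (Y'.wd d) (Y'.S d) (hY'.S_meas d) (fun _ hx => (hY'.S_sub d hx).1)

theorem k2n_lift_mass (hP : P.WF) (hY : Y.WF) (hY' : Y'.WF) (hZ : Y.Z ≠ 0) :
    (Y.lift a Y').mass = Y.Z * Y'.mass := by
  change ∑ d : Y'.C, P.om (Y.wd (Y'.wd d)) * (Y.lift a Y').mC d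
    = Y.Z * ∑ d : Y'.C, (P.om (Y.wd (Y'.wd d)) * ENNReal.ofReal Y.q * Y.nuC (Y'.wd d) / Y.Z) * Y'.mC d
  rw [Finset.mul_sum]
  refine Finset.sum_congr rfl fun d _ => ?_
  exact k2n_alg1 _ _ _ _ _ _ hZ (Y.k2n_Z_ne_top hP hY) (Y.k2n_lift_mC a Y' hP hY hY' d)

theorem k2n_lift_Z (hP : P.WF) (hY : Y.WF) (hZ : Y.Z ≠ 0) :
    (Y.lift a Y').Z = Y.Z * Y'.Z := by
  change ∑ d : Y'.C, P.om (Y.wd (Y'.wd d)) * ENNReal.ofReal (kbQ (Y.n + Y'.n)) * (Y.lift a Y').nuC d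
    = Y.Z * ∑ d : Y'.C, (P.om (Y.wd (Y'.wd d)) * ENNReal.ofReal Y.q * Y.nuC (Y'.wd d) / Y.Z) * ENNReal.ofReal Y'.q * Y'.nuC d
  rw [Finset.mul_sum]
  refine Finset.sum_congr rfl fun d _ => ?_
  refine k2n_alg2 _ _ _ _ _ _ _ _ hZ (Y.k2n_Z_ne_top hP hY) (Y.k2n_lift_nuC a Y' hP hY d) ?_
  rw [k2n_kbQ_add, ENNReal.ofReal_mul (k2n_kbQ_pos _).le]
  rfl

end KbSys

end

end Claimed.Agent.R252
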