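import Claimed.Agent.R252.Norm.Seq

/-!
# ROW 252 (S0492), unit NORM (post BP-252-S2aC, sub-architect helper22), file 11: OPERATIONS ON EXACT PROBLEMS  (02 l.322, 860-870; 04 l.24-29, 55-60).
CONTRACT file: every `sorry` is a leaf `L-252-NORM-O*`.  Prefix `k2n_`.   EXITS = the hubs `kb_restr_keep`, `kb_homog_ch`, `kb_coarsen_cap`, `kb_coarsen_sys`, `kb_rebase_cap`, `kb_rebase_hor`, `kb_hor_exclusion`
of `Base/Hub2.lean`, verbatim, + `k2n_hub_narrow_ex` (asked by helper128).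
-/

set_option autoImplicit false
set_option linter.unusedVariables false

namespace Claimed.Agent.R252

open MeasureTheory Filter Topology
open Claimed.Agent.R255 (uf ulim)
open scoped ENNReal BigOperators

noncomputable section

variable {v : KbVer}

/-! ## L-252-NORM-O1 : dropping whole charts -/

/-- = `kb_restr_keep`  (`k2s_restr_univ_tru`, `k2s_restr_univ_sat`, `k2s_restr_known`) -/
theorem k2n_hub_restr_keep (E : KbEx v) (Y : E.Sys) (keep : ∀ k, Set (Y k).C) (e s : ℝ) :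
    (E.IsTrue Y e → E.IsTrue (E.restr Y keep fun _ _ => Set.univ) e) ∧ (E.IsSat Y e → E.IsSat (E.restr Y keep fun _ _ => Set.univ) e) ∧
      (E.IsKnown Y s → E.IsKnown (E.restr Y keep fun _ _ => Set.univ) s) := by
  refine ⟨fun h τ hτ => (h τ hτ).mono fun k hk => k2s_restr_univ_tru (Y k) (keep k) hk,
    fun h τ hτ => (h τ hτ).mono fun k hk => k2s_restr_univ_sat (Y k) (keep k) hk,
    fun h τ hτ => (h τ hτ).mono fun k hk => k2s_restr_known (Y k) (keep k) _ hk⟩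

/-- a restriction with dense selected mass is a system -/
theorem k2n_restr_sys (E : KbEx v) (Y : E.Sys) (r h : ℝ) (hY : E.IsSys Y r h) (keep : ∀ k, Set (Y k).C) (S' : ∀ k, (Y k).C → Set ((E.P k).Lam × ℝ))
    (hS : ∀ᶠ k in uf, ∀ c, MeasurableSet (S' k c)) (hB : ∀ τ : ℝ, 0 < τ → ∀ᶠ k in uf, (E.restr Y keep S' k).Big (E.R.N k ^ τ)) :
    E.IsSys (E.restr Y keep S') r h := by
  obtain ⟨⟨M, hM⟩, hG, hq⟩ := hY
  refine ⟨⟨M, ?_⟩, fun τ hτ => ?_, hq⟩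
  · filter_upwards [hM, hS] with k h1 h2
    exact ⟨k2s_restr_wf (Y k) (keep k) (S' k) h1.1 h2, k2s_restr_tmp (Y k) (keep k) (S' k) h1.2⟩
  · filter_upwards [hG τ hτ, hB τ hτ] with k h1 h2
    exact ⟨k2s_restr_geo (Y k) (keep k) (S' k) h1.1, h2⟩

/-! ## L-252-NORM-O2 : homogenisation of a chart quantity -/

/-- pigeonhole: `g c ∈ [-M, M]`, `m` classes per unit length: one window of length `2/m` carries the fraction `1 / (2 M m + 1)` of the weight -/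
theorem k2n_pigeon {C : Type} [Fintype C] (w : C → ℝ≥0∞) (g : C → ℝ) (M : ℝ) (m : ℕ) (hm : 0 < m) (hM : 0 ≤ M) (hg : ∀ c, |g c| ≤ M) :
    ∃ e₀ : ℝ, |e₀| ≤ M ∧ ∑ c, w c ≤ ENNReal.ofReal (2 * M * m + 1) * ∑ c, (if |g c - e₀| ≤ 1 / m then w c else 0) := by
  classical
  have hm' : (0 : ℝ) < m := by exact_mod_cast hm
  obtain ⟨n, hn⟩ : ∃ n : ℕ, n = ⌊2 * M * m⌋₊ + 1 := ⟨_, rfl⟩
  obtain ⟨e, he⟩ : ∃ e : ℕ → ℝ, ∀ j, e j = -M + j / m := ⟨_, fun _ => rfl⟩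
  obtain ⟨T, hT⟩ : ∃ T : ℕ → ℝ≥0∞, ∀ j, T j = ∑ c, (if |g c - e j| ≤ 1 / m then w c else 0) := ⟨_, fun _ => rfl⟩
  have h2M : 0 ≤ 2 * M * m := by positivity
  obtain ⟨j, hj, hmax⟩ := Finset.exists_max_image (Finset.range n) T ⟨0, by rw [Finset.mem_range, hn]; exact Nat.succ_pos _⟩
  refine ⟨e j, ?_, ?_⟩
  · rw [Finset.mem_range, hn, Nat.lt_succ_iff] at hj
    have h1 : (j : ℝ) ≤ 2 * M * m := le_trans (by exact_mod_cast hj) (Nat.floor_le h2M)
    have h2 : (j : ℝ) / m ≤ 2 * M := by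
      rw [div_le_iff₀ hm']
      exact h1
    have h3 : 0 ≤ (j : ℝ) / m := by positivity
    rw [he, abs_le]
    constructor <;> linarith
  · rw [← hT]
    have hcov : ∀ c, w c ≤ ∑ i ∈ Finset.range n, (if |g c - e i| ≤ 1 / m then w c else 0) := by
      intro c
      have hgc := abs_le.1 (hg c)
      have h0 : 0 ≤ (g c + M) * m := mul_nonneg (by linarith) hm'.le
      have hi : ⌊(g c + M) * m⌋₊ ∈ Finset.range n := by
        rw [Finset.mem_range, hn, Nat.lt_succ_iff]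
        refine Nat.floor_le_floor ?_
        have : g c + M ≤ 2 * M := by linarith
        exact mul_le_mul_of_nonneg_right this hm'.le
      have hw : |g c - e ⌊(g c + M) * m⌋₊| ≤ 1 / m := by
        have h1 := Nat.floor_le h0
        have h2 := Nat.lt_floor_add_one ((g c + M) * m)
        rw [he, abs_le]
        constructor
        · have : (⌊(g c + M) * m⌋₊ : ℝ) / m ≤ g c + M := by
            rw [div_le_iff₀ hm']
            exact h1
          have h3 : (0 : ℝ) ≤ 1 / m := by positivity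
          linarith
        · have : g c + M ≤ ((⌊(g c + M) * m⌋₊ : ℝ) + 1) / m := by
            rw [le_div_iff₀ hm']
            exact h2.le
          rw [add_div] at this
          linarith
      calc w c = (if |g c - e ⌊(g c + M) * m⌋₊| ≤ 1 / m then w c else 0) := by rw [if_pos hw]
        _ ≤ _ := Finset.single_le_sum (f := fun i => if |g c - e i| ≤ 1 / (m : ℝ) then w c else 0) (fun _ _ => zero_le) hi
    calc ∑ c, w c ≤ ∑ c, ∑ i ∈ Finset.range n, (if |g c - e i| ≤ 1 / m then w c else 0) := Finset.sum_le_sum fun c _ => hcov c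
      _ = ∑ i ∈ Finset.range n, T i := by
          rw [Finset.sum_comm]
          exact Finset.sum_congr rfl fun i _ => (hT i).symm
      _ ≤ (Finset.range n).card • T j := Finset.sum_le_card_nsmul _ _ _ hmax
      _ = (n : ℝ≥0∞) * T j := by rw [Finset.card_range, nsmul_eq_mul]
      _ ≤ ENNReal.ofReal (2 * M * m + 1) * T j := by
          refine mul_le_mul' ?_ le_rfl
          rw [← ENNReal.ofReal_natCast]
          refine ENNReal.ofReal_le_ofReal ?_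
          rw [hn]
          push_cast
          have := Nat.floor_le h2M
          linarith

/-- = `kb_homog_ch`.   PLAN: `g k c = - logb (N k) (x k c) ∈ [-M, M]`, `m k = ⌈log (N k)⌉₊` (subpower: `kb_subp_log`), `e₀ k` from `k2n_pigeon` with `w c = ω m_c`, `keep k = {c | |g k c - e₀ k| ≤ 1 / m k}`,
`e = ulim e₀`  (`R255.ulim_tendsto`, bounded by `M`);   `k2s_restr_mass`, `k2n_restr_sys`.  No diagonal argument. -/
theorem k2n_hub_homog_ch (E : KbEx v) (hE : E.Ok) (Y : E.Sys) (r h : ℝ) (hY : E.IsSys Y r h) (x : ∀ k, (Y k).C → ℝ) (M : ℝ)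
    (hx : ∀ᶠ k in uf, ∀ c, E.R.N k ^ (-M) ≤ x k c ∧ x k c ≤ E.R.N k ^ M) :
    ∃ (keep : ∀ k, Set (Y k).C) (e : ℝ), E.IsSys (E.restr Y keep fun _ _ => Set.univ) r h ∧
      E.ChExp (E.restr Y keep fun _ _ => Set.univ) (fun k c => x k c.1) e := by
  classical
  obtain ⟨M₀, hM₀⟩ : ∃ M₀ : ℝ, M₀ = |M| := ⟨_, rfl⟩
  have hM0 : 0 ≤ M₀ := hM₀ ▸ abs_nonneg M
  obtain ⟨g, hgdef⟩ : ∃ g : ∀ k, (Y k).C → ℝ, ∀ k c, g k c = - Real.logb (E.R.N k) (x k c) := ⟨_, fun _ _ => rfl⟩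
  obtain ⟨w, hwdef⟩ : ∃ w : ∀ k, (Y k).C → ℝ≥0∞, ∀ k c, w k c = (E.P k).om ((Y k).wd c) * (Y k).mC c := ⟨_, fun _ _ => rfl⟩
  obtain ⟨m, hmdef⟩ : ∃ m : ℕ → ℕ, ∀ k, m k = ⌈Real.log (E.R.N k)⌉₊ + 1 := ⟨_, fun _ => rfl⟩
  have hmpos : ∀ k, 0 < m k := fun k => by rw [hmdef]; exact Nat.succ_pos _
  have hg : ∀ᶠ k in uf, ∀ c, 0 < x k c ∧ |g k c| ≤ M₀ := by
    filter_upwards [hx] with k hk c
    obtain ⟨h1, h2⟩ := hk c
    have hpos : 0 < x k c := lt_of_lt_of_le (kb_L3_rpow_pos E.R k _) h1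
    refine ⟨hpos, ?_⟩
    rw [kb_L3_rpow_le_iff_logb E.R k hpos] at h1
    rw [kb_L3_le_rpow_iff_logb E.R k hpos] at h2
    rw [hgdef, abs_neg, hM₀, abs_le]
    have := neg_abs_le M
    have := le_abs_self M
    constructor <;> linarith
  have hex : ∀ k, ∃ e₀ : ℝ, |e₀| ≤ M₀ ∧ ((∀ c, |g k c| ≤ M₀) →
      ∑ c, w k c ≤ ENNReal.ofReal (2 * M₀ * m k + 1) * ∑ c, (if |g k c - e₀| ≤ 1 / m k then w k c else 0)) := by
    intro k
    by_cases hk : ∀ c, |g k c| ≤ M₀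
    · obtain ⟨e₀, h1, h2⟩ := k2n_pigeon (w k) (g k) M₀ (m k) (hmpos k) hM0 hk
      exact ⟨e₀, h1, fun _ => h2⟩
    · exact ⟨0, by rw [abs_zero]; exact hM0, fun h => absurd h hk⟩
  choose e₀ he₀ hsum using hex
  refine ⟨fun k => {c | |g k c - e₀ k| ≤ 1 / m k}, ulim e₀, ?_, ?_⟩
  · refine k2n_restr_sys E Y r h hY _ _ (Eventually.of_forall fun _ _ => MeasurableSet.univ) fun τ hτ => ?_
    have hsub : KbSubP E.R fun k => (4 * M₀ + 1) * (1 + Real.log (E.R.N k)) :=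
      kb_subp_mul E.R (kb_subp_const E.R (by linarith)) (kb_subp_log E.R)
    filter_upwards [hg, (hY.2.1 (τ / 2) (by linarith)), hsub (τ / 2) (by linarith)] with k hk hB hs
    have hB' : 1 ≤ ENNReal.ofReal (E.R.N k ^ (τ / 2)) * (Y k).mass := hB.2
    have h1 := hsum k fun c => (hk c).2
    have hlog : 0 ≤ Real.log (E.R.N k) := Real.log_nonneg (kb_res_one_le E.R k)
    have hm1 : (m k : ℝ) ≤ Real.log (E.R.N k) + 2 := by
      rw [hmdef]
      push_cast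
      have := Nat.ceil_lt_add_one hlog
      linarith
    have hm2 : 2 * M₀ * m k + 1 ≤ E.R.N k ^ (τ / 2) := by
      refine le_trans ?_ hs.2
      nlinarith [mul_nonneg hM0 hlog]
    have hmass : (Y k).mass = ∑ c, w k c := Finset.sum_congr rfl fun c _ => (hwdef k c).symm
    have hrm : (E.restr Y (fun k => {c | |g k c - e₀ k| ≤ 1 / m k}) (fun _ _ => Set.univ) k).mass
        = ∑ c, (if |g k c - e₀ k| ≤ 1 / m k then w k c else 0) := by
      show ((Y k).restr {c | |g k c - e₀ k| ≤ 1 / m k} fun _ => Set.univ).mass = _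
      rw [k2s_restr_mass]
      refine Finset.sum_congr rfl fun c _ => ?_
      by_cases hc : |g k c - e₀ k| ≤ 1 / m k
      · rw [if_pos hc, if_pos (show c ∈ {c | |g k c - e₀ k| ≤ 1 / m k} from hc), Set.inter_univ, hwdef]
        rfl
      · rw [if_neg hc, if_neg (show c ∉ {c | |g k c - e₀ k| ≤ 1 / m k} from hc)]
    show 1 ≤ ENNReal.ofReal (E.R.N k ^ τ) * _
    rw [hrm]
    calc (1 : ℝ≥0∞) ≤ ENNReal.ofReal (E.R.N k ^ (τ / 2)) * (Y k).mass := hB'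
      _ ≤ ENNReal.ofReal (E.R.N k ^ (τ / 2)) * (ENNReal.ofReal (2 * M₀ * m k + 1) * ∑ c, (if |g k c - e₀ k| ≤ 1 / m k then w k c else 0)) := by
          rw [hmass]
          exact mul_le_mul' le_rfl h1
      _ ≤ ENNReal.ofReal (E.R.N k ^ (τ / 2)) * (ENNReal.ofReal (E.R.N k ^ (τ / 2)) * ∑ c, (if |g k c - e₀ k| ≤ 1 / m k then w k c else 0)) :=
          mul_le_mul' le_rfl (mul_le_mul' (ENNReal.ofReal_le_ofReal hm2) le_rfl)
      _ = ENNReal.ofReal (E.R.N k ^ τ) * ∑ c, (if |g k c - e₀ k| ≤ 1 / m k then w k c else 0) := by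
          rw [← mul_assoc, ← ENNReal.ofReal_mul (kb_L3_rpow_pos E.R k _).le, kb_rpow_half]
  · intro τ hτ
    have hb : Claimed.Agent.R255.UBdd e₀ := ⟨M₀, Eventually.of_forall he₀⟩
    have ht := Claimed.Agent.R255.ulim_tendsto e₀ hb
    rw [Metric.tendsto_nhds] at ht
    have hlogt : Tendsto (fun k => Real.log (E.R.N k)) uf atTop := Real.tendsto_log_atTop.comp E.R.lim
    filter_upwards [hg, ht (τ / 2) (by linarith), hlogt.eventually_ge_atTop (2 / τ)] with k hk hd hl c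
    have hc : |g k c.1 - e₀ k| ≤ 1 / m k := c.2
    obtain ⟨hpos, -⟩ := hk c.1
    rw [Real.dist_eq] at hd
    have hmk : (2 / τ : ℝ) ≤ m k := by
      rw [hmdef]
      push_cast
      have := Nat.le_ceil (Real.log (E.R.N k))
      linarith
    have hinv : (1 : ℝ) / m k ≤ τ / 2 := by
      have h2 : (0 : ℝ) < 2 / τ := by positivity
      calc (1 : ℝ) / m k ≤ 1 / (2 / τ) := one_div_le_one_div_of_le h2 hmk
        _ = τ / 2 := by rw [one_div_div]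
    have h1 := abs_le.1 (hc.trans hinv)
    have h2 := abs_le.1 hd.le
    rw [hgdef] at h1
    show E.R.N k ^ (-(ulim e₀) - τ) ≤ x k c.1 ∧ x k c.1 ≤ E.R.N k ^ (-(ulim e₀) + τ)
    rw [kb_L3_rpow_le_iff_logb E.R k hpos, kb_L3_le_rpow_iff_logb E.R k hpos]
    constructor <;> linarith [h1.1, h1.2, h2.1, h2.2]

/-- a homogeneous subfamily with a narrowness exponent exists (02 l.855-857): `k2n_hub_homog_ch` for `x = q² / J_c`, polynomially bounded by `Tmp` and `Geo` (`k2n_det_le`) -/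
theorem k2n_hub_narrow_ex (E : KbEx v) (hE : E.Ok) (Y : E.Sys) (r h : ℝ) (hY : E.IsSys Y r h) :
    ∃ (keep : ∀ k, Set (Y k).C) (l : ℝ), E.IsSys (E.restr Y keep fun _ _ => Set.univ) r h ∧ E.Narrow (E.restr Y keep fun _ _ => Set.univ) l := by
  obtain ⟨M, hM⟩ := hY.1
  have hx : ∀ᶠ k in uf, ∀ c, E.R.N k ^ (-(2 * |M| + 2)) ≤ (Y k).q ^ 2 / ((Y k).ch c).J ∧ (Y k).q ^ 2 / ((Y k).ch c).J ≤ E.R.N k ^ (2 * |M| + 2) := by
    filter_upwards [hM, hY.2.1 1 one_pos] with k hk hG c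
    have hN1 : 1 ≤ E.R.N k := kb_res_one_le E.R k
    have hN0 : 0 < E.R.N k := kb_res_pos E.R k
    have hq0 : 0 < (Y k).q := (Y k).k2n_q_pos
    have hq1 : (Y k).q ≤ 1 := k2n_kbQ_le_one _
    have hNM : E.R.N k ^ M ≤ E.R.N k ^ |M| := Real.rpow_le_rpow_of_exponent_le hN1 (le_abs_self M)
    have hNMpos : 0 < E.R.N k ^ |M| := Real.rpow_pos_of_pos hN0 _
    have hqlow : 1 ≤ E.R.N k ^ |M| * (Y k).q := le_trans hk.2.q_low (mul_le_mul_of_nonneg_right hNM hq0.le)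
    have hJ0 : 0 < ((Y k).ch c).J := k2s_J_pos (Y k) hk.1 c
    have hJlow : 1 ≤ E.R.N k ^ |M| * ((Y k).ch c).J := le_trans (hk.2.J_low c) (mul_le_mul_of_nonneg_right hNM hJ0.le)
    have hJup : ((Y k).ch c).J ≤ E.R.N k ^ (2 : ℝ) := by
      have h1 : ((Y k).ch c).J ≤ kbMn ((Y k).ch c).D ^ v.j := k2n_det_le _
      have h2 : kbMn ((Y k).ch c).D ≤ E.R.N k := by
        have := hG.1.size c
        rw [Real.rpow_one] at this
        calc kbMn ((Y k).ch c).D ≤ (Y k).q * E.R.N k := this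
          _ ≤ 1 * E.R.N k := mul_le_mul_of_nonneg_right hq1 hN0.le
          _ = E.R.N k := one_mul _
      have h3 : kbMn ((Y k).ch c).D ^ v.j ≤ E.R.N k ^ v.j := pow_le_pow_left₀ (k2n_Mn_nonneg _) h2 _
      have h4 : E.R.N k ^ v.j ≤ E.R.N k ^ 2 := pow_le_pow_right₀ hN1 (by cases v <;> simp [KbVer.j])
      rw [Real.rpow_two]
      exact h1.trans (h3.trans h4)
    have e1 : E.R.N k ^ (-(2 * |M| + 2)) = (E.R.N k ^ |M|)⁻¹ ^ 2 / E.R.N k ^ (2 : ℝ) := by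
      rw [Real.rpow_neg hN0.le, Real.rpow_add hN0, mul_comm 2 |M|, Real.rpow_mul hN0.le, Real.rpow_two, inv_pow, div_eq_mul_inv, mul_inv]
    have hqinv : (E.R.N k ^ |M|)⁻¹ ≤ (Y k).q := by
      rw [inv_le_iff_one_le_mul₀ hNMpos]
      linarith [hqlow, mul_comm (E.R.N k ^ |M|) (Y k).q]
    constructor
    · rw [e1]
      exact div_le_div₀ (by positivity) (pow_le_pow_left₀ (by positivity) hqinv 2) hJ0 hJup
    · have h1 : (Y k).q ^ 2 ≤ 1 := pow_le_one₀ hq0.le hq1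
      have h2 : (Y k).q ^ 2 / ((Y k).ch c).J ≤ E.R.N k ^ |M| := by
        rw [div_le_iff₀ hJ0]
        linarith
      refine h2.trans (Real.rpow_le_rpow_of_exponent_le hN1 ?_)
      have := abs_nonneg M
      linarith
  obtain ⟨keep, e, h1, h2⟩ := k2n_hub_homog_ch E hE Y r h hY (fun k c => (Y k).q ^ 2 / ((Y k).ch c).J) (2 * |M| + 2) hx
  refine ⟨keep, -e, h1, ?_⟩
  unfold KbEx.Narrow
  rw [neg_neg]
  exact h2

/-! ## L-252-NORM-O3 : coarsening -/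

/-- = `kb_coarsen_cap`  (`k2a_hub_coarse` for the angular cap at `p_r`; if `η < 0` the range of `u` is empty) -/
theorem k2n_hub_coarsen_cap (E : KbEx v) (d S η : ℝ) (f : ℝ → ℝ → ℝ) (h : E.Cap d S η f) (r d' : ℝ) (hr : 0 < r) (hrL : r ≤ E.L) (hd' : d' < 1)
    (hs : ∀ x ∈ Set.Icc 0 r, f r 0 - f x 0 ≤ d' * (r - x)) : (E.coarsen r).Cap d' S η f := by
  refine ⟨⟨hr, h.ok.2.1, h.ok.2.2⟩, ⟨fun x hx => h.hom.pure x ⟨hx.1, hx.2.trans hrL⟩, fun x hx u hu => h.hom.joint x ⟨hx.1, hx.2.trans hrL⟩ u hu⟩,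
    hd', hs, fun u hu0 hu1 => ?_⟩
  have hu1' : u ≤ η * r := hu1
  have hη : 0 ≤ η := by
    by_contra hcon
    have : η * r < 0 := mul_neg_of_neg_of_pos (not_le.mp hcon) hr
    linarith
  exact k2a_hub_coarse E d S η f h r u hr.le hrL hu0 (hu1'.trans (mul_le_mul_of_nonneg_left hrL hη))

/-- = `kb_coarsen_sys` -/
theorem k2n_hub_coarsen_sys (E : KbEx v) (r : ℝ) (Y : E.Sys) (s h : ℝ) : (E.coarsen r).IsSys Y s h ↔ E.IsSys Y s h := Iff.rfl

/-! ## L-252-NORM-O4 : change of units -/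

/-- eventually `(R.pow c).N k = N k ^ c` -/
theorem k2n_pow_N (R : KbRes) (c : ℝ) (hc : 0 < c) : ∀ᶠ k in uf, (R.pow c hc).N k = R.N k ^ c := by
  filter_upwards [(kb_rpow_tendsto R hc).eventually_ge_atTop 2] with k hk
  exact max_eq_right hk

/-- eventually all powers are rescaled -/
theorem k2n_o4_rpow (R : KbRes) (c : ℝ) (hc : 0 < c) : ∀ᶠ k in uf, ∀ x : ℝ, (R.pow c hc).N k ^ x = R.N k ^ (c * x) := by
  filter_upwards [k2n_pow_N R c hc] with k hk x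
  rw [hk, ← Real.rpow_mul (kb_res_pos R k).le]

theorem k2n_o4_forall (R : KbRes) (c : ℝ) (hc : 0 < c) (p : ℕ → ℝ → Prop) :
    (∀ τ : ℝ, 0 < τ → ∀ᶠ k in uf, p k ((R.pow c hc).N k ^ τ)) ↔ ∀ τ : ℝ, 0 < τ → ∀ᶠ k in uf, p k (R.N k ^ τ) := by
  constructor
  · intro h τ hτ
    filter_upwards [h (τ / c) (by positivity), k2n_o4_rpow R c hc] with k h1 h2
    rw [h2, mul_div_cancel₀ _ hc.ne'] at h1
    exact h1
  · intro h τ hτ
    filter_upwards [h (c * τ) (by positivity), k2n_o4_rpow R c hc] with k h1 h2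
    rw [h2]
    exact h1

theorem k2n_o4_exists (R : KbRes) (c : ℝ) (hc : 0 < c) (p : ℕ → ℝ → Prop) :
    (∃ M : ℝ, ∀ᶠ k in uf, p k ((R.pow c hc).N k ^ M)) ↔ ∃ M : ℝ, ∀ᶠ k in uf, p k (R.N k ^ M) := by
  constructor
  · rintro ⟨M, h⟩
    refine ⟨c * M, ?_⟩
    filter_upwards [h, k2n_o4_rpow R c hc] with k h1 h2
    rw [h2] at h1
    exact h1
  · rintro ⟨M, h⟩
    refine ⟨M / c, ?_⟩
    filter_upwards [h, k2n_o4_rpow R c hc] with k h1 h2
    rw [h2, mul_div_cancel₀ _ hc.ne']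
    exact h1

theorem k2n_o4_pow (R : KbRes) (c : ℝ) (hc : 0 < c) (x y : ℕ → ℝ) (hxy : ∀ᶠ k in uf, x k = y k) : KbPow (R.pow c hc) x ↔ KbPow R y := by
  constructor
  · rintro ⟨c', hc', h⟩
    refine ⟨c * c', by positivity, ?_⟩
    filter_upwards [h, k2n_o4_rpow R c hc, hxy] with k h1 h2 h3
    rw [h2, h3] at h1
    rw [← mul_neg]
    exact h1
  · rintro ⟨c', hc', h⟩
    refine ⟨c' / c, by positivity, ?_⟩
    filter_upwards [h, k2n_o4_rpow R c hc, hxy] with k h1 h2 h3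
    rw [h2, h3, mul_neg, mul_div_cancel₀ _ hc.ne']
    exact h1

theorem k2n_o4_exp (R : KbRes) (c : ℝ) (hc : 0 < c) (x : ℕ → ℝ) (h : ℝ) : KbExp (R.pow c hc) x h ↔ KbExp R x (c * h) := by
  constructor
  · intro H τ hτ
    filter_upwards [H (τ / c) (by positivity), k2n_o4_rpow R c hc] with k h1 h2
    rw [h2, h2] at h1
    have e1 : c * (-h - τ / c) = -(c * h) - τ := by field_simp
    have e2 : c * (-h + τ / c) = -(c * h) + τ := by field_simp
    rw [e1, e2] at h1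
    exact h1
  · intro H τ hτ
    filter_upwards [H (c * τ) (by positivity), k2n_o4_rpow R c hc] with k h1 h2
    rw [h2, h2]
    have e1 : c * (-h - τ) = -(c * h) - c * τ := by ring
    have e2 : c * (-h + τ) = -(c * h) + c * τ := by ring
    rw [e1, e2]
    exact h1

theorem k2n_o4_a (E : KbEx v) (c : ℝ) (hc : 0 < c) : ∀ᶠ k in uf, ∀ r : ℝ, (E.rebase c hc).a r k = E.a (c * r) k := by
  filter_upwards [k2n_o4_rpow E.R c hc] with k hk r
  show (E.R.pow c hc).N k ^ (-r) = E.R.N k ^ (-(c * r))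
  rw [hk, mul_neg]

theorem k2n_o4_ok (E : KbEx v) (c : ℝ) (hc : 0 < c) : (E.rebase c hc).Ok ↔ E.Ok := by
  have h1 : (0 < E.L / c) ↔ 0 < E.L := by
    constructor
    · intro h
      have := mul_pos h hc
      rwa [div_mul_cancel₀ _ hc.ne'] at this
    · intro h
      positivity
  exact and_congr h1 (and_congr (k2n_o4_exists E.R c hc fun k Q => (E.P k).WF ∧ (E.P k).Tmp Q) (k2n_o4_forall E.R c hc fun k K => (E.P k).Ntv K))

theorem k2n_o4_typUp (E : KbEx v) (c : ℝ) (hc : 0 < c) {D : Type} (ℓ' ℓ : E.Lab D) (hℓ : ∀ᶠ k in uf, ℓ' k = ℓ k) (g : ℝ) :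
    (E.rebase c hc).TypUp ℓ' (g / c) ↔ E.TypUp ℓ g := by
  constructor
  · intro H τ hτ
    refine (k2n_o4_pow E.R c hc _ _ ?_).1 (H (τ / c) (by positivity))
    filter_upwards [k2n_o4_rpow E.R c hc, hℓ] with k h2 h3
    show ((E.P k).mass ((E.P k).above (ℓ' k) ((E.R.pow c hc).N k ^ (-(g / c) + τ / c)))).toReal = _
    have e1 : c * (-(g / c) + τ / c) = -g + τ := by field_simp
    rw [h2, h3, e1]
    rfl
  · intro H τ hτ
    refine (k2n_o4_pow E.R c hc _ _ ?_).2 (H (c * τ) (by positivity))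
    filter_upwards [k2n_o4_rpow E.R c hc, hℓ] with k h2 h3
    show ((E.P k).mass ((E.P k).above (ℓ' k) ((E.R.pow c hc).N k ^ (-(g / c) + τ)))).toReal = _
    have e1 : c * (-(g / c) + τ) = -g + c * τ := by field_simp
    rw [h2, h3, e1]
    rfl

theorem k2n_o4_typLo (E : KbEx v) (c : ℝ) (hc : 0 < c) {D : Type} (ℓ' ℓ : E.Lab D) (hℓ : ∀ᶠ k in uf, ℓ' k = ℓ k) (g : ℝ) :
    (E.rebase c hc).TypLo ℓ' (g / c) ↔ E.TypLo ℓ g := by
  constructor
  · intro H τ hτ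
    refine (k2n_o4_pow E.R c hc _ _ ?_).1 (H (τ / c) (by positivity))
    filter_upwards [k2n_o4_rpow E.R c hc, hℓ] with k h2 h3
    show ((E.P k).mass ((E.P k).below (ℓ' k) ((E.R.pow c hc).N k ^ (-(g / c) - τ / c)))).toReal = _
    have e1 : c * (-(g / c) - τ / c) = -g - τ := by field_simp
    rw [h2, h3, e1]
    rfl
  · intro H τ hτ
    refine (k2n_o4_pow E.R c hc _ _ ?_).2 (H (c * τ) (by positivity))
    filter_upwards [k2n_o4_rpow E.R c hc, hℓ] with k h2 h3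
    show ((E.P k).mass ((E.P k).below (ℓ' k) ((E.R.pow c hc).N k ^ (-(g / c) - τ)))).toReal = _
    have e1 : c * (-(g / c) - τ) = -g - c * τ := by field_simp
    rw [h2, h3, e1]
    rfl

theorem k2n_o4_typ (E : KbEx v) (c : ℝ) (hc : 0 < c) {D : Type} (ℓ' ℓ : E.Lab D) (hℓ : ∀ᶠ k in uf, ℓ' k = ℓ k) (g : ℝ) :
    (E.rebase c hc).Typ ℓ' (g / c) ↔ E.Typ ℓ g :=
  and_congr (k2n_o4_typUp E c hc ℓ' ℓ hℓ g) (k2n_o4_typLo E c hc ℓ' ℓ hℓ g)

theorem k2n_o4_isSys (E : KbEx v) (c : ℝ) (hc : 0 < c) (Y : E.Sys) (r h : ℝ) : (E.rebase c hc).IsSys Y r h ↔ E.IsSys Y (c * r) (c * h) := by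
  refine and_congr (k2n_o4_exists E.R c hc fun k Q => (Y k).WF ∧ (Y k).Tmp Q) (and_congr ?_ (k2n_o4_exp E.R c hc _ h))
  have h1 := k2n_o4_forall E.R c hc fun k K => (Y k).Geo K (E.a (c * r) k) ∧ (Y k).Big K
  rw [← h1]
  refine forall_congr' fun τ => forall_congr' fun _ => eventually_congr ?_
  filter_upwards [k2n_o4_a E c hc] with k hk
  rw [hk]
  rfl

theorem k2n_o4_isTrue (E : KbEx v) (c : ℝ) (hc : 0 < c) (Y : E.Sys) (e : ℝ) : (E.rebase c hc).IsTrue Y (e / c) ↔ E.IsTrue Y e := by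
  have h1 := k2n_o4_forall E.R c hc fun k K => (Y k).Tru K (E.R.N k ^ (-e))
  refine Iff.trans ?_ h1
  refine forall_congr' fun τ => forall_congr' fun _ => eventually_congr ?_
  filter_upwards [k2n_o4_rpow E.R c hc] with k hk
  show (Y k).Tru ((E.R.pow c hc).N k ^ τ) ((E.R.pow c hc).N k ^ (-(e / c))) ↔ _
  have e1 : c * (-(e / c)) = -e := by field_simp
  rw [hk (-(e / c)), e1]

/-- = `kb_rebase_cap` -/
theorem k2n_hub_rebase_cap (E : KbEx v) (d S η : ℝ) (f : ℝ → ℝ → ℝ) (h : E.Cap d S η f) (c : ℝ) (hc : 0 < c) :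
    (E.rebase c hc).Cap d S η fun r u => f (c * r) (c * u) / c := by
  have hL : c * (E.L / c) = E.L := mul_div_cancel₀ _ hc.ne'
  have hmem : ∀ r ∈ Set.Icc 0 (E.L / c), c * r ∈ Set.Icc 0 E.L := by
    rintro r ⟨h0, h1⟩
    refine ⟨by positivity, ?_⟩
    calc c * r ≤ c * (E.L / c) := mul_le_mul_of_nonneg_left h1 hc.le
      _ = E.L := hL
  refine ⟨(k2n_o4_ok E c hc).2 h.ok, ⟨fun r hr => ?_, fun r hr u hu => ?_⟩, h.d_lt, fun r hr => ?_, fun u hu0 hu1 => ?_⟩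
  · refine (k2n_o4_typ E c hc _ (E.hid (c * r)) ?_ _).2 ?_
    · filter_upwards [k2n_o4_a E c hc] with k hk
      show (E.P k).hid ((E.rebase c hc).a r k) = _
      rw [hk]
      rfl
    · rw [mul_zero]
      exact h.hom.pure (c * r) (hmem r hr)
  · refine (k2n_o4_typ E c hc _ (E.hv (c * r) (c * u)) ?_ _).2 ?_
    · filter_upwards [k2n_o4_a E c hc] with k hk
      show (E.P k).hv ((E.rebase c hc).a r k) ((E.rebase c hc).a u k) = _
      rw [hk, hk]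
      rfl
    · exact h.hom.joint (c * r) (hmem r hr) (c * u) (by positivity)
  · show f (c * (E.L / c)) (c * 0) / c - f (c * r) (c * 0) / c ≤ d * (E.L / c - r)
    rw [hL, mul_zero, ← sub_div, div_le_iff₀ hc]
    have := h.endp (c * r) (hmem r hr)
    have e1 : d * (E.L / c - r) * c = d * (E.L - c * r) := by field_simp
    rw [e1]
    exact this
  · have hu1' : u ≤ η * (E.L / c) := hu1
    show f (c * (E.L / c)) (c * 0) / c + S * u ≤ f (c * (E.L / c)) (c * u) / c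
    rw [hL, mul_zero, le_div_iff₀ hc]
    have h2 : c * u ≤ η * E.L := by
      calc c * u ≤ c * (η * (E.L / c)) := mul_le_mul_of_nonneg_left hu1' hc.le
        _ = η * E.L := by field_simp
    have := h.ang (c * u) (by positivity) h2
    have e1 : (f E.L 0 / c + S * u) * c = f E.L 0 + S * (c * u) := by field_simp
    rw [e1]
    exact this

/-- the true terminal systems are the same, costs are divided by `c` -/
theorem k2n_rebase_costs (E : KbEx v) (f : ℝ → ℝ → ℝ) (c : ℝ) (hc : 0 < c) (h : ℝ) :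
    h ∈ (E.rebase c hc).costs (fun r u => f (c * r) (c * u) / c) ↔ c * h ∈ E.costs f := by
  have hL : c * (E.L / c) = E.L := mul_div_cancel₀ _ hc.ne'
  have h0 : 0 ≤ h ↔ 0 ≤ c * h := by
    constructor
    · intro h1
      positivity
    · intro h1
      exact nonneg_of_mul_nonneg_right h1 hc
  refine and_congr h0 (exists_congr fun Y => and_congr ?_ ?_)
  · have := k2n_o4_isSys E c hc Y (E.L / c) h
    rw [hL] at this
    exact this
  · have := k2n_o4_isTrue E c hc Y (f E.L 0)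
    show (E.rebase c hc).IsTrue Y (f (c * (E.L / c)) (c * 0) / c) ↔ _
    rw [hL, mul_zero]
    exact this

/-- = `kb_rebase_hor` -/
theorem k2n_hub_rebase_hor (E : KbEx v) (hE : E.Ok) (f : ℝ → ℝ → ℝ) (hf : E.Hom f) (c : ℝ) (hc : 0 < c) :
    (E.rebase c hc).Hor (fun r u => f (c * r) (c * u) / c) = E.Hor f / c := by
  open scoped Pointwise in
  have e : (E.rebase c hc).costs (fun r u => f (c * r) (c * u) / c) = c⁻¹ • E.costs f := by
    ext x
    rw [k2n_rebase_costs, Set.mem_smul_set]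
    constructor
    · intro hx
      refine ⟨c * x, hx, ?_⟩
      rw [smul_eq_mul, inv_mul_cancel_left₀ hc.ne']
    · rintro ⟨y, hy, rfl⟩
      rw [smul_eq_mul, mul_inv_cancel_left₀ hc.ne']
      exact hy
  unfold KbEx.Hor
  rw [e, Real.sInf_smul_of_nonneg (inv_nonneg.2 hc.le), smul_eq_mul, div_eq_inv_mul]

/-! ## L-252-NORM-O5 : the horizon as an exclusion -/

/-- = `kb_hor_exclusion`.   PLAN: if not, by `R255.uf_em` for every `τ` eventually such a `Y` exists; `kb_slow` gives `τ_k → 0` and ONE sequence `Y`; its slacks are subpower (`kb_slow_subp`), `q_k ∈ [N^{-h}, 1]`, so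
`h' = ulim (- logb N q) ∈ [0, h]` is its cost (`kb_exp_exists`): `h' ∈ E.costs f`, `E.Hor f ≤ h' ≤ h`.  (`h < 0` : `q ≤ 1 < N^{-h}`.)  Monotonicity in the slack: `k2s_geo_mono`, `k2s_big_mono`, `k2s_tru_mono`. -/
theorem k2n_hub_hor_exclusion (E : KbEx v) (hE : E.Ok) (f : ℝ → ℝ → ℝ) (hf : E.Hom f) (h M : ℝ) (hh : h < E.Hor f) :
    ∃ τ : ℝ, 0 < τ ∧ ∀ᶠ k in uf, ¬ ∃ Y : KbSys (E.P k), Y.WF ∧ Y.Tmp (E.R.N k ^ M) ∧ Y.Geo (E.R.N k ^ τ) (E.a E.L k) ∧ Y.Big (E.R.N k ^ τ) ∧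
      Y.Tru (E.R.N k ^ τ) (E.R.N k ^ (-(f E.L 0))) ∧ E.R.N k ^ (-h) ≤ Y.q := by
  classical
  have hWF := k2a_ok_wf hE
  by_contra hcon
  have hall : ∀ τ : ℝ, 0 < τ → ∀ᶠ k in uf, ∃ Y : KbSys (E.P k), Y.WF ∧ Y.Tmp (E.R.N k ^ M) ∧ Y.Geo (E.R.N k ^ τ) (E.a E.L k) ∧ Y.Big (E.R.N k ^ τ) ∧
      Y.Tru (E.R.N k ^ τ) (E.R.N k ^ (-(f E.L 0))) ∧ E.R.N k ^ (-h) ≤ Y.q := by
    intro τ hτ
    exact (Claimed.Agent.R255.uf_em _).resolve_right fun hneg => hcon ⟨τ, hτ, hneg⟩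
  obtain ⟨τ, hτ0, hτt, hsub, hev⟩ := kb_slow E.R (fun k τ => ∃ Y : KbSys (E.P k), Y.WF ∧ Y.Tmp (E.R.N k ^ M) ∧ Y.Geo (E.R.N k ^ τ) (E.a E.L k) ∧
      Y.Big (E.R.N k ^ τ) ∧ Y.Tru (E.R.N k ^ τ) (E.R.N k ^ (-(f E.L 0))) ∧ E.R.N k ^ (-h) ≤ Y.q) hall
  have hne : ∀ k, Nonempty (KbSys (E.P k)) := fun k =>
    ⟨{ n := 0, C := Empty, fC := inferInstance, wd := Empty.elim, iv := Empty.elim, A := Empty.elim, S := Empty.elim, ch := Empty.elim }⟩
  have hch : ∀ k, ∃ Y : KbSys (E.P k), (∃ Y : KbSys (E.P k), Y.WF ∧ Y.Tmp (E.R.N k ^ M) ∧ Y.Geo (E.R.N k ^ τ k) (E.a E.L k) ∧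
      Y.Big (E.R.N k ^ τ k) ∧ Y.Tru (E.R.N k ^ τ k) (E.R.N k ^ (-(f E.L 0))) ∧ E.R.N k ^ (-h) ≤ Y.q) →
      (Y.WF ∧ Y.Tmp (E.R.N k ^ M) ∧ Y.Geo (E.R.N k ^ τ k) (E.a E.L k) ∧
      Y.Big (E.R.N k ^ τ k) ∧ Y.Tru (E.R.N k ^ τ k) (E.R.N k ^ (-(f E.L 0))) ∧ E.R.N k ^ (-h) ≤ Y.q) := by
    intro k
    by_cases hk : ∃ Y : KbSys (E.P k), Y.WF ∧ Y.Tmp (E.R.N k ^ M) ∧ Y.Geo (E.R.N k ^ τ k) (E.a E.L k) ∧
      Y.Big (E.R.N k ^ τ k) ∧ Y.Tru (E.R.N k ^ τ k) (E.R.N k ^ (-(f E.L 0))) ∧ E.R.N k ^ (-h) ≤ Y.q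
    · obtain ⟨Y, hY⟩ := hk
      exact ⟨Y, fun _ => hY⟩
    · exact ⟨(hne k).some, fun h' => absurd h' hk⟩
  choose Y hY using hch
  have hYev : ∀ᶠ k in uf, (Y k).WF ∧ (Y k).Tmp (E.R.N k ^ M) ∧ (Y k).Geo (E.R.N k ^ τ k) (E.a E.L k) ∧
      (Y k).Big (E.R.N k ^ τ k) ∧ (Y k).Tru (E.R.N k ^ τ k) (E.R.N k ^ (-(f E.L 0))) ∧ E.R.N k ^ (-h) ≤ (Y k).q :=
    hev.mono fun k hk => hY k hk
  -- the cost
  have hb : ∀ᶠ k in uf, 0 ≤ - Real.logb (E.R.N k) ((Y k).q) ∧ - Real.logb (E.R.N k) ((Y k).q) ≤ h := by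
    filter_upwards [hYev] with k hk
    have h1 := (kb_L3_rpow_le_iff_logb E.R k (k2s_q_pos (Y k))).1 hk.2.2.2.2.2
    have h2 := Real.logb_nonpos (kb_L3_one_lt E.R k) (k2s_q_pos (Y k)).le (k2s_q_le_one (Y k))
    constructor <;> linarith
  have hB : Claimed.Agent.R255.UBdd fun k => - Real.logb (E.R.N k) ((Y k).q) := Claimed.Agent.R255.UBdd.of_le 0 h hb
  have hexp : KbExp E.R (fun k => (Y k).q) (kbExpo E.R fun k => (Y k).q) :=
    (kb_exp_iff E.R (Eventually.of_forall fun k => k2s_q_pos (Y k))).2 (Claimed.Agent.R255.ulim_tendsto _ hB)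
  have h0 : 0 ≤ kbExpo E.R fun k => (Y k).q := Claimed.Agent.R255.const_le_ulim _ _ hB (hb.mono fun _ h' => h'.1)
  have h1 : (kbExpo E.R fun k => (Y k).q) ≤ h := Claimed.Agent.R255.ulim_le_const _ _ hB (hb.mono fun _ h' => h'.2)
  have hmem : (kbExpo E.R fun k => (Y k).q) ∈ E.costs f := by
    refine ⟨h0, Y, ⟨⟨M, hYev.mono fun k hk => ⟨hk.1, hk.2.1⟩⟩, fun τ' hτ' => ?_, hexp⟩, fun τ' hτ' => ?_⟩
    · filter_upwards [hYev, hsub τ' hτ', hWF] with k hk hs hw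
      exact ⟨k2s_geo_mono (Y k) hw hk.2.2.1 hs.2 (Real.rpow_nonneg (kb_res_pos E.R k).le _), k2s_big_mono (Y k) hk.2.2.2.1 hs.2⟩
    · filter_upwards [hYev, hsub τ' hτ'] with k hk hs
      exact k2s_tru_mono (Y k) hk.2.2.2.2.1 hs.2
  have h2 : E.Hor f ≤ kbExpo E.R fun k => (Y k).q := csInf_le ⟨0, fun x hx => hx.1⟩ hmem
  linarith

end

end Claimed.Agent.R252
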