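import Claimed.Agent.R252.Norm.Coord

/-!
# ROW 252 (S0492), unit NORM (post BP-252-S2aC, sub-architect helper22), file 2: QUADRATIC TESTS  (02-framework.tex l.40-60, 712-735, 818-835).
CONTRACT file: every `sorry` is a leaf `L-252-NORM-Q*`.  Pure algebra (hint for all of them: `cases v`, unfold `KbQuad.ev`, `dotProduct`, `Matrix.mulVec`, `Fin.sum_univ_succ`, then `ring`).  Prefix `k2n_`.
-/

set_option autoImplicit false

namespace Claimed.Agent.R252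

open scoped BigOperators

noncomputable section

variable {v : KbVer}

/-! ## L-252-NORM-Q1 : derivatives, continuity -/

theorem k2n_Dw_ev (Q : KbQuad v) (t : ℝ) (y : KbB v) (w : ℝ) :
    kbDw Q.ev t y w = Q.cw + Q.ctw * t + Q.cyw ⬝ᵥ y + 2 * Q.cww * w := by
  unfold kbDw KbQuad.ev
  ring

theorem k2n_Dww_ev (Q : KbQuad v) (t : ℝ) (y : KbB v) (w : ℝ) : kbDww Q.ev t y w = 2 * Q.cww := by
  unfold kbDww KbQuad.ev
  ring

theorem k2n_quad_cont {T : KbTest v} (hT : KbIsQuad T) : Continuous fun x : ℝ × KbB v × ℝ => T x.1 x.2.1 x.2.2 := by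
  obtain ⟨Q, hQ⟩ := hT
  have e : (fun x : ℝ × KbB v × ℝ => T x.1 x.2.1 x.2.2) = fun x => Q.ev x.1 x.2.1 x.2.2 :=
    funext fun x => hQ _ _ _
  rw [e]
  unfold KbQuad.ev
  simp only [dotProduct, Matrix.mulVec]
  fun_prop

theorem k2n_quad_Dw_cont {T : KbTest v} (hT : KbIsQuad T) : Continuous fun x : ℝ × KbB v × ℝ => kbDw T x.1 x.2.1 x.2.2 := by
  have h := k2n_quad_cont hT
  have h1 : Continuous fun x : ℝ × KbB v × ℝ => ((x.1, x.2.1, x.2.2 + 1) : ℝ × KbB v × ℝ) := by fun_prop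
  have h2 : Continuous fun x : ℝ × KbB v × ℝ => ((x.1, x.2.1, x.2.2 - 1) : ℝ × KbB v × ℝ) := by fun_prop
  exact ((h.comp h1).sub (h.comp h2)).div_const 2

theorem k2n_Y_cont (l : KbTj v) : Continuous (kbY l) := by
  unfold kbY
  fun_prop

theorem k2n_W_cont (l : KbTj v) : Continuous (kbW l) := by
  unfold kbW
  fun_prop

theorem k2n_X_cont {T : KbTest v} (hT : KbIsQuad T) (l : KbTj v) : Continuous (kbX T l) := by
  have h := k2n_quad_cont hT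
  have h2 : Continuous fun t : ℝ => ((t, kbY l t, kbW l t) : ℝ × KbB v × ℝ) :=
    continuous_id.prodMk ((k2n_Y_cont l).prodMk (k2n_W_cont l))
  exact h.comp h2

theorem k2n_XDw_cont {T : KbTest v} (hT : KbIsQuad T) (l : KbTj v) : Continuous (kbX (kbDw T) l) := by
  have h := k2n_quad_Dw_cont hT
  have h2 : Continuous fun t : ℝ => ((t, kbY l t, kbW l t) : ℝ × KbB v × ℝ) :=
    continuous_id.prodMk ((k2n_Y_cont l).prodMk (k2n_W_cont l))
  exact h.comp h2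

/-- a closed bound on `[0,1)` extends to `[0,1]` -/
theorem k2n_Ico_Icc {E : Type} [SeminormedAddCommGroup E] {f : ℝ → E} (hf : Continuous f) {M : ℝ}
    (h : ∀ τ ∈ Set.Ico (0 : ℝ) 1, ‖f τ‖ ≤ M) : ∀ τ ∈ Set.Icc (0 : ℝ) 1, ‖f τ‖ ≤ M := by
  intro τ hτ
  have hcl : closure (Set.Ico (0 : ℝ) 1) = Set.Icc 0 1 := closure_Ico (by norm_num)
  have hc : IsClosed {τ : ℝ | ‖f τ‖ ≤ M} := isClosed_le hf.norm continuous_const
  have : closure (Set.Ico (0 : ℝ) 1) ⊆ {τ : ℝ | ‖f τ‖ ≤ M} := hc.closure_subset_iff.mpr h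
  exact this (hcl ▸ hτ)

/-! ## L-252-NORM-Q2 : closure of the model class -/

theorem k2n_sum_j_one (f : Fin (KbVer.j KbVer.one) → ℝ) : ∑ i, f i = f (0 : Fin 1) :=
  Fin.sum_univ_one f

theorem k2n_sum_j_two (f : Fin (KbVer.j KbVer.two) → ℝ) : ∑ i, f i = f (0 : Fin 2) + f (1 : Fin 2) :=
  Fin.sum_univ_two f

theorem k2n_sum_e_one (f : Fin (KbVer.e KbVer.one) → ℝ) : ∑ i, f i = f (0 : Fin 3) + f (1 : Fin 3) + f (2 : Fin 3) :=
  Fin.sum_univ_three f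

theorem k2n_sum_e_two (f : Fin (KbVer.e KbVer.two) → ℝ) : ∑ i, f i = f (0 : Fin 2) + f (1 : Fin 2) :=
  Fin.sum_univ_two f

/-- affine substitution in the base variables -/
theorem k2n_quad_subst {T : KbTest v} (hT : KbIsQuad T) (s α β : ℝ) (p r : KbB v) (D : Matrix (Fin v.j) (Fin v.j) ℝ) :
    KbIsQuad fun τ z w => s * T (α + β * τ) (p + τ • r + D.mulVec z) w := by
  obtain ⟨Q, hQ⟩ := hT
  refine ⟨{ c0 := s * (Q.c0 + Q.ct * α + Q.cy ⬝ᵥ p + Q.ctt * α ^ 2 + α * (Q.cty ⬝ᵥ p) + p ⬝ᵥ Q.cyy.mulVec p)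
            ct := s * (Q.ct * β + Q.cy ⬝ᵥ r + 2 * Q.ctt * α * β + α * (Q.cty ⬝ᵥ r) + β * (Q.cty ⬝ᵥ p)
              + p ⬝ᵥ Q.cyy.mulVec r + r ⬝ᵥ Q.cyy.mulVec p)
            cy := fun i => s * ∑ k, D k i * (Q.cy k + α * Q.cty k + ∑ l, (Q.cyy l k * p l + Q.cyy k l * p l))
            cw := s * (Q.cw + Q.ctw * α + Q.cyw ⬝ᵥ p)
            ctt := s * (Q.ctt * β ^ 2 + β * (Q.cty ⬝ᵥ r) + r ⬝ᵥ Q.cyy.mulVec r)
            cty := fun i => s * ∑ k, D k i * (β * Q.cty k + ∑ l, (Q.cyy l k * r l + Q.cyy k l * r l))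
            ctw := s * (Q.ctw * β + Q.cyw ⬝ᵥ r)
            cyy := fun i i' => s * ∑ k, ∑ l, D k i * Q.cyy k l * D l i'
            cyw := fun i => s * ∑ k, D k i * Q.cyw k
            cww := s * Q.cww }, ?_⟩
  intro τ z w
  simp only [hQ]
  cases v
  · simp only [KbQuad.ev, dotProduct, Matrix.mulVec, k2n_sum_j_one, Pi.add_apply, Pi.smul_apply, smul_eq_mul]
    ring
  · simp only [KbQuad.ev, dotProduct, Matrix.mulVec, k2n_sum_j_two, Pi.add_apply, Pi.smul_apply, smul_eq_mul]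
    ring

theorem k2n_quad_add {T T' : KbTest v} (hT : KbIsQuad T) (hT' : KbIsQuad T') : KbIsQuad fun t y w => T t y w + T' t y w := by
  obtain ⟨Q, hQ⟩ := hT
  obtain ⟨Q', hQ'⟩ := hT'
  refine ⟨{ c0 := Q.c0 + Q'.c0, ct := Q.ct + Q'.ct, cy := Q.cy + Q'.cy, cw := Q.cw + Q'.cw, ctt := Q.ctt + Q'.ctt
            cty := Q.cty + Q'.cty, ctw := Q.ctw + Q'.ctw, cyy := Q.cyy + Q'.cyy, cyw := Q.cyw + Q'.cyw
            cww := Q.cww + Q'.cww }, ?_⟩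
  intro t y w
  simp only [hQ, hQ', KbQuad.ev, add_dotProduct, Matrix.add_mulVec, dotProduct_add]
  ring

theorem k2n_quad_zero {T : KbTest v} (hT : KbIsQuad T) : KbIsQuad fun t y _ => T t y 0 := by
  obtain ⟨Q, hQ⟩ := hT
  refine ⟨{ c0 := Q.c0, ct := Q.ct, cy := Q.cy, cw := 0, ctt := Q.ctt, cty := Q.cty, ctw := 0, cyy := Q.cyy, cyw := 0
            cww := 0 }, ?_⟩
  intro t y w
  simp only [hQ, KbQuad.ev, zero_dotProduct]
  ring

theorem k2n_quad_w : KbIsQuad (v := v) fun _ _ w => w := by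
  refine ⟨{ c0 := 0, ct := 0, cy := 0, cw := 1, ctt := 0, cty := 0, ctw := 0, cyy := 0, cyw := 0, cww := 0 }, ?_⟩
  intro t y w
  simp only [KbQuad.ev, zero_dotProduct, Matrix.zero_mulVec, dotProduct_zero]
  ring

/-! ## L-252-NORM-Q3 : tests along trajectories, interpolation -/

/-- a test of the model class is a polynomial of degree `≤ 2` along every trajectory -/
theorem k2n_X_poly {T : KbTest v} (hT : KbAdm T) (l : KbTj v) : ∃ c0 c1 c2 : ℝ, ∀ t, kbX T l t = c0 + c1 * t + c2 * t ^ 2 := by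
  obtain ⟨⟨Q, hQ⟩, h1⟩ := hT
  cases v
  · refine ⟨l.2.2 (0 : Fin 3) + Q.c0 + Q.cy ⬝ᵥ l.1 + l.1 ⬝ᵥ Q.cyy.mulVec l.1,
      l.2.2 (1 : Fin 3) + Q.ct + Q.cy ⬝ᵥ l.2.1 + Q.cty ⬝ᵥ l.1 + l.1 ⬝ᵥ Q.cyy.mulVec l.2.1 + l.2.1 ⬝ᵥ Q.cyy.mulVec l.1,
      l.2.2 (2 : Fin 3) + Q.ctt + Q.cty ⬝ᵥ l.2.1 + l.2.1 ⬝ᵥ Q.cyy.mulVec l.2.1, fun t => ?_⟩
    unfold kbX
    rw [h1 rfl, hQ]
    simp only [KbQuad.ev, kbY, kbW, dotProduct, Matrix.mulVec, k2n_sum_j_one, k2n_sum_e_one, Pi.add_apply,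
      Pi.smul_apply, smul_eq_mul]
    simp only [Fin.val_zero, Fin.val_one, Fin.val_two]
    ring
  · refine ⟨Q.c0 + Q.cy ⬝ᵥ l.1 + Q.cw * l.2.2 (0 : Fin 2) + l.1 ⬝ᵥ Q.cyy.mulVec l.1 + l.2.2 (0 : Fin 2) * (Q.cyw ⬝ᵥ l.1)
        + Q.cww * l.2.2 (0 : Fin 2) ^ 2,
      Q.ct + Q.cy ⬝ᵥ l.2.1 + Q.cw * l.2.2 (1 : Fin 2) + Q.cty ⬝ᵥ l.1 + Q.ctw * l.2.2 (0 : Fin 2) + l.1 ⬝ᵥ Q.cyy.mulVec l.2.1
        + l.2.1 ⬝ᵥ Q.cyy.mulVec l.1 + l.2.2 (0 : Fin 2) * (Q.cyw ⬝ᵥ l.2.1) + l.2.2 (1 : Fin 2) * (Q.cyw ⬝ᵥ l.1)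
        + 2 * Q.cww * l.2.2 (0 : Fin 2) * l.2.2 (1 : Fin 2),
      Q.ctt + Q.cty ⬝ᵥ l.2.1 + Q.ctw * l.2.2 (1 : Fin 2) + l.2.1 ⬝ᵥ Q.cyy.mulVec l.2.1 + l.2.2 (1 : Fin 2) * (Q.cyw ⬝ᵥ l.2.1)
        + Q.cww * l.2.2 (1 : Fin 2) ^ 2, fun t => ?_⟩
    unfold kbX
    rw [hQ]
    simp only [KbQuad.ev, kbY, kbW, dotProduct, Matrix.mulVec, k2n_sum_j_two, k2n_sum_e_two, Pi.add_apply,
      Pi.smul_apply, smul_eq_mul]
    simp only [Fin.val_zero, Fin.val_one]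
    ring

/-- the hidden coordinate has degree `< e` -/
theorem k2n_fit_one (g : ℝ → ℝ) (c0 c1 c2 : ℝ) (hg : ∀ t, g t = c0 + c1 * t + c2 * t ^ 2) (y0 V : KbB KbVer.one) (τ : ℝ) :
    kbW ((y0, V, kbFit KbVer.one g) : KbTj KbVer.one) τ = g τ := by
  unfold kbW
  rw [k2n_sum_e_one]
  show g 0 * τ ^ 0 + (-3 * g 0 + 4 * g (1 / 2) - g 1) * τ ^ 1 + (2 * g 0 - 4 * g (1 / 2) + 2 * g 1) * τ ^ 2 = g τ
  simp only [hg]
  ring

theorem k2n_fit_two (g : ℝ → ℝ) (c0 c1 : ℝ) (hg : ∀ t, g t = c0 + c1 * t) (y0 V : KbB KbVer.two) (τ : ℝ) :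
    kbW ((y0, V, kbFit KbVer.two g) : KbTj KbVer.two) τ = g τ := by
  unfold kbW
  rw [k2n_sum_e_two]
  show g 0 * τ ^ 0 + (g 1 - g 0) * τ ^ 1 = g τ
  simp only [hg]
  ring

/-- size of the interpolated coefficients -/
theorem k2n_fit_le (g : ℝ → ℝ) (M : ℝ) (hg : ∀ t ∈ Set.Icc (0 : ℝ) 1, |g t| ≤ M) : ‖kbFit v g‖ ≤ 8 * M := by
  have h0 := abs_le.1 (hg 0 ⟨le_rfl, zero_le_one⟩)
  have h1 := abs_le.1 (hg 1 ⟨zero_le_one, le_rfl⟩)
  have h2 := abs_le.1 (hg (1 / 2) ⟨by norm_num, by norm_num⟩)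
  have hM : 0 ≤ M := (abs_nonneg _).trans (hg 0 ⟨le_rfl, zero_le_one⟩)
  rw [pi_norm_le_iff_of_nonneg (by positivity)]
  cases v
  · intro i
    have hi : ∀ i : Fin 3, ‖(![g 0, -3 * g 0 + 4 * g (1 / 2) - g 1, 2 * g 0 - 4 * g (1 / 2) + 2 * g 1] : Fin 3 → ℝ) i‖ ≤ 8 * M := by
      intro i
      rw [Real.norm_eq_abs, abs_le]
      fin_cases i
      · simp only [Fin.zero_eta, Matrix.cons_val_zero]
        constructor <;> linarith [h0.1, h0.2]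
      · simp only [Fin.mk_one, Matrix.cons_val_one, Matrix.cons_val_zero]
        constructor <;> linarith [h0.1, h0.2, h1.1, h1.2, h2.1, h2.2]
      · simp only [Fin.reduceFinMk, Matrix.cons_val]
        constructor <;> linarith [h0.1, h0.2, h1.1, h1.2, h2.1, h2.2]
    exact hi i
  · intro i
    have hi : ∀ i : Fin 2, ‖(![g 0, g 1 - g 0] : Fin 2 → ℝ) i‖ ≤ 8 * M := by
      intro i
      rw [Real.norm_eq_abs, abs_le]
      fin_cases i
      · simp only [Fin.zero_eta, Matrix.cons_val_zero]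
        constructor <;> linarith [h0.1, h0.2]
      · simp only [Fin.mk_one, Matrix.cons_val_one, Matrix.cons_val_zero]
        constructor <;> linarith [h0.1, h0.2, h1.1, h1.2]
    exact hi i

/-! ## L-252-NORM-Q4 : matrices -/

theorem k2n_Mn_nonneg {m : ℕ} (D : Matrix (Fin m) (Fin m) ℝ) : 0 ≤ kbMn D := by
  unfold kbMn; positivity

theorem k2n_Mn_mul {m : ℕ} (D D' : Matrix (Fin m) (Fin m) ℝ) : kbMn (D * D') ≤ kbMn D * kbMn D' := by
  unfold kbMn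
  calc ∑ i, ∑ k, |(D * D') i k| ≤ ∑ i, ∑ k, ∑ l, |D i l| * |D' l k| := by
        refine Finset.sum_le_sum fun i _ => Finset.sum_le_sum fun k _ => ?_
        rw [Matrix.mul_apply]
        refine (Finset.abs_sum_le_sum_abs _ _).trans (le_of_eq ?_)
        exact Finset.sum_congr rfl fun l _ => abs_mul _ _
    _ = ∑ i, ∑ l, |D i l| * ∑ k, |D' l k| := by
        refine Finset.sum_congr rfl fun i _ => ?_
        rw [Finset.sum_comm]
        exact Finset.sum_congr rfl fun l _ => (Finset.mul_sum _ _ _).symm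
    _ ≤ ∑ i, ∑ l, |D i l| * ∑ l', ∑ k, |D' l' k| := by
        refine Finset.sum_le_sum fun i _ => Finset.sum_le_sum fun l _ => ?_
        refine mul_le_mul_of_nonneg_left ?_ (abs_nonneg _)
        exact Finset.single_le_sum (f := fun l' => ∑ k, |D' l' k|)
          (fun l' _ => Finset.sum_nonneg fun k _ => abs_nonneg _) (Finset.mem_univ l)
    _ = (∑ i, ∑ k, |D i k|) * ∑ i, ∑ k, |D' i k| := by
        rw [Finset.sum_mul]
        exact Finset.sum_congr rfl fun i _ => (Finset.sum_mul _ _ _).symm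

theorem k2n_mulVec_le {m : ℕ} (D : Matrix (Fin m) (Fin m) ℝ) (z : Fin m → ℝ) : ‖D.mulVec z‖ ≤ kbMn D * ‖z‖ := by
  have h0 : 0 ≤ kbMn D := by unfold kbMn; positivity
  rw [pi_norm_le_iff_of_nonneg (by positivity)]
  intro i
  rw [Real.norm_eq_abs, Matrix.mulVec, dotProduct]
  calc |∑ k, D i k * z k| ≤ ∑ k, |D i k| * ‖z‖ := by
        refine (Finset.abs_sum_le_sum_abs _ _).trans (Finset.sum_le_sum fun k _ => ?_)
        rw [abs_mul]
        exact mul_le_mul_of_nonneg_left (norm_le_pi_norm z k) (abs_nonneg _)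
    _ = (∑ k, |D i k|) * ‖z‖ := (Finset.sum_mul _ _ _).symm
    _ ≤ kbMn D * ‖z‖ := by
        refine mul_le_mul_of_nonneg_right ?_ (norm_nonneg _)
        exact Finset.single_le_sum (f := fun i => ∑ k, |D i k|)
          (fun i _ => Finset.sum_nonneg fun k _ => abs_nonneg _) (Finset.mem_univ i)

theorem k2n_det_le (D : Matrix (Fin v.j) (Fin v.j) ℝ) : |D.det| ≤ kbMn D ^ v.j := by
  cases v
  · have h : ∀ D : Matrix (Fin 1) (Fin 1) ℝ, |D.det| ≤ kbMn D ^ 1 := by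
      intro D
      rw [Matrix.det_fin_one, pow_one]
      unfold kbMn
      simp
    exact h D
  · have h : ∀ D : Matrix (Fin 2) (Fin 2) ℝ, |D.det| ≤ kbMn D ^ 2 := by
      intro D
      rw [Matrix.det_fin_two]
      unfold kbMn
      simp only [Fin.sum_univ_two]
      have h1 : |D 0 0 * D 1 1 - D 0 1 * D 1 0| ≤ |D 0 0| * |D 1 1| + |D 0 1| * |D 1 0| := by
        rw [← abs_mul, ← abs_mul]
        exact abs_sub _ _
      have a0 := abs_nonneg (D 0 0)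
      have a1 := abs_nonneg (D 0 1)
      have a2 := abs_nonneg (D 1 0)
      have a3 := abs_nonneg (D 1 1)
      nlinarith [mul_nonneg a0 a3, mul_nonneg a1 a2, mul_nonneg a0 a1, mul_nonneg a0 a2, mul_nonneg a1 a3,
        mul_nonneg a2 a3]
    exact h D

end

end Claimed.Agent.R252
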