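import Claimed.Agent.R252.Base.HubDefs
import Claimed.Agent.R252.S2a.SeqContract
import Claimed.Agent.R252.S2s.Hub
import Claimed.Agent.R252.Norm.Wf
import Claimed.Agent.R252.Norm.Lift
import Claimed.Agent.R252.Norm.DenNorm

/-!
# ROW 252 (S0492), unit NORM (post BP-252-S2aC, sub-architect helper22), file 10: L2.13 AT THE SEQUENCE LEVEL, part 1: a FIXED atlas  (02-framework.tex l.666-838).
CONTRACT file: every `sorry` is a leaf `L-252-NORM-S*`.  Prefix `k2n_`.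
Pattern of all proofs: fix `τ`, take the one-scale exits of `Norm/{Wf,Lift,DenNorm}.lean` with `K = N^{τ'}`, `τ'` a small multiple of `τ`; exponent arithmetic with `Base/Lang.lean` (`kb_L3_*`, `kb_exp_mul`, `kb_pow_*`)
and the `ℝ≥0∞` toolkit of `S2a/SeqContract.lean` (`K2aPow`, `k2a_up_iff`, `k2a_lo_iff`, `k2a_pow_*`);  monotonicity in the slack: `S2s/Api.lean` (`k2s_*_mono`).  NO import of `Base/Hub2` (it will import us).
`xJ Y` = the chart quantity `J_c / ν_c`;  `e` = its exponent (`J_c / ν_c = N^{-e}`).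
-/

set_option autoImplicit false
set_option linter.unusedVariables false

namespace Claimed.Agent.R252

open MeasureTheory Filter Topology
open Claimed.Agent.R255 (uf)
open scoped ENNReal BigOperators

noncomputable section

variable {v : KbVer}

/-! ## helpers of L-252-NORM-S5 (one scale) -/

theorem k2n_s5_q_pos {P : KbPb v} (Y : KbSys P) : 0 < Y.q := by
  unfold KbSys.q kbQ
  positivity

theorem k2n_s5_tmp_mono {P : KbPb v} (Y : KbSys P) {Q Q' : ℝ} (h : Q ≤ Q') (hT : Y.Tmp Q) : Y.Tmp Q' where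
  card := hT.card.trans h
  q_low := hT.q_low.trans (mul_le_mul_of_nonneg_right h (k2n_s5_q_pos Y).le)
  J_low := fun c => (hT.J_low c).trans (mul_le_mul_of_nonneg_right h (abs_nonneg _))
  cen := fun c => (hT.cen c).trans h

theorem k2n_s5_known_mono {P : KbPb v} (Y : KbSys P) {D : Type} (ℓ : P.Lab D) {K K' : ℝ} (h : K ≤ K') (hK : Y.Known ℓ K) :
    Y.Known ℓ K' := by
  obtain ⟨Lst, h1, h2, h3⟩ := hK
  exact ⟨Lst, fun γ d o => (h1 γ d o).trans h, h2, h3⟩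

theorem k2n_s5_lift_q {P : KbPb v} (Y : KbSys P) (a : ℝ) (Y' : KbSys (Y.norm a)) : (Y.lift a Y').q = Y.q * Y'.q := by
  unfold KbSys.q kbQ
  exact pow_add _ _ _

theorem k2n_s5_lift_J {P : KbPb v} (Y : KbSys P) (a : ℝ) (Y' : KbSys (Y.norm a)) (d : Y'.C) :
    ((Y.lift a Y').ch d).J = (Y.ch (Y'.wd d)).J * (Y'.ch d).J := by
  unfold KbChart.J
  rw [← abs_mul, ← Matrix.det_mul]
  rfl

/-! ## helpers of L-252-NORM-S1, S2, S3 (one scale) -/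

theorem k2n_s2_pb_tmp_mono {P : KbPb v} (hP : P.WF) {Q Q' : ℝ} (h : Q ≤ Q') (hT : P.Tmp Q) : P.Tmp Q' where
  card := hT.card.trans h
  B_le := fun γ => ⟨(hT.B_le γ).1.trans h, (hT.B_le γ).2.trans (mul_le_mul_of_nonneg_right h (hP.B_pos γ).le)⟩
  co_le := fun γ l hl => (hT.co_le γ l hl).trans h
  dens := fun γ => (hT.dens γ).trans (Measure.le_iff'.2 fun s => by
    simp only [Measure.smul_apply, smul_eq_mul]
    exact mul_le_mul_left (ENNReal.ofReal_le_ofReal h) _)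

theorem k2n_s2_ntv_mono {P : KbPb v} (hP : P.WF) {K K' : ℝ} (h : K ≤ K') (hN : P.Ntv K) : P.Ntv K' where
  base := fun γ l hl t ht => (hN.base γ l hl t ht).trans h
  sig := fun γ l hl t ht => (hN.sig γ l hl t ht).trans h
  dw := fun γ l hl t ht => (hN.dw γ l hl t ht).trans (mul_le_mul_of_nonneg_right h (hP.B_pos γ).le)
  dw_low := fun γ x hx => (hN.dw_low γ x hx).trans (mul_le_mul_of_nonneg_right h (abs_nonneg _))
  dww := fun γ t y w => (hN.dww γ t y w).trans (mul_le_mul_of_nonneg_right h (sq_nonneg _))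
  mass := hN.mass.trans (mul_le_mul_left (ENNReal.ofReal_le_ofReal h) _)

theorem k2n_s1_mass_ne_top {P : KbPb v} (hP : P.WF) (A : P.W → Set (P.Lam × ℝ)) : P.mass A ≠ ⊤ :=
  ((k2a_mass_mono (A' := fun _ => Set.univ) fun γ => Set.subset_univ (A γ)).trans_lt ((k2a_tot_le hP).trans_lt ENNReal.one_lt_top)).ne

/-- division by `Z ≥ 1/t` -/
theorem k2n_s1_div_le {x Z t : ℝ≥0∞} (h : 1 ≤ t * Z) : x / Z ≤ x * t := by
  rw [div_eq_mul_inv]
  refine mul_le_mul_right ?_ _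
  calc Z⁻¹ = 1 * Z⁻¹ := (one_mul _).symm
    _ ≤ t * Z * Z⁻¹ := mul_le_mul_left h _
    _ = t * (Z * Z⁻¹) := mul_assoc _ _ _
    _ ≤ t * 1 := mul_le_mul_right (ENNReal.mul_inv_le_one Z) _
    _ = t := mul_one _

/-- a mass `≤ C N^{-c} / Z` with `Z` not power small is power small -/
theorem k2n_s1_pow_div (R : KbRes) (Z x : ℕ → ℝ≥0∞) (hZ : ∀ τ : ℝ, 0 < τ → ∀ᶠ k in uf, 1 ≤ ENNReal.ofReal (R.N k ^ τ) * Z k) (C c : ℝ) (hc : 0 < c)
    (hx : ∀ᶠ k in uf, x k ≤ ENNReal.ofReal (C * R.N k ^ (-c)) / Z k) : KbPow R fun k => (x k).toReal := by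
  refine ⟨c / 4, by positivity, ?_⟩
  filter_upwards [hx, hZ (c / 2) (by positivity), (kb_rpow_tendsto R (show 0 < c / 4 by positivity)).eventually_ge_atTop C] with k h1 h2 h3
  have hN0 := kb_res_pos R k
  refine ENNReal.toReal_le_of_le_ofReal (Real.rpow_nonneg hN0.le _) ?_
  refine h1.trans ((k2n_s1_div_le h2).trans ?_)
  rw [← ENNReal.ofReal_mul' (Real.rpow_nonneg hN0.le _)]
  refine ENNReal.ofReal_le_ofReal ?_
  calc C * R.N k ^ (-c) * R.N k ^ (c / 2) ≤ R.N k ^ (c / 4) * R.N k ^ (-c) * R.N k ^ (c / 2) := by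
        have p1 := Real.rpow_pos_of_pos hN0 (-c)
        have p2 := Real.rpow_pos_of_pos hN0 (c / 2)
        gcongr
    _ = R.N k ^ (-(c / 4)) := by
        rw [← Real.rpow_add hN0, ← Real.rpow_add hN0]
        congr 1
        ring

namespace KbEx

variable (E : KbEx v)

/-- the chart quantity `J_c / ν_c` -/
def k2nXJ (Y : E.Sys) : ∀ k, (Y k).C → ℝ := fun k c => ((Y k).ch c).J / ((Y k).nuC c).toReal

/-! ## L-252-NORM-S1 : bookkeeping -/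

theorem k2n_a_mul (r s : ℝ) (k : ℕ) : E.a r k * E.a s k = E.a (r + s) k := by
  unfold a
  rw [← Real.rpow_add (kb_res_pos E.R k)]
  congr 1
  ring

theorem k2n_a_pos (r : ℝ) (k : ℕ) : 0 < E.a r k := Real.rpow_pos_of_pos (kb_res_pos E.R k) _

theorem k2n_a_le_one (r : ℝ) (hr : 0 ≤ r) (k : ℕ) : E.a r k ≤ 1 := by
  exact Real.rpow_le_one_of_one_le_of_nonpos (kb_res_one_le E.R k) (by linarith)

/-- consequences of a common exponent of `J_c / ν_c` -/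
theorem k2n_XJ_bounds (hE : E.Ok) (Y : E.Sys) (e : ℝ) (he : E.ChExp Y (E.k2nXJ Y) e) (τ : ℝ) (hτ : 0 < τ) :
    ∀ᶠ k in uf, ∀ c, (Y k).nuC c ≠ 0 ∧ ENNReal.ofReal ((Y k).ch c).J ≤ ENNReal.ofReal (E.R.N k ^ (-e + τ)) * (Y k).nuC c ∧
      ENNReal.ofReal (E.R.N k ^ (-e - τ)) * (Y k).nuC c ≤ ENNReal.ofReal ((Y k).ch c).J := by
  filter_upwards [he τ hτ] with k hk c
  obtain ⟨h1, h2⟩ := hk c
  have hN0 := kb_res_pos E.R k
  have p1 := Real.rpow_pos_of_pos hN0 (-e - τ)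
  have h1' : E.R.N k ^ (-e - τ) ≤ ((Y k).ch c).J / ((Y k).nuC c).toReal := h1
  have h2' : ((Y k).ch c).J / ((Y k).nuC c).toReal ≤ E.R.N k ^ (-e + τ) := h2
  have hne : ((Y k).nuC c).toReal ≠ 0 := by
    intro h0
    rw [h0, div_zero] at h1'
    linarith
  have hpos : 0 < ((Y k).nuC c).toReal := lt_of_le_of_ne ENNReal.toReal_nonneg (Ne.symm hne)
  have hne0 : (Y k).nuC c ≠ 0 := fun h0 => hne (by rw [h0]; rfl)
  have hnet : (Y k).nuC c ≠ ⊤ := fun h0 => hne (by rw [h0]; rfl)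
  have e1 : (Y k).nuC c = ENNReal.ofReal ((Y k).nuC c).toReal := (ENNReal.ofReal_toReal hnet).symm
  refine ⟨hne0, ?_, ?_⟩
  · rw [e1, ← ENNReal.ofReal_mul (Real.rpow_nonneg hN0.le _)]
    exact ENNReal.ofReal_le_ofReal ((div_le_iff₀ hpos).1 h2')
  · rw [e1, ← ENNReal.ofReal_mul (Real.rpow_nonneg hN0.le _)]
    exact ENNReal.ofReal_le_ofReal ((le_div_iff₀ hpos).1 h1')

/-- `M ≤ Z ≤ 1` -/
theorem k2n_Z_bounds (hE : E.Ok) (Y : E.Sys) (r h : ℝ) (hY : E.IsSys Y r h) (τ : ℝ) (hτ : 0 < τ) :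
    ∀ᶠ k in uf, (Y k).Z ≠ 0 ∧ (Y k).Z ≤ 1 ∧ 1 ≤ ENNReal.ofReal (E.R.N k ^ τ) * (Y k).Z := by
  obtain ⟨_, ⟨M0, hP⟩, _⟩ := hE
  obtain ⟨⟨M, hM⟩, hG, _⟩ := hY
  filter_upwards [hP, hM, hG τ hτ] with k h0 h1 h2
  have h3 : 1 ≤ ENNReal.ofReal (E.R.N k ^ τ) * (Y k).Z :=
    le_trans h2.2 (mul_le_mul_right ((Y k).k2n_mass_le_Z h0.1 h1.1) _)
  refine ⟨?_, (Y k).k2n_Z_le_one h0.1 h1.1, h3⟩
  intro hz
  rw [hz, mul_zero] at h3
  exact absurd h3 (by simp)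

/-- a typical floor cannot be above a typical ceiling (the total mass is not power small) -/
theorem k2n_typ_le (hE : E.Ok) {D : Type} (ℓ : E.Lab D) (f g : ℝ) (hLo : E.TypLo ℓ f) (hUp : E.TypUp ℓ g) : g ≤ f := by
  have := k2a_rel_exp_le hE (k2a_rel_refl E ℓ) hLo hUp
  linarith

/-! ## L-252-NORM-S2 : the normalised problem is an exact problem -/

theorem k2n_norm_ok (hE : E.Ok) (Y : E.Sys) (r h M : ℝ) (hr : 0 ≤ r) (hrL : r < E.L) (hY : E.IsSys Y r h)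
    (hν : ∀ᶠ k in uf, ∀ c, 1 ≤ ENNReal.ofReal (E.R.N k ^ M) * (Y k).nuC c) : (E.norm Y r).Ok := by
  have hZ := E.k2n_Z_bounds hE Y r h hY 1 one_pos
  have hE' := hE
  obtain ⟨_, ⟨M0, hP⟩, _⟩ := hE'
  have hY' := hY
  obtain ⟨⟨M1, hM⟩, hG, _⟩ := hY'
  have hν0 : ∀ᶠ k in uf, ∀ c, (Y k).nuC c ≠ 0 := by
    filter_upwards [hν] with k hk c h0
    have := hk c
    rw [h0, mul_zero] at this
    exact absurd this (by simp)
  obtain ⟨Q₀, hQ₀⟩ : ∃ Q₀ : ℝ, Q₀ = max (max M0 M1) (max M (max r 0)) := ⟨_, rfl⟩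
  have q1 : M0 ≤ Q₀ := by rw [hQ₀]; exact (le_max_left _ _).trans (le_max_left _ _)
  have q2 : M1 ≤ Q₀ := by rw [hQ₀]; exact (le_max_right _ _).trans (le_max_left _ _)
  have q3 : M ≤ Q₀ := by rw [hQ₀]; exact (le_max_left _ _).trans (le_max_right _ _)
  have q4 : r ≤ Q₀ := by rw [hQ₀]; exact ((le_max_left _ _).trans (le_max_right _ _)).trans (le_max_right _ _)
  have q5 : 0 ≤ Q₀ := by rw [hQ₀]; exact ((le_max_right _ _).trans (le_max_right _ _)).trans (le_max_right _ _)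
  refine ⟨by show 0 < E.L - r; linarith, ⟨8 + 4 * Q₀, ?_⟩, fun τ hτ => ?_⟩
  · filter_upwards [hP, hM, hG 1 one_pos, hν, hν0, hZ] with k h0 h1 h2 h3 h4 h5
    have hN1 := kb_res_one_le E.R k
    have hN0 := kb_res_pos E.R k
    have hWF := (Y k).k2n_norm_WF h0.1 h1.1 (E.a r k) (E.k2n_a_pos r k) h4 h5.1
    refine ⟨hWF, ?_⟩
    have t1 : (E.P k).Tmp (E.R.N k ^ Q₀) := k2n_s2_pb_tmp_mono h0.1 (Real.rpow_le_rpow_of_exponent_le hN1 q1) h0.2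
    have t2 : (Y k).Tmp (E.R.N k ^ Q₀) := k2n_s5_tmp_mono _ (Real.rpow_le_rpow_of_exponent_le hN1 q2) h1.2
    have t3 : ∀ c, 1 ≤ ENNReal.ofReal (E.R.N k ^ Q₀) * (Y k).nuC c := fun c =>
      (h3 c).trans (mul_le_mul_left (ENNReal.ofReal_le_ofReal (Real.rpow_le_rpow_of_exponent_le hN1 q3)) _)
    have haQ : 1 ≤ E.R.N k ^ Q₀ * E.a r k := by
      unfold a
      rw [← Real.rpow_add hN0]
      exact Real.one_le_rpow hN1 (by linarith)
    have t4 := (Y k).k2n_norm_Tmp h0.1 h1.1 (E.a r k) (E.R.N k ^ (1 : ℝ)) (E.R.N k ^ Q₀) (E.k2n_a_pos r k) (E.k2n_a_le_one r hr k) haQ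
      (Real.one_le_rpow hN1 zero_le_one) (Real.one_le_rpow hN1 q5) h2.1 t1 t2 t3
    refine k2n_s2_pb_tmp_mono hWF ?_ t4
    have e4 : (16 : ℝ) ≤ E.R.N k ^ (4 : ℝ) := by
      have h2' := E.R.two_le k
      have : E.R.N k ^ (4 : ℝ) = E.R.N k ^ (4 : ℕ) := by
        rw [← Real.rpow_natCast]
        norm_num
      rw [this]
      calc (16 : ℝ) = 2 ^ 4 := by norm_num
        _ ≤ E.R.N k ^ 4 := pow_le_pow_left₀ (by norm_num) h2' 4
    have e5 : E.R.N k ^ (8 + 4 * Q₀) = E.R.N k ^ (4 : ℝ) * (E.R.N k ^ Q₀) ^ 4 * (E.R.N k ^ (1 : ℝ)) ^ 4 := by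
      rw [← Real.rpow_natCast (E.R.N k ^ Q₀) 4, ← Real.rpow_natCast (E.R.N k ^ (1 : ℝ)) 4, ← Real.rpow_mul hN0.le, ← Real.rpow_mul hN0.le,
        ← Real.rpow_add hN0, ← Real.rpow_add hN0]
      congr 1
      push_cast
      ring
    show 16 * (E.R.N k ^ Q₀) ^ 4 * (E.R.N k ^ (1 : ℝ)) ^ 4 ≤ E.R.N k ^ (8 + 4 * Q₀)
    rw [e5]
    have p1 := Real.rpow_pos_of_pos hN0 (1 : ℝ)
    have p2 := Real.rpow_pos_of_pos hN0 Q₀
    gcongr
  · filter_upwards [hP, hM, hG (τ / 2) (by positivity), hν0, hZ,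
      (kb_rpow_tendsto E.R (show 0 < τ / 2 by positivity)).eventually_ge_atTop 3] with k h0 h1 h2 h4 h5 h6
    have hN1 := kb_res_one_le E.R k
    have hN0 := kb_res_pos E.R k
    have hWF := (Y k).k2n_norm_WF h0.1 h1.1 (E.a r k) (E.k2n_a_pos r k) h4 h5.1
    have t1 := (Y k).k2n_norm_Ntv h0.1 h1.1 (E.a r k) (E.R.N k ^ (τ / 2)) (E.k2n_a_pos r k) (Real.one_le_rpow hN1 (by positivity)) h4 h2.1 h2.2
    refine k2n_s2_ntv_mono hWF ?_ t1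
    show 3 * E.R.N k ^ (τ / 2) ≤ E.R.N k ^ τ
    rw [← kb_rpow_half E.R τ k]
    exact mul_le_mul_of_nonneg_right h6 (Real.rpow_nonneg hN0.le _)

/-! ## L-252-NORM-S3 : typical densities of the normalised problem -/

/-- joint ceilings: `f'(s,u) ≥ f(r+s,u) + e`  (`k2n_norm_above`) -/
theorem k2n_typUp_hv (hE : E.Ok) (Y : E.Sys) (r h e s u f₀ : ℝ) (hY : E.IsSys Y r h) (he : E.ChExp Y (E.k2nXJ Y) e)
    (hUp : E.TypUp (E.hv (r + s) u) f₀) : (E.norm Y r).TypUp ((E.norm Y r).hv s u) (f₀ + e) := by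
  intro τ hτ
  have hτ5 : 0 < τ / 5 := by positivity
  obtain ⟨c, hc, hpow⟩ := hUp (τ / 5) hτ5
  have hE' := hE
  obtain ⟨_, ⟨M0, hP⟩, _⟩ := hE'
  have hY' := hY
  obtain ⟨⟨M1, hM⟩, hG, _⟩ := hY'
  refine k2n_s1_pow_div E.R (fun k => (Y k).Z) _ (fun τ' hτ' => (E.k2n_Z_bounds hE Y r h hY τ' hτ').mono fun k hk => hk.2.2) 2 c hc ?_
  filter_upwards [hpow, hP, hM, hG (τ / 5) hτ5, E.k2n_XJ_bounds hE Y e he (τ / 5) hτ5, E.k2n_Z_bounds hE Y r h hY 1 one_pos,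
    (kb_rpow_tendsto E.R hτ5).eventually_ge_atTop 96] with k h1 h0 h2 h3 h4 h5 h6
  have hN1 := kb_res_one_le E.R k
  have hN0 := kb_res_pos E.R k
  have key := (Y k).k2n_norm_above h0.1 h2.1 (E.a r k) (E.a s k) (E.a u k) (E.R.N k ^ (τ / 5)) (E.R.N k ^ (-e + τ / 5)) (E.R.N k ^ (-f₀ + τ / 5))
    (E.k2n_a_pos r k) (E.k2n_a_pos s k) (E.k2n_a_pos u k) (Real.one_le_rpow hN1 hτ5.le) (Real.rpow_nonneg hN0.le _) (Real.rpow_nonneg hN0.le _)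
    h3.1 (fun c => (h4 c).1) h5.1 (fun c => (h4 c).2.1)
  rw [k2n_a_mul] at key
  have m1 : (E.P k).mass ((E.P k).above (E.hv (r + s) u k) (E.R.N k ^ (-f₀ + τ / 5))) ≤ ENNReal.ofReal (E.R.N k ^ (-c)) :=
    (ENNReal.le_ofReal_iff_toReal_le (k2n_s1_mass_ne_top h0.1 _) (Real.rpow_nonneg hN0.le _)).2 h1
  have e1 : 96 * (E.R.N k ^ (τ / 5)) ^ 2 * E.R.N k ^ (-e + τ / 5) * E.R.N k ^ (-f₀ + τ / 5) ≤ E.R.N k ^ (-(f₀ + e) + τ) := by
    have e2 : E.R.N k ^ (-(f₀ + e) + τ) = E.R.N k ^ (τ / 5) * (E.R.N k ^ (τ / 5)) ^ 2 * E.R.N k ^ (-e + τ / 5) * E.R.N k ^ (-f₀ + τ / 5) := by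
      rw [← Real.rpow_natCast (E.R.N k ^ (τ / 5)) 2, ← Real.rpow_mul hN0.le, ← Real.rpow_add hN0, ← Real.rpow_add hN0, ← Real.rpow_add hN0]
      congr 1
      push_cast
      ring
    rw [e2]
    have p1 := Real.rpow_pos_of_pos hN0 (τ / 5)
    have p2 := Real.rpow_pos_of_pos hN0 (-e + τ / 5)
    have p3 := Real.rpow_pos_of_pos hN0 (-f₀ + τ / 5)
    gcongr
  calc ((Y k).norm (E.a r k)).mass (((Y k).norm (E.a r k)).above (((Y k).norm (E.a r k)).hv (E.a s k) (E.a u k)) (E.R.N k ^ (-(f₀ + e) + τ)))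
      ≤ ((Y k).norm (E.a r k)).mass (((Y k).norm (E.a r k)).above (((Y k).norm (E.a r k)).hv (E.a s k) (E.a u k))
          (96 * (E.R.N k ^ (τ / 5)) ^ 2 * E.R.N k ^ (-e + τ / 5) * E.R.N k ^ (-f₀ + τ / 5))) :=
        k2a_mass_mono fun γ x hx => lt_of_le_of_lt (ENNReal.ofReal_le_ofReal e1) hx
    _ ≤ 2 * (E.P k).mass ((E.P k).above ((E.P k).hv (E.a (r + s) k) (E.a u k)) (E.R.N k ^ (-f₀ + τ / 5))) / (Y k).Z := key
    _ ≤ ENNReal.ofReal (2 * E.R.N k ^ (-c)) / (Y k).Z := by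
        refine ENNReal.div_le_div_right ?_ _
        rw [ENNReal.ofReal_mul zero_le_two, ENNReal.ofReal_ofNat]
        exact mul_le_mul_right m1 _

/-- pure ceilings (2.19)  (`k2n_norm_above_hid`) -/
theorem k2n_typUp_hid (hE : E.Ok) (Y : E.Sys) (r h e s f₀ : ℝ) (hY : E.IsSys Y r h) (he : E.ChExp Y (E.k2nXJ Y) e)
    (hUp : E.TypUp (E.hid (r + s)) f₀) : (E.norm Y r).TypUp ((E.norm Y r).hid s) (f₀ + e) := by
  intro τ hτ
  have hτ5 : 0 < τ / 3 := by positivity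
  obtain ⟨c, hc, hpow⟩ := hUp (τ / 3) hτ5
  have hE' := hE
  obtain ⟨_, ⟨M0, hP⟩, _⟩ := hE'
  have hY' := hY
  obtain ⟨⟨M1, hM⟩, hG, _⟩ := hY'
  refine k2n_s1_pow_div E.R (fun k => (Y k).Z) _ (fun τ' hτ' => (E.k2n_Z_bounds hE Y r h hY τ' hτ').mono fun k hk => hk.2.2) 2 c hc ?_
  filter_upwards [hpow, hP, hM, E.k2n_XJ_bounds hE Y e he (τ / 3) hτ5, E.k2n_Z_bounds hE Y r h hY 1 one_pos,
    (kb_rpow_tendsto E.R hτ5).eventually_ge_atTop 6] with k h1 h0 h2 h4 h5 h6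
  have hN1 := kb_res_one_le E.R k
  have hN0 := kb_res_pos E.R k
  have key := (Y k).k2n_norm_above_hid h0.1 h2.1 (E.a r k) (E.a s k) (E.R.N k ^ (-e + τ / 3)) (E.R.N k ^ (-f₀ + τ / 3))
    (E.k2n_a_pos r k) (E.k2n_a_pos s k) (Real.rpow_nonneg hN0.le _) (Real.rpow_nonneg hN0.le _)
    (fun c => (h4 c).1) h5.1 (fun c => (h4 c).2.1)
  rw [k2n_a_mul] at key
  have m1 : (E.P k).mass ((E.P k).above (E.hid (r + s) k) (E.R.N k ^ (-f₀ + τ / 3))) ≤ ENNReal.ofReal (E.R.N k ^ (-c)) :=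
    (ENNReal.le_ofReal_iff_toReal_le (k2n_s1_mass_ne_top h0.1 _) (Real.rpow_nonneg hN0.le _)).2 h1
  have e1 : 6 * E.R.N k ^ (-e + τ / 3) * E.R.N k ^ (-f₀ + τ / 3) ≤ E.R.N k ^ (-(f₀ + e) + τ) := by
    have e2 : E.R.N k ^ (-(f₀ + e) + τ) = E.R.N k ^ (τ / 3) * E.R.N k ^ (-e + τ / 3) * E.R.N k ^ (-f₀ + τ / 3) := by
      rw [← Real.rpow_add hN0, ← Real.rpow_add hN0]
      congr 1
      ring
    rw [e2]
    have p2 := Real.rpow_pos_of_pos hN0 (-e + τ / 3)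
    have p3 := Real.rpow_pos_of_pos hN0 (-f₀ + τ / 3)
    gcongr
  calc ((Y k).norm (E.a r k)).mass (((Y k).norm (E.a r k)).above (((Y k).norm (E.a r k)).hid (E.a s k)) (E.R.N k ^ (-(f₀ + e) + τ)))
      ≤ ((Y k).norm (E.a r k)).mass (((Y k).norm (E.a r k)).above (((Y k).norm (E.a r k)).hid (E.a s k))
          (6 * E.R.N k ^ (-e + τ / 3) * E.R.N k ^ (-f₀ + τ / 3))) :=
        k2a_mass_mono fun γ x hx => lt_of_le_of_lt (ENNReal.ofReal_le_ofReal e1) hx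
    _ ≤ 2 * (E.P k).mass ((E.P k).above ((E.P k).hid (E.a (r + s) k)) (E.R.N k ^ (-f₀ + τ / 3))) / (Y k).Z := key
    _ ≤ ENNReal.ofReal (2 * E.R.N k ^ (-c)) / (Y k).Z := by
        refine ENNReal.div_le_div_right ?_ _
        rw [ENNReal.ofReal_mul zero_le_two, ENNReal.ofReal_ofNat]
        exact mul_le_mul_right m1 _

/-- floors, if the label is known by `p_{r+s}`  (`k2n_norm_below`) -/
theorem k2n_typLo_hid (hE : E.Ok) (Y : E.Sys) (r h e s f₀ : ℝ) (hY : E.IsSys Y r h) (he : E.ChExp Y (E.k2nXJ Y) e)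
    (hKn : E.IsKnown Y (r + s)) (hLo : E.TypLo (E.hid (r + s)) f₀) : (E.norm Y r).TypLo ((E.norm Y r).hid s) (f₀ + e) := by
  intro τ hτ
  have hτ5 : 0 < τ / 5 := by positivity
  obtain ⟨c, hc, hpow⟩ := hLo (τ / 5) hτ5
  have hE' := hE
  obtain ⟨_, ⟨M0, hP⟩, _⟩ := hE'
  have hY' := hY
  obtain ⟨⟨M1, hM⟩, hG, _⟩ := hY'
  have hc1 : 0 < min c (τ / 5) := lt_min hc hτ5
  refine k2n_s1_pow_div E.R (fun k => (Y k).Z) _ (fun τ' hτ' => (E.k2n_Z_bounds hE Y r h hY τ' hτ').mono fun k hk => hk.2.2) 4 (min c (τ / 5)) hc1 ?_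
  filter_upwards [hpow, hP, hM, hKn (τ / 5) hτ5, E.k2n_XJ_bounds hE Y e he (τ / 5) hτ5, E.k2n_Z_bounds hE Y r h hY 1 one_pos] with k h1 h0 h2 h3 h4 h5
  have hN1 := kb_res_one_le E.R k
  have hN0 := kb_res_pos E.R k
  have h3' : (Y k).Known ((E.P k).hid (E.a r k * E.a s k)) (E.R.N k ^ (τ / 5)) := by
    rw [k2n_a_mul]
    exact h3
  have key := (Y k).k2n_norm_below h0.1 h2.1 (E.a r k) (E.a s k) (E.R.N k ^ (τ / 5)) (E.R.N k ^ (-e - τ / 5)) (E.R.N k ^ (-(2 * τ / 5))) (E.R.N k ^ (-f₀ - τ / 5))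
    (E.k2n_a_pos r k) (E.k2n_a_pos s k) (Real.one_le_rpow hN1 hτ5.le) (Real.rpow_nonneg hN0.le _) (Real.rpow_nonneg hN0.le _) (Real.rpow_nonneg hN0.le _)
    h3' (fun c => (h4 c).1) h5.1 (fun c => (h4 c).2.2)
  rw [k2n_a_mul] at key
  have m1 : (E.P k).mass ((E.P k).below (E.hid (r + s) k) (E.R.N k ^ (-f₀ - τ / 5))) ≤ ENNReal.ofReal (E.R.N k ^ (-c)) :=
    (ENNReal.le_ofReal_iff_toReal_le (k2n_s1_mass_ne_top h0.1 _) (Real.rpow_nonneg hN0.le _)).2 h1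
  have e1 : E.R.N k ^ (-(f₀ + e) - τ) ≤ E.R.N k ^ (-(2 * τ / 5)) * E.R.N k ^ (-e - τ / 5) * E.R.N k ^ (-f₀ - τ / 5) := by
    rw [← Real.rpow_add hN0, ← Real.rpow_add hN0]
    exact Real.rpow_le_rpow_of_exponent_le hN1 (by linarith)
  have e3 : 3 * E.R.N k ^ (τ / 5) * E.R.N k ^ (-(2 * τ / 5)) = 3 * E.R.N k ^ (-(τ / 5)) := by
    rw [mul_assoc, ← Real.rpow_add hN0]
    congr 2
    ring
  have pm := Real.rpow_nonneg hN0.le (-(min c (τ / 5)))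
  calc ((Y k).norm (E.a r k)).mass (((Y k).norm (E.a r k)).below (((Y k).norm (E.a r k)).hid (E.a s k)) (E.R.N k ^ (-(f₀ + e) - τ)))
      ≤ ((Y k).norm (E.a r k)).mass (((Y k).norm (E.a r k)).below (((Y k).norm (E.a r k)).hid (E.a s k))
          (E.R.N k ^ (-(2 * τ / 5)) * E.R.N k ^ (-e - τ / 5) * E.R.N k ^ (-f₀ - τ / 5))) :=
        k2a_mass_mono fun γ x hx => lt_of_lt_of_le hx (ENNReal.ofReal_le_ofReal e1)
    _ ≤ ((E.P k).mass ((E.P k).below ((E.P k).hid (E.a (r + s) k)) (E.R.N k ^ (-f₀ - τ / 5)))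
          + ENNReal.ofReal (3 * E.R.N k ^ (τ / 5) * E.R.N k ^ (-(2 * τ / 5))) * (E.P k).tot) / (Y k).Z := key
    _ ≤ ENNReal.ofReal (4 * E.R.N k ^ (-(min c (τ / 5)))) / (Y k).Z := by
        refine ENNReal.div_le_div_right ?_ _
        have a1 : ENNReal.ofReal (E.R.N k ^ (-c)) ≤ ENNReal.ofReal (E.R.N k ^ (-(min c (τ / 5)))) :=
          ENNReal.ofReal_le_ofReal (Real.rpow_le_rpow_of_exponent_le hN1 (neg_le_neg (min_le_left _ _)))
        have a2 : ENNReal.ofReal (3 * E.R.N k ^ (τ / 5) * E.R.N k ^ (-(2 * τ / 5))) * (E.P k).tot ≤ ENNReal.ofReal (3 * E.R.N k ^ (-(min c (τ / 5)))) := by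
          rw [e3]
          calc ENNReal.ofReal (3 * E.R.N k ^ (-(τ / 5))) * (E.P k).tot ≤ ENNReal.ofReal (3 * E.R.N k ^ (-(τ / 5))) * 1 :=
                mul_le_mul_right (k2a_tot_le h0.1) _
            _ = ENNReal.ofReal (3 * E.R.N k ^ (-(τ / 5))) := mul_one _
            _ ≤ _ := ENNReal.ofReal_le_ofReal (mul_le_mul_of_nonneg_left
                (Real.rpow_le_rpow_of_exponent_le hN1 (neg_le_neg (min_le_right _ _))) (by norm_num))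
        have a3 : (4 : ℝ) * E.R.N k ^ (-(min c (τ / 5))) = E.R.N k ^ (-(min c (τ / 5))) + 3 * E.R.N k ^ (-(min c (τ / 5))) := by ring
        rw [a3, ENNReal.ofReal_add pm (by positivity)]
        exact add_le_add (m1.trans a1) a2

/-! ## L-252-NORM-S4 : profiles and caps (glue; `k2n_typ_le`, `k2s_hub_known_mono`) -/

/-- **(2.18), (2.19), equality case, joint inequality** for a fixed atlas whose normalisation is homogeneous -/
theorem k2n_profile (hE : E.Ok) (f f' : ℝ → ℝ → ℝ) (hf : E.Hom f) (Y : E.Sys) (r h e : ℝ) (hr : 0 ≤ r) (hrL : r < E.L) (hY : E.IsAtlas Y r h)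
    (he : E.ChExp Y (E.k2nXJ Y) e) (hOk : (E.norm Y r).Ok) (hf' : (E.norm Y r).Hom f') :
    f' (E.L - r) 0 = f E.L 0 + e ∧ (∀ s : ℝ, 0 ≤ s → s ≤ E.L - r → f (r + s) 0 + e ≤ f' s 0) ∧
      (∀ s u : ℝ, 0 ≤ s → s ≤ E.L - r → 0 ≤ u → f (r + s) u + e ≤ f' s u) ∧
      (E.IsKnown Y r → ∀ s : ℝ, 0 ≤ s → s ≤ E.L - r → f' s 0 = f (r + s) 0 + e) := by
  have hmem : ∀ s : ℝ, 0 ≤ s → s ≤ E.L - r → r + s ∈ Set.Icc 0 E.L := fun s h0 h1 =>
    ⟨by linarith, by linarith⟩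
  have hmem' : ∀ s : ℝ, 0 ≤ s → s ≤ E.L - r → s ∈ Set.Icc 0 (E.norm Y r).L := fun s h0 h1 => ⟨h0, h1⟩
  have h2 : ∀ s : ℝ, 0 ≤ s → s ≤ E.L - r → f (r + s) 0 + e ≤ f' s 0 := fun s h0 h1 =>
    (E.norm Y r).k2n_typ_le hOk _ _ _ (hf'.pure s (hmem' s h0 h1)).2
      (E.k2n_typUp_hid hE Y r h e s _ hY.1 he (hf.pure (r + s) (hmem s h0 h1)).1)
  have h3 : ∀ s u : ℝ, 0 ≤ s → s ≤ E.L - r → 0 ≤ u → f (r + s) u + e ≤ f' s u := fun s u h0 h1 hu =>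
    (E.norm Y r).k2n_typ_le hOk _ _ _ (hf'.joint s (hmem' s h0 h1) u hu).2
      (E.k2n_typUp_hv hE Y r h e s u _ hY.1 he (hf.joint (r + s) (hmem s h0 h1) u hu).1)
  have h4 : ∀ s : ℝ, 0 ≤ s → s ≤ E.L - r → E.IsKnown Y (r + s) → f' s 0 = f (r + s) 0 + e := fun s h0 h1 hKn =>
    le_antisymm ((E.norm Y r).k2n_typ_le hOk _ _ _
      (E.k2n_typLo_hid hE Y r h e s _ hY.1 he hKn (hf.pure (r + s) (hmem s h0 h1)).2)
      (hf'.pure s (hmem' s h0 h1)).1) (h2 s h0 h1)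
  refine ⟨?_, h2, h3, fun hKn s h0 h1 => h4 s h0 h1 (k2s_hub_known_mono E hE Y r (r + s) (by linarith) hKn)⟩
  have := h4 (E.L - r) (by linarith) le_rfl (by rw [add_sub_cancel]; exact hY.2)
  rwa [add_sub_cancel] at this

/-- **the cap class is preserved** -/
theorem k2n_cap (f f' : ℝ → ℝ → ℝ) (Y : E.Sys) (r h e : ℝ) (hr : 0 ≤ r) (hrL : r < E.L) (hY : E.IsAtlas Y r h)
    (he : E.ChExp Y (E.k2nXJ Y) e) (hOk : (E.norm Y r).Ok) (hf' : (E.norm Y r).Hom f') (d S η : ℝ) (hC : E.Cap d S η f) :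
    (E.norm Y r).Cap d S η f' := by
  obtain ⟨p1, p2, p3, _⟩ := E.k2n_profile hC.ok f f' hC.hom Y r h e hr hrL hY he hOk hf'
  refine ⟨hOk, hf', hC.d_lt, ?_, ?_⟩
  · rintro s ⟨h0, h1⟩
    have h1' : s ≤ E.L - r := h1
    have e1 := p2 s h0 h1'
    have e2 := hC.endp (r + s) ⟨by linarith, by linarith⟩
    show f' (E.L - r) 0 - f' s 0 ≤ d * (E.L - r - s)
    rw [p1]
    have : d * (E.L - (r + s)) = d * (E.L - r - s) := by ring
    linarith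
  · intro u hu0 hu1
    have hu1' : u ≤ η * (E.L - r) := hu1
    have hη : 0 ≤ η := by
      by_contra hcon
      push Not at hcon
      have : η * (E.L - r) < 0 := mul_neg_of_neg_of_pos hcon (by linarith)
      linarith
    have e1 := hC.ang u hu0 (hu1'.trans (mul_le_mul_of_nonneg_left (by linarith) hη))
    have e2 := p3 (E.L - r) u (by linarith) le_rfl hu0.le
    rw [add_sub_cancel] at e2
    show f' (E.L - r) 0 + S * u ≤ f' (E.L - r) u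
    rw [p1]
    linarith

/-! ## L-252-NORM-S5 : lifting -/

/-- systems lift; time costs add -/
theorem k2n_lift_sys (hE : E.Ok) (Y : E.Sys) (r h : ℝ) (hY : E.IsSys Y r h) (s h' : ℝ) (Y' : (E.norm Y r).Sys)
    (hY' : (E.norm Y r).IsSys Y' s h') : E.IsSys (E.lift Y r Y') (r + s) (h + h') := by
  obtain ⟨_, ⟨M0, hP⟩, _⟩ := hE
  obtain ⟨⟨M, hM⟩, hG, hq⟩ := hY
  obtain ⟨⟨M', hM'⟩, hG', hq'⟩ := hY'
  refine ⟨⟨3 + 2 * max M 0 + max M' 0, ?_⟩, fun τ hτ => ?_, ?_⟩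
  · filter_upwards [hM, hM', hG 1 one_pos] with k h1 h2 h3
    refine ⟨(Y k).k2n_lift_WF (E.a r k) (Y' k) h1.1 (E.k2n_a_pos r k) h2.1, ?_⟩
    have hN1 := kb_res_one_le E.R k
    have hN0 := kb_res_pos E.R k
    have t1 : (Y k).Tmp (E.R.N k ^ max M 0) :=
      k2n_s5_tmp_mono _ (Real.rpow_le_rpow_of_exponent_le hN1 (le_max_left _ _)) h1.2
    have t2 : (Y' k).Tmp (E.R.N k ^ max M' 0) :=
      k2n_s5_tmp_mono _ (Real.rpow_le_rpow_of_exponent_le hN1 (le_max_left _ _)) h2.2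
    have t3 := (Y k).k2n_lift_Tmp (E.a r k) (Y' k) h1.1 (E.R.N k ^ (1 : ℝ)) _ _ (Real.one_le_rpow hN1 zero_le_one)
      (Real.one_le_rpow hN1 (le_max_right _ _)) (Real.one_le_rpow hN1 (le_max_right _ _)) h3.1 t1 t2
    refine k2n_s5_tmp_mono _ ?_ t3
    have e4 : (4 : ℝ) ≤ E.R.N k ^ (2 : ℝ) := by
      have := E.R.two_le k
      rw [Real.rpow_two]
      nlinarith
    have e5 : E.R.N k ^ (3 + 2 * max M 0 + max M' 0)
        = E.R.N k ^ (2 : ℝ) * E.R.N k ^ (1 : ℝ) * (E.R.N k ^ max M 0) ^ 2 * E.R.N k ^ max M' 0 := by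
      rw [← Real.rpow_natCast (E.R.N k ^ max M 0) 2, ← Real.rpow_mul hN0.le, ← Real.rpow_add hN0,
        ← Real.rpow_add hN0, ← Real.rpow_add hN0]
      congr 1
      push_cast
      ring
    rw [e5]
    have p1 := Real.rpow_pos_of_pos hN0 (1 : ℝ)
    have p2 := Real.rpow_pos_of_pos hN0 (max M 0)
    have p3 := Real.rpow_pos_of_pos hN0 (max M' 0)
    gcongr
  · filter_upwards [hP, hM, hM', hG (τ / 2) (by positivity), hG' (τ / 2) (by positivity)] with k h0 h1 h2 h3 h4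
    have hN1 := kb_res_one_le E.R k
    have hK : 1 ≤ E.R.N k ^ (τ / 2) := Real.one_le_rpow hN1 (by positivity)
    have g1 := (Y k).k2n_lift_Geo (E.a r k) (Y' k) h0.1 h1.1 (E.k2n_a_pos r k) h2.1 _ _ (E.a s k) hK hK
      (E.k2n_a_pos s k) h3.1 h4.1
    have g2 := (Y k).k2n_lift_Big (E.a r k) (Y' k) h0.1 h1.1 h2.1 _ _ hK hK h3.2 h4.2
    rw [kb_rpow_half] at g1 g2
    rw [k2n_a_mul] at g1
    exact ⟨g1, g2⟩
  · have := kb_exp_mul E.R hq hq'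
    intro τ hτ
    filter_upwards [this τ hτ] with k hk
    have e : (E.lift Y r Y' k).q = (Y k).q * (Y' k).q := k2n_s5_lift_q _ _ _
    rw [e]
    exact hk

/-- the two comparisons `n J_c / ν_c ∼ n'` -/
theorem k2n_s5_cmp (hE : E.Ok) (Y : E.Sys) (e g : ℝ) (he : E.ChExp Y (E.k2nXJ Y) e) (τ : ℝ) (hτ : 0 < τ) :
    ∀ᶠ k in uf, (∀ c, ENNReal.ofReal (E.R.N k ^ (-g) * ((Y k).ch c).J)
        ≤ ENNReal.ofReal (E.R.N k ^ τ * E.R.N k ^ (-(g + e))) * (Y k).nuC c) ∧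
      ∀ c, ENNReal.ofReal (E.R.N k ^ (-(g + e))) * (Y k).nuC c
        ≤ ENNReal.ofReal (E.R.N k ^ τ * E.R.N k ^ (-g) * ((Y k).ch c).J) := by
  filter_upwards [E.k2n_XJ_bounds hE Y e he τ hτ] with k hk
  have hN0 := kb_res_pos E.R k
  constructor
  · intro c
    obtain ⟨_, h1, _⟩ := hk c
    have e1 : E.R.N k ^ τ * E.R.N k ^ (-(g + e)) = E.R.N k ^ (-g) * E.R.N k ^ (-e + τ) := by
      rw [← Real.rpow_add hN0, ← Real.rpow_add hN0]
      congr 1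
      ring
    rw [e1, ENNReal.ofReal_mul (Real.rpow_nonneg hN0.le _), ENNReal.ofReal_mul (Real.rpow_nonneg hN0.le _), mul_assoc]
    gcongr
  · intro c
    obtain ⟨_, _, h2⟩ := hk c
    have e1 : E.R.N k ^ (-(g + e)) = (E.R.N k ^ τ * E.R.N k ^ (-g)) * E.R.N k ^ (-e - τ) := by
      rw [← Real.rpow_add hN0, ← Real.rpow_add hN0]
      congr 1
      ring
    have p : 0 ≤ E.R.N k ^ τ * E.R.N k ^ (-g) :=
      mul_nonneg (Real.rpow_nonneg hN0.le _) (Real.rpow_nonneg hN0.le _)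
    rw [e1, ENNReal.ofReal_mul p, ENNReal.ofReal_mul p, mul_assoc]
    gcongr

/-- true floors lift through the density equality -/
theorem k2n_lift_true (hE : E.Ok) (Y : E.Sys) (r h e : ℝ) (hY : E.IsSys Y r h) (he : E.ChExp Y (E.k2nXJ Y) e) (s h' g : ℝ)
    (Y' : (E.norm Y r).Sys) (hY' : (E.norm Y r).IsSys Y' s h') (hT : (E.norm Y r).IsTrue Y' (g + e)) : E.IsTrue (E.lift Y r Y') g := by
  intro τ hτ
  have hE' := hE
  obtain ⟨_, ⟨M0, hP⟩, _⟩ := hE'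
  obtain ⟨⟨M, hM⟩, _, _⟩ := hY
  obtain ⟨⟨M', hM'⟩, _, _⟩ := hY'
  filter_upwards [hP, hM, hM', E.k2n_s5_cmp hE Y e g he (τ / 2) (by positivity), hT (τ / 2) (by positivity)]
    with k h0 h1 h2 h3 h4
  have hN1 := kb_res_one_le E.R k
  have hN0 := kb_res_pos E.R k
  have hK : 1 ≤ E.R.N k ^ (τ / 2) := Real.one_le_rpow hN1 (by positivity)
  have := (Y k).k2n_lift_Tru (E.a r k) (Y' k) h0.1 h1.1 h2.1 _ _ (E.R.N k ^ (-g)) (E.R.N k ^ (-(g + e))) hK hK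
    (Real.rpow_nonneg hN0.le _) (Real.rpow_nonneg hN0.le _) h3.1 h4
  rw [kb_rpow_half] at this
  exact this

/-- saturation lifts through the density equality -/
theorem k2n_lift_sat (hE : E.Ok) (Y : E.Sys) (r h e : ℝ) (hY : E.IsSys Y r h) (he : E.ChExp Y (E.k2nXJ Y) e) (s h' g : ℝ)
    (Y' : (E.norm Y r).Sys) (hY' : (E.norm Y r).IsSys Y' s h') (hT : (E.norm Y r).IsSat Y' (g + e)) : E.IsSat (E.lift Y r Y') g := by
  intro τ hτ
  have hE' := hE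
  obtain ⟨_, ⟨M0, hP⟩, _⟩ := hE'
  obtain ⟨⟨M, hM⟩, _, _⟩ := hY
  obtain ⟨⟨M', hM'⟩, _, _⟩ := hY'
  filter_upwards [hP, hM, hM', E.k2n_s5_cmp hE Y e g he (τ / 2) (by positivity), hT (τ / 2) (by positivity)]
    with k h0 h1 h2 h3 h4
  have hN1 := kb_res_one_le E.R k
  have hN0 := kb_res_pos E.R k
  have hK : 1 ≤ E.R.N k ^ (τ / 2) := Real.one_le_rpow hN1 (by positivity)
  have := (Y k).k2n_lift_Sat (E.a r k) (Y' k) h0.1 h1.1 h2.1 _ _ (E.R.N k ^ (-g)) (E.R.N k ^ (-(g + e))) hK hK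
    (Real.rpow_nonneg hN0.le _) (Real.rpow_nonneg hN0.le _) h3.1 h3.2 h4
  rw [kb_rpow_half] at this
  exact this

/-- label knowledge composes (04 l.255-257) -/
theorem k2n_lift_known (hE : E.Ok) (Y : E.Sys) (r h : ℝ) (hY : E.IsSys Y r h) (s : ℝ) (hKn : E.IsKnown Y (r + s)) (Y' : (E.norm Y r).Sys)
    (s₀ h' : ℝ) (hY' : (E.norm Y r).IsSys Y' s₀ h') (hKn' : (E.norm Y r).IsKnown Y' s) : E.IsKnown (E.lift Y r Y') (r + s) := by
  intro τ hτ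
  obtain ⟨_, ⟨M0, hP⟩, _⟩ := hE
  obtain ⟨⟨M, hM⟩, _, _⟩ := hY
  obtain ⟨⟨M', hM'⟩, _, _⟩ := hY'
  filter_upwards [hP, hM, hM', hKn (τ / 3) (by positivity), hKn' (τ / 3) (by positivity),
    (kb_rpow_tendsto E.R (show 0 < τ / 3 by positivity)).eventually_ge_atTop 3] with k h0 h1 h2 h3 h4 h5
  have hN0 := kb_res_pos E.R k
  have p := Real.rpow_pos_of_pos hN0 (τ / 3)
  have e1 : E.hid (r + s) k = (E.P k).hid (E.a r k * E.a s k) := by
    rw [k2n_a_mul]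
    rfl
  rw [e1] at h3 ⊢
  have := (Y k).k2n_lift_Known h0.1 h1.1 (E.a r k) (E.a s k) _ _ (E.k2n_a_pos r k) (E.k2n_a_pos s k) p.le p.le (Y' k) h2.1 h3 h4
  refine k2n_s5_known_mono _ _ ?_ this
  have e2 : E.R.N k ^ τ = E.R.N k ^ (τ / 3) * E.R.N k ^ (τ / 3) * E.R.N k ^ (τ / 3) := by
    rw [← Real.rpow_add hN0, ← Real.rpow_add hN0]
    congr 1
    ring
  rw [e2]
  gcongr

end KbEx

/-! ## EXITS = the hubs of `Base/Hub2.lean` (same statements) -/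

theorem k2n_hub_lift_true (E : KbEx v) (hE : E.Ok) (f f' : ℝ → ℝ → ℝ) (hf : E.Hom f) (Y : E.Sys) (r h e : ℝ) (hr : 0 ≤ r) (hrL : r < E.L)
    (hY : E.IsAtlas Y r h) (he : E.ChExp Y (fun k c => ((Y k).ch c).J / ((Y k).nuC c).toReal) e)
    (hf' : (E.norm Y r).Hom f') (s : ℝ) (hs : 0 < s) (hsL : s ≤ E.L - r) (heq : f' s 0 = f (r + s) 0 + e)
    (Y' : (E.norm Y r).Sys) (h' : ℝ) (hY' : (E.norm Y r).IsTrueSys f' Y' s h') :
    E.IsTrueSys f (E.lift Y r Y') (r + s) (h + h') := by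
  refine ⟨E.k2n_lift_sys hE Y r h hY.1 s h' Y' hY'.1, E.k2n_lift_true hE Y r h e hY.1 he s h' _ Y' hY'.1 ?_⟩
  rw [← heq]
  exact hY'.2

theorem k2n_hub_lift_atlas (E : KbEx v) (hE : E.Ok) (Y : E.Sys) (r h : ℝ) (hr : 0 ≤ r) (hrL : r < E.L) (hY : E.IsAtlas Y r h)
    (s : ℝ) (hs : 0 ≤ s) (hsL : s ≤ E.L - r) (Y' : (E.norm Y r).Sys) (h' : ℝ) (hY' : (E.norm Y r).IsAtlas Y' s h') :
    E.IsAtlas (E.lift Y r Y') (r + s) (h + h') := by
  refine ⟨E.k2n_lift_sys hE Y r h hY.1 s h' Y' hY'.1, ?_⟩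
  have h1 := E.k2n_lift_known hE Y r h hY.1 (E.L - r) (by rw [add_sub_cancel]; exact hY.2) Y' s h' hY'.1 hY'.2
  rw [add_sub_cancel] at h1
  exact h1

theorem k2n_hub_narrow_add (E : KbEx v) (Y : E.Sys) (r : ℝ) (Y' : (E.norm Y r).Sys) (l l' : ℝ) (h : E.Narrow Y l)
    (h' : (E.norm Y r).Narrow Y' l') : E.Narrow (E.lift Y r Y') (l + l') := by
  intro τ hτ
  filter_upwards [h (τ / 2) (by positivity), h' (τ / 2) (by positivity)] with k h1 h2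
  intro d
  have hN0 := kb_res_pos E.R k
  obtain ⟨a1, a2⟩ := h1 ((Y' k).wd d)
  obtain ⟨b1, b2⟩ := h2 d
  have b1' : E.R.N k ^ (- -l' - τ / 2) ≤ (Y' k).q ^ 2 / ((Y' k).ch d).J := b1
  have b2' : (Y' k).q ^ 2 / ((Y' k).ch d).J ≤ E.R.N k ^ (- -l' + τ / 2) := b2
  have e : (E.lift Y r Y' k).q ^ 2 / ((E.lift Y r Y' k).ch d).J
      = ((Y k).q ^ 2 / ((Y k).ch ((Y' k).wd d)).J) * ((Y' k).q ^ 2 / ((Y' k).ch d).J) := by
    have e1 : (E.lift Y r Y' k).q = (Y k).q * (Y' k).q := k2n_s5_lift_q _ _ _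
    have e2 : ((E.lift Y r Y' k).ch d).J = ((Y k).ch ((Y' k).wd d)).J * ((Y' k).ch d).J := k2n_s5_lift_J _ _ _ d
    rw [e1, e2, mul_pow, mul_div_mul_comm]
  rw [e]
  have p1 := Real.rpow_pos_of_pos hN0 (- -l - τ / 2)
  have p2 := Real.rpow_pos_of_pos hN0 (- -l' - τ / 2)
  constructor
  · calc E.R.N k ^ (- -(l + l') - τ) = E.R.N k ^ (- -l - τ / 2) * E.R.N k ^ (- -l' - τ / 2) := by
          rw [← Real.rpow_add hN0]
          congr 1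
          ring
      _ ≤ _ := mul_le_mul a1 b1' p2.le (p1.le.trans a1)
  · calc _ ≤ E.R.N k ^ (- -l + τ / 2) * E.R.N k ^ (- -l' + τ / 2) :=
          mul_le_mul a2 b2' (p2.le.trans b1') (Real.rpow_nonneg hN0.le _)
      _ = E.R.N k ^ (- -(l + l') + τ) := by
          rw [← Real.rpow_add hN0]
          congr 1
          ring

end

end Claimed.Agent.R252
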