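import Claimed.Agent.R252.Norm.Quad

/-!
# ROW 252 (S0492), unit NORM (post BP-252-S2aC, sub-architect helper22), file 3: HIDDEN COORDINATE AND TESTS OF `Y.norm a`, `Y.lift a Y'`  (02-framework.tex l.712-735, 806-838).
CONTRACT file: every `sorry` is a leaf `L-252-NORM-T*`.  Exact identities at ONE scale, no measure theory.  Prefix `k2n_`.
Notation of the docstrings: `c` a chart of `Y`, `γ = Y.wd c`, `d` a chart of `Y'`, `c = Y'.wd d`, `t = Y.tOf c τ`.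
-/

set_option autoImplicit false

namespace Claimed.Agent.R252

open scoped BigOperators

noncomputable section

variable {v : KbVer}

namespace KbSys

variable {P : KbPb v} (Y : KbSys P)

/-! ## L-252-NORM-T1 : the normalised problem -/

/-- the new hidden coordinate along a trajectory (`k2n_X_poly`, `k2n_fit_one`, `k2n_fit_two`; `cases v`) -/
theorem k2n_W_coN (a : ℝ) (c : Y.C) (hadm : KbAdm (Y.ch c).T) (l : P.Lam) (τ : ℝ) :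
    kbW (Y.coN a c l) τ
      = Y.wOf a c (Y.tOf c τ) (kbY (P.co (Y.wd c) l) (Y.tOf c τ)) (kbW (P.co (Y.wd c) l) (Y.tOf c τ)) := by
  cases v
  · obtain ⟨c0, c1, c2, hc⟩ := k2n_X_poly hadm (P.co (Y.wd c) l)
    refine k2n_fit_one
      (fun τ => Y.wOf a c (Y.tOf c τ) (kbY (P.co (Y.wd c) l) (Y.tOf c τ)) (kbW (P.co (Y.wd c) l) (Y.tOf c τ)))
      ((c0 + c1 * Y.tc c + c2 * Y.tc c ^ 2) / a) ((c1 * Y.q + 2 * c2 * Y.tc c * Y.q) / a) (c2 * Y.q ^ 2 / a)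
      (fun t => ?_) _ _ τ
    have h1 := hc (Y.tOf c t)
    unfold kbX at h1
    simp only [wOf, if_true]
    rw [h1]
    unfold tOf
    ring
  · refine k2n_fit_two
      (fun τ => Y.wOf a c (Y.tOf c τ) (kbY (P.co (Y.wd c) l) (Y.tOf c τ)) (kbW (P.co (Y.wd c) l) (Y.tOf c τ)))
      ((P.co (Y.wd c) l).2.2 (0 : Fin 2) + (P.co (Y.wd c) l).2.2 (1 : Fin 2) * Y.tc c)
      ((P.co (Y.wd c) l).2.2 (1 : Fin 2) * Y.q) (fun t => ?_) _ _ τ
    simp only [wOf, reduceCtorEq, if_false]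
    unfold kbW
    rw [k2n_sum_e_two]
    simp only [Fin.val_zero, Fin.val_one]
    unfold tOf
    ring

/-- the new native signal is `T_c / a` along the old trajectory -/
theorem k2n_X_norm (a : ℝ) (c : Y.C) (hadm : KbAdm (Y.ch c).T) (hinv : (Y.ch c).D * (Y.ch c).Di = 1) (l : P.Lam) (τ : ℝ) :
    kbX ((Y.norm a).Pst c) (Y.coN a c l) τ = kbX (Y.ch c).T (P.co (Y.wd c) l) (Y.tOf c τ) / a := by
  unfold kbX
  rw [Y.k2n_W_coN a c hadm l τ, Y.k2n_Y_coN a c l τ]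
  show (if v = KbVer.one then _ else _) = _
  rw [Y.k2n_yOf_zOf c hinv]
  unfold wOf
  split_ifs <;> rfl

theorem k2n_Dw_norm (a : ℝ) (c : Y.C) (hadm : KbAdm (Y.ch c).T) (hinv : (Y.ch c).D * (Y.ch c).Di = 1) (l : P.Lam) (τ : ℝ) :
    kbX (kbDw ((Y.norm a).Pst c)) (Y.coN a c l) τ
      = if v = KbVer.one then 1 else kbX (kbDw (Y.ch c).T) (P.co (Y.wd c) l) (Y.tOf c τ) / a := by
  unfold kbX kbDw
  rw [Y.k2n_W_coN a c hadm l τ, Y.k2n_Y_coN a c l τ]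
  show ((if v = KbVer.one then _ else _) - (if v = KbVer.one then _ else _)) / 2 = _
  rw [Y.k2n_yOf_zOf c hinv]
  unfold wOf
  split_ifs
  · ring
  · ring

theorem k2n_Dww_norm (a : ℝ) (c : Y.C) (τ : ℝ) (z : KbB v) (w : ℝ) :
    kbDww ((Y.norm a).Pst c) τ z w = if v = KbVer.one then 0 else kbDww (Y.ch c).T (Y.tOf c τ) (Y.yOf c τ z) w / a := by
  unfold kbDww
  show (if v = KbVer.one then _ else _) - 2 * (if v = KbVer.one then _ else _) + (if v = KbVer.one then _ else _) = _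
  split_ifs
  · ring
  · ring

/-- the new native test is in the model class (`k2n_quad_subst`, `k2n_quad_w`) -/
theorem k2n_Pst_adm (a : ℝ) (c : Y.C) (hadm : KbAdm (Y.ch c).T) : KbAdm ((Y.norm a).Pst c) := by
  by_cases hv : v = KbVer.one
  · have e : (Y.norm a).Pst c = fun _ _ w => w := by
      funext τ z w
      show (if v = KbVer.one then _ else _) = _
      rw [if_pos hv]
    rw [e]
    exact ⟨k2n_quad_w, fun _ t y w => by ring⟩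
  · refine ⟨?_, fun h => absurd h hv⟩
    have h1 := k2n_quad_subst hadm.1 a⁻¹ (Y.tc c) Y.q ((Y.ch c).y0 + Y.tc c • (Y.ch c).y1) (Y.q • (Y.ch c).y1) (Y.ch c).D
    have e : (Y.norm a).Pst c = fun τ z w => a⁻¹ * (Y.ch c).T (Y.tc c + Y.q * τ)
        ((Y.ch c).y0 + Y.tc c • (Y.ch c).y1 + τ • (Y.q • (Y.ch c).y1) + (Y.ch c).D.mulVec z) w := by
      funext τ z w
      show (if v = KbVer.one then _ else _) = _
      rw [if_neg hv, div_eq_inv_mul]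
      congr 2
      unfold yOf KbChart.yc tOf
      congr 1
      ext i
      simp only [Pi.add_apply, Pi.smul_apply, smul_eq_mul]
      ring
    rw [e]
    exact h1

/-! ## L-252-NORM-T2 : times, centres, matrices of the lift -/

variable (a : ℝ) (Y' : KbSys (Y.norm a))

theorem k2n_lift_q : (Y.lift a Y').q = Y.q * Y'.q := k2n_kbQ_add _ _

theorem k2n_lift_tc (d : Y'.C) : (Y.lift a Y').tc d = Y.tOf (Y'.wd d) (Y'.tc d) := by
  show ((Y.iv (Y'.wd d) * 2 ^ Y'.n + Y'.iv d : ℕ) : ℝ) * kbQ (Y.n + Y'.n)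
    = (Y.iv (Y'.wd d) : ℝ) * kbQ Y.n + kbQ Y.n * ((Y'.iv d : ℝ) * kbQ Y'.n)
  have h := k2n_kbQ_mul_two_pow Y'.n
  rw [k2n_kbQ_add]
  push_cast
  calc ((Y.iv (Y'.wd d) : ℝ) * 2 ^ Y'.n + (Y'.iv d : ℝ)) * (kbQ Y.n * kbQ Y'.n)
      = (Y.iv (Y'.wd d) : ℝ) * kbQ Y.n * (kbQ Y'.n * 2 ^ Y'.n) + kbQ Y.n * ((Y'.iv d : ℝ) * kbQ Y'.n) := by ring
    _ = _ := by rw [h, mul_one]

theorem k2n_lift_I (d : Y'.C) (t : ℝ) : t ∈ (Y.lift a Y').I d ↔ Y.tauOf (Y'.wd d) t ∈ Y'.I d := by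
  have hq := Y.k2n_q_pos
  have h1 : (Y.lift a Y').I d = Set.Ico ((Y.lift a Y').tc d) ((Y.lift a Y').tc d + (Y.lift a Y').q) := by
    show Set.Ico _ _ = Set.Ico _ _
    congr 1
    show _ = ((Y.lift a Y').iv d : ℝ) * kbQ (Y.lift a Y').n + kbQ (Y.lift a Y').n
    ring
  have h2 : Y'.I d = Set.Ico (Y'.tc d) (Y'.tc d + Y'.q) := by
    show Set.Ico _ _ = Set.Ico _ _
    congr 1
    show _ = (Y'.iv d : ℝ) * kbQ Y'.n + kbQ Y'.n
    ring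
  rw [h1, h2, k2n_lift_tc, k2n_lift_q]
  unfold tOf tauOf
  simp only [Set.mem_Ico]
  rw [le_div_iff₀ hq, div_lt_iff₀ hq]
  constructor
  · rintro ⟨h3, h4⟩
    constructor <;> nlinarith
  · rintro ⟨h3, h4⟩
    constructor <;> nlinarith

theorem k2n_lift_iv_lt (d : Y'.C) (h : Y.iv (Y'.wd d) < 2 ^ Y.n) (h' : Y'.iv d < 2 ^ Y'.n) :
    (Y.lift a Y').iv d < 2 ^ (Y.lift a Y').n := by
  show Y.iv (Y'.wd d) * 2 ^ Y'.n + Y'.iv d < 2 ^ (Y.n + Y'.n)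
  rw [pow_add]
  calc Y.iv (Y'.wd d) * 2 ^ Y'.n + Y'.iv d < Y.iv (Y'.wd d) * 2 ^ Y'.n + 2 ^ Y'.n := by omega
    _ = (Y.iv (Y'.wd d) + 1) * 2 ^ Y'.n := by ring
    _ ≤ 2 ^ Y.n * 2 ^ Y'.n := Nat.mul_le_mul_right _ h

/-- equal composed intervals have equal parents and equal children -/
theorem k2n_lift_iv_inj (d d' : Y'.C) (h : Y'.iv d < 2 ^ Y'.n) (h' : Y'.iv d' < 2 ^ Y'.n)
    (he : (Y.lift a Y').iv d = (Y.lift a Y').iv d') : Y.iv (Y'.wd d) = Y.iv (Y'.wd d') ∧ Y'.iv d = Y'.iv d' := by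
  have he' : Y.iv (Y'.wd d) * 2 ^ Y'.n + Y'.iv d = Y.iv (Y'.wd d') * 2 ^ Y'.n + Y'.iv d' := he
  have hpos : 0 < 2 ^ Y'.n := by positivity
  have h1 : (Y.iv (Y'.wd d) * 2 ^ Y'.n + Y'.iv d) / 2 ^ Y'.n = Y.iv (Y'.wd d) := by
    rw [Nat.add_comm, Nat.add_mul_div_right _ _ hpos, Nat.div_eq_of_lt h, Nat.zero_add]
  have h2 : (Y.iv (Y'.wd d') * 2 ^ Y'.n + Y'.iv d') / 2 ^ Y'.n = Y.iv (Y'.wd d') := by
    rw [Nat.add_comm, Nat.add_mul_div_right _ _ hpos, Nat.div_eq_of_lt h', Nat.zero_add]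
  have h3 : Y.iv (Y'.wd d) = Y.iv (Y'.wd d') := by rw [← h1, ← h2, he']
  refine ⟨h3, ?_⟩
  rw [h3] at he'
  omega

theorem k2n_lift_J (d : Y'.C) : ((Y.lift a Y').ch d).J = (Y.ch (Y'.wd d)).J * (Y'.ch d).J := by
  unfold KbChart.J
  show |((Y.ch (Y'.wd d)).D * (Y'.ch d).D).det| = _
  rw [Matrix.det_mul, abs_mul]

/-- narrowness adds exactly (02 l.848-853) -/
theorem k2n_lift_narrow (d : Y'.C) :
    (Y.lift a Y').q ^ 2 / ((Y.lift a Y').ch d).J = (Y.q ^ 2 / (Y.ch (Y'.wd d)).J) * (Y'.q ^ 2 / (Y'.ch d).J) := by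
  rw [k2n_lift_q, k2n_lift_J, mul_pow, mul_div_mul_comm]

theorem k2n_lift_inv (d : Y'.C) (h : (Y.ch (Y'.wd d)).D * (Y.ch (Y'.wd d)).Di = 1) (h' : (Y'.ch d).D * (Y'.ch d).Di = 1) :
    ((Y.lift a Y').ch d).D * ((Y.lift a Y').ch d).Di = 1 := by
  show ((Y.ch (Y'.wd d)).D * (Y'.ch d).D) * ((Y'.ch d).Di * (Y.ch (Y'.wd d)).Di) = 1
  rw [Matrix.mul_assoc, ← Matrix.mul_assoc (Y'.ch d).D, h', Matrix.one_mul, h]

theorem k2n_lift_yc (d : Y'.C) (t : ℝ) :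
    ((Y.lift a Y').ch d).yc t
      = (Y.ch (Y'.wd d)).yc t + (Y.ch (Y'.wd d)).D.mulVec ((Y'.ch d).yc (Y.tauOf (Y'.wd d) t)) := by
  show ((Y.ch (Y'.wd d)).y0 + (Y.ch (Y'.wd d)).D.mulVec ((Y'.ch d).y0 - (Y.tc (Y'.wd d) / Y.q) • (Y'.ch d).y1))
      + t • ((Y.ch (Y'.wd d)).y1 + (1 / Y.q) • (Y.ch (Y'.wd d)).D.mulVec (Y'.ch d).y1)
    = ((Y.ch (Y'.wd d)).y0 + t • (Y.ch (Y'.wd d)).y1)
      + (Y.ch (Y'.wd d)).D.mulVec ((Y'.ch d).y0 + ((t - Y.tc (Y'.wd d)) / Y.q) • (Y'.ch d).y1)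
  rw [Matrix.mulVec_sub, Matrix.mulVec_add, Matrix.mulVec_smul, Matrix.mulVec_smul]
  ext i
  simp only [Pi.add_apply, Pi.sub_apply, Pi.smul_apply, smul_eq_mul]
  ring

/-- the box coordinate of the lift is the box coordinate of the child -/
theorem k2n_lift_box (d : Y'.C) (h : (Y.ch (Y'.wd d)).D * (Y.ch (Y'.wd d)).Di = 1) (t : ℝ) (y : KbB v) :
    ((Y.lift a Y').ch d).Di.mulVec (y - ((Y.lift a Y').ch d).yc t)
      = (Y'.ch d).Di.mulVec (Y.zOf (Y'.wd d) t y - (Y'.ch d).yc (Y.tauOf (Y'.wd d) t)) := by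
  rw [k2n_lift_yc]
  show ((Y'.ch d).Di * (Y.ch (Y'.wd d)).Di).mulVec _ = _
  rw [← Matrix.mulVec_mulVec]
  congr 1
  unfold zOf
  rw [← sub_sub, Matrix.mulVec_sub, Matrix.mulVec_mulVec, Y.k2n_inv' _ h, Matrix.one_mulVec]

/-! ## L-252-NORM-T3 : tests of the lift -/

/-- tests lift by multiplication by `a` -/
theorem k2n_lift_X (d : Y'.C) (hadm : KbAdm (Y.ch (Y'.wd d)).T) (l : P.Lam) (t : ℝ) :
    kbX ((Y.lift a Y').ch d).T (P.co (Y.wd (Y'.wd d)) l) t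
      = a * kbX (Y'.ch d).T (Y.coN a (Y'.wd d) l) (Y.tauOf (Y'.wd d) t) := by
  have hW := Y.k2n_W_coN a (Y'.wd d) hadm l (Y.tauOf (Y'.wd d) t)
  have hY := Y.k2n_Y_coN a (Y'.wd d) l (Y.tauOf (Y'.wd d) t)
  rw [Y.k2n_tOf_tauOf (Y'.wd d) t] at hW hY
  unfold kbX
  rw [hW, hY]
  rfl

theorem k2n_lift_Dw (ha : a ≠ 0) (d : Y'.C) (hadm : KbAdm (Y.ch (Y'.wd d)).T) (hadm' : KbAdm (Y'.ch d).T) (l : P.Lam) (t : ℝ) :
    kbX (kbDw ((Y.lift a Y').ch d).T) (P.co (Y.wd (Y'.wd d)) l) t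
      = (if v = KbVer.one then 1 else a) * kbX (kbDw (Y'.ch d).T) (Y.coN a (Y'.wd d) l) (Y.tauOf (Y'.wd d) t) := by
  have hW := Y.k2n_W_coN a (Y'.wd d) hadm l (Y.tauOf (Y'.wd d) t)
  have hY := Y.k2n_Y_coN a (Y'.wd d) l (Y.tauOf (Y'.wd d) t)
  rw [Y.k2n_tOf_tauOf (Y'.wd d) t] at hW hY
  unfold kbX kbDw
  rw [hW, hY]
  show (a * (Y'.ch d).T _ _ (Y.wOf a _ _ _ _) - a * (Y'.ch d).T _ _ (Y.wOf a _ _ _ _)) / 2 = _
  by_cases hv : v = KbVer.one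
  · simp only [wOf, if_pos hv]
    rw [hadm'.2 hv _ _ (_ / a), hadm'.2 hv _ _ (_ / a), hadm'.2 hv _ _ (_ + 1), hadm'.2 hv _ _ (_ - 1),
      hadm.2 hv _ _ (_ + 1), hadm.2 hv _ _ (_ - 1)]
    field_simp
    ring
  · simp only [wOf, if_neg hv]
    ring

theorem k2n_lift_Dww (ha : a ≠ 0) (d : Y'.C) (hadm : KbAdm (Y.ch (Y'.wd d)).T) (hadm' : KbAdm (Y'.ch d).T) (t : ℝ) (y : KbB v) (w : ℝ) :
    kbDww ((Y.lift a Y').ch d).T t y w
      = (if v = KbVer.one then 0 else a) * kbDww (Y'.ch d).T (Y.tauOf (Y'.wd d) t) (Y.zOf (Y'.wd d) t y) (Y.wOf a (Y'.wd d) t y w) := by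
  unfold kbDww
  show a * (Y'.ch d).T _ _ (Y.wOf a _ _ _ _) - 2 * (a * (Y'.ch d).T _ _ (Y.wOf a _ _ _ _))
    + a * (Y'.ch d).T _ _ (Y.wOf a _ _ _ _) = _
  by_cases hv : v = KbVer.one
  · simp only [wOf, if_pos hv]
    rw [hadm'.2 hv _ _ ((Y.ch (Y'.wd d)).T t y (w + 1) / a), hadm'.2 hv _ _ ((Y.ch (Y'.wd d)).T t y w / a),
      hadm'.2 hv _ _ ((Y.ch (Y'.wd d)).T t y (w - 1) / a),
      hadm.2 hv _ _ (w + 1), hadm.2 hv _ _ (w - 1), hadm.2 hv _ _ w]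
    ring
  · simp only [wOf, if_neg hv]
    ring

/-- the lifted test is in the model class (version 1: `T_c + a T_d(τ,z,0)`; version 2: `k2n_quad_subst`) -/
theorem k2n_lift_adm (ha : a ≠ 0) (d : Y'.C) (hadm : KbAdm (Y.ch (Y'.wd d)).T) (hadm' : KbAdm (Y'.ch d).T) :
    KbAdm ((Y.lift a Y').ch d).T := by
  have harg : ∀ (t : ℝ) (y : KbB v), Y.zOf (Y'.wd d) t y
      = (Y.ch (Y'.wd d)).Di.mulVec (-(Y.ch (Y'.wd d)).y0) + t • (Y.ch (Y'.wd d)).Di.mulVec (-(Y.ch (Y'.wd d)).y1)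
        + (Y.ch (Y'.wd d)).Di.mulVec y := by
    intro t y
    unfold zOf KbChart.yc
    rw [← Matrix.mulVec_smul, ← Matrix.mulVec_add, ← Matrix.mulVec_add]
    congr 1
    ext i
    simp only [Pi.add_apply, Pi.sub_apply, Pi.smul_apply, Pi.neg_apply, smul_eq_mul]
    ring
  have htau : ∀ t : ℝ, Y.tauOf (Y'.wd d) t = -(Y.tc (Y'.wd d)) / Y.q + 1 / Y.q * t := by
    intro t
    unfold tauOf
    ring
  by_cases hv : v = KbVer.one
  · have e : ((Y.lift a Y').ch d).T = fun t y w => (Y.ch (Y'.wd d)).T t y w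
        + a * (Y'.ch d).T (-(Y.tc (Y'.wd d)) / Y.q + 1 / Y.q * t)
          ((Y.ch (Y'.wd d)).Di.mulVec (-(Y.ch (Y'.wd d)).y0) + t • (Y.ch (Y'.wd d)).Di.mulVec (-(Y.ch (Y'.wd d)).y1)
            + (Y.ch (Y'.wd d)).Di.mulVec y) 0 := by
      funext t y w
      show a * (Y'.ch d).T _ _ (Y.wOf a _ _ _ _) = _
      simp only [wOf, if_pos hv]
      rw [hadm'.2 hv, harg, htau]
      field_simp
    rw [e]
    refine ⟨k2n_quad_add hadm.1 (k2n_quad_subst (k2n_quad_zero hadm'.1) a _ _ _ _ _), fun _ t y w => ?_⟩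
    simp only
    rw [hadm.2 hv t y w]
    ring
  · refine ⟨?_, fun h => absurd h hv⟩
    have e : ((Y.lift a Y').ch d).T = fun t y w => a * (Y'.ch d).T (-(Y.tc (Y'.wd d)) / Y.q + 1 / Y.q * t)
          ((Y.ch (Y'.wd d)).Di.mulVec (-(Y.ch (Y'.wd d)).y0) + t • (Y.ch (Y'.wd d)).Di.mulVec (-(Y.ch (Y'.wd d)).y1)
            + (Y.ch (Y'.wd d)).Di.mulVec y) w := by
      funext t y w
      show a * (Y'.ch d).T _ _ (Y.wOf a _ _ _ _) = _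
      simp only [wOf, if_neg hv]
      rw [harg, htau]
    rw [e]
    exact k2n_quad_subst hadm'.1 a _ _ _ _ _

end KbSys

end

end Claimed.Agent.R252
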